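import Vale.Agent.P176.MathlibUsed
import Vale.Agent.P176.Statement

set_option linter.all false

section

section

/-!
# P176: the relations

`IsSl2 e f h` : three elements of a ring satisfy the relations of `sl2`.
`IsSRel e f h l v1 v2` : six elements of a ring satisfy the defining relations of the ring `S`
(used for `S` itself and for operators in `Module.End K X`).
-/

namespace Vale.Agent.P176

/-- The Borel relation `h e = e h + 2 e`. -/
structure IsBorel {R : Type*} [Ring R] (e h : R) : Prop where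
  he : h * e = e * h + 2 • e

/-- The relations of `sl2`. -/
structure IsSl2 {R : Type*} [Ring R] (e f h : R) : Prop where
  ef : e * f = f * e + h
  he : h * e = e * h + 2 • e
  hf : h * f = f * h - 2 • f

/-- The relations of the ring `S`. -/
structure IsSRel {R : Type*} [Ring R] (e f h l v1 v2 : R) : Prop extends IsSl2 e f h where
  le : l * e = e * l
  lf : l * f = f * l
  lh : l * h = h * l
  ev1 : e * v1 = v1 * e
  ev2 : e * v2 = v2 * e + v1
  fv1 : f * v1 = v1 * f + v2
  fv2 : f * v2 = v2 * f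
  hv1 : h * v1 = v1 * h + v1
  hv2 : h * v2 = v2 * h - v2
  lv1 : l * v1 = v1 * l - v1
  lv2 : l * v2 = v2 * l - v2
  v1l : v1 * l = -(2 • (v2 * e)) - v1 * h - 2 • v1
  v2l : v2 * l = -(2 • (v1 * f)) + v2 * h - 2 • v2
  v11 : v1 * v1 = 0
  v12 : v1 * v2 = 0
  v21 : v2 * v1 = 0
  v22 : v2 * v2 = 0

end Vale.Agent.P176
end
end

section

section

/-!
# P176: filtrations and levelwise exactness

All filtrations are indexed by `ℤ` and increasing.
-/

namespace Vale.Agent.P176

variable {K : Type*} [CommRing K]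
variable {W W' W'' : Type*} [AddCommGroup W] [Module K W] [AddCommGroup W'] [Module K W']
  [AddCommGroup W''] [Module K W'']

/-- The linear map `A` has filtered degree `d`. -/
def FilDeg (Fil : ℤ → Submodule K W) (Fil' : ℤ → Submodule K W') (d : ℤ) (A : W →ₗ[K] W') :
    Prop :=
  ∀ i, ∀ w ∈ Fil i, A w ∈ Fil' (i + d)

/-- Filtered module with operators of `sl2`. -/
structure IsFilSl2 (Fil : ℤ → Submodule K W) (e f h : Module.End K W) : Prop where
  mono : Monotone Fil
  e : FilDeg Fil Fil 1 e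
  f : FilDeg Fil Fil 1 f
  h : FilDeg Fil Fil 1 h

/-- Filtered module with operators of `S`. -/
structure IsFilS (Fil : ℤ → Submodule K W) (e f h l v1 v2 : Module.End K W) : Prop where
  mono : Monotone Fil
  e : FilDeg Fil Fil 1 e
  f : FilDeg Fil Fil 1 f
  h : FilDeg Fil Fil 1 h
  l : FilDeg Fil Fil 1 l
  v1 : FilDeg Fil Fil (-1) v1
  v2 : FilDeg Fil Fil (-1) v2

/-- `0 → W' → W → W'' → 0` is exact at every filtration level. -/
structure LevExact (Fil' : ℤ → Submodule K W') (Fil : ℤ → Submodule K W)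
    (Fil'' : ℤ → Submodule K W'') (a : W' →ₗ[K] W) (b : W →ₗ[K] W'') : Prop where
  inj : Function.Injective a
  comp : ∀ x, b (a x) = 0
  filA : ∀ i, ∀ x ∈ Fil' i, a x ∈ Fil i
  filB : ∀ i, ∀ x ∈ Fil i, b x ∈ Fil'' i
  exact : ∀ i, ∀ y ∈ Fil i, b y = 0 → ∃ x ∈ Fil' i, a x = y
  surj : ∀ i, ∀ z ∈ Fil'' i, ∃ y ∈ Fil i, b y = z

/-- The shifted filtration: `Fil (i - j)` at level `i`. -/
def shiftFil (Fil : ℤ → Submodule K W) (j : ℤ) : ℤ → Submodule K W := fun i => Fil (i - j)

/-- Polynomials `∑ t^a w_a` with `w_a ∈ Fil (i - a)`. -/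
def polyFil (Fil : ℤ → Submodule K W) (i : ℤ) : Submodule K (ℕ →₀ W) where
  carrier := {p | ∀ a : ℕ, p a ∈ Fil (i - a)}
  zero_mem' := fun a => by simp
  add_mem' := fun hx hy a => (Fil (i - a)).add_mem (hx a) (hy a)
  smul_mem' := fun c _ hx a => (Fil (i - a)).smul_mem c (hx a)

theorem mem_polyFil {Fil : ℤ → Submodule K W} {i : ℤ} {p : ℕ →₀ W} :
    p ∈ polyFil Fil i ↔ ∀ a : ℕ, p a ∈ Fil (i - a) := Iff.rfl

theorem single_mem_polyFil {Fil : ℤ → Submodule K W} {i : ℤ} {a : ℕ} {w : W}
    (hw : w ∈ Fil (i - a)) : Finsupp.single a w ∈ polyFil Fil i := by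
  intro b
  by_cases hab : a = b
  · subst hab; rwa [Finsupp.single_eq_same]
  · rw [Finsupp.single_eq_of_ne' hab]; exact Submodule.zero_mem _

theorem polyFil_shiftFil (Fil : ℤ → Submodule K W) (j : ℤ) :
    polyFil (shiftFil Fil j) = shiftFil (polyFil Fil) j := by
  funext i
  ext p
  simp only [mem_polyFil, shiftFil]
  refine forall_congr' fun a => ?_
  rw [sub_right_comm]

theorem polyFil_mono {Fil : ℤ → Submodule K W} (h : Monotone Fil) : Monotone (polyFil Fil) := by
  intro i j hij p hp a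
  exact h (by omega) (hp a)

/-- A linear functional of the monomials with filtered degree control. -/
theorem lsum_mem {Fil : ℤ → Submodule K W} {Y : Type*} [AddCommGroup Y] [Module K Y]
    (Z : Submodule K Y) {i : ℤ} (g : ℕ → W →ₗ[K] Y)
    (hg : ∀ k : ℕ, ∀ w ∈ Fil (i - k), g k w ∈ Z) {p : ℕ →₀ W} (hp : p ∈ polyFil Fil i) :
    Finsupp.lsum ℕ g p ∈ Z := by
  rw [Finsupp.lsum_apply, Finsupp.sum]
  exact Submodule.sum_mem _ fun k _ => hg k _ (hp k)

/-- Coefficientwise map. -/
noncomputable def polyMap (g : W →ₗ[K] W') : (ℕ →₀ W) →ₗ[K] (ℕ →₀ W') :=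
  Finsupp.mapRange.linearMap g

@[simp] theorem polyMap_apply (g : W →ₗ[K] W') (p : ℕ →₀ W) (a : ℕ) :
    polyMap g p a = g (p a) := by
  simp only [polyMap, Finsupp.mapRange.linearMap_apply, Finsupp.mapRange_apply]

@[simp] theorem polyMap_single (g : W →ₗ[K] W') (a : ℕ) (w : W) :
    polyMap g (Finsupp.single a w) = Finsupp.single a (g w) := by
  simp [polyMap]

theorem polyMap_fil {Fil : ℤ → Submodule K W} {Fil' : ℤ → Submodule K W'} {d : ℤ}
    {g : W →ₗ[K] W'} (hg : FilDeg Fil Fil' d g) : FilDeg (polyFil Fil) (polyFil Fil') d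
      (polyMap g) := by
  intro i p hp a
  rw [polyMap_apply]
  have := hg _ _ (hp a)
  rwa [show i + d - a = i - a + d by ring]

/-- Multiplication by the variable. -/
noncomputable def polyShift (K : Type*) [CommRing K] (W : Type*) [AddCommGroup W] [Module K W] :
    Module.End K (ℕ →₀ W) :=
  Finsupp.lmapDomain W K Nat.succ

@[simp] theorem polyShift_single (a : ℕ) (w : W) :
    polyShift K W (Finsupp.single a w) = Finsupp.single (a + 1) w := by
  simp [polyShift]

theorem polyShift_fil (Fil : ℤ → Submodule K W) :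
    FilDeg (polyFil Fil) (polyFil Fil) 1 (polyShift K W) := by
  intro i p hp a
  rcases Nat.eq_zero_or_pos a with h | h
  · subst h
    have : polyShift K W p 0 = 0 := by
      rw [polyShift, Finsupp.lmapDomain_apply]
      apply Finsupp.mapDomain_of_notMem_range
      simp
    rw [this]; exact Submodule.zero_mem _
  · obtain ⟨b, rfl⟩ : ∃ b, a = Nat.succ b := ⟨a - 1, by omega⟩
    have : polyShift K W p (Nat.succ b) = p b := by
      rw [polyShift, Finsupp.lmapDomain_apply]
      exact Finsupp.mapDomain_apply Nat.succ_injective _ _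
    rw [this]
    have h2 := hp b
    rwa [show i + 1 - ((Nat.succ b : ℕ) : ℤ) = i - b by push_cast; ring]

theorem LevExact.poly {Fil' : ℤ → Submodule K W'} {Fil : ℤ → Submodule K W}
    {Fil'' : ℤ → Submodule K W''} {a : W' →ₗ[K] W} {b : W →ₗ[K] W''}
    (h : LevExact Fil' Fil Fil'' a b) :
    LevExact (polyFil Fil') (polyFil Fil) (polyFil Fil'') (polyMap a) (polyMap b) where
  inj := by
    intro p q hpq
    ext k
    apply h.inj
    have := DFunLike.congr_fun hpq k
    simpa only [polyMap_apply] using this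
  comp := by
    intro x
    ext k
    simp only [polyMap_apply, h.comp, Finsupp.coe_zero, Pi.zero_apply]
  filA := fun i x hx k => by rw [polyMap_apply]; exact h.filA _ _ (hx k)
  filB := fun i x hx k => by rw [polyMap_apply]; exact h.filB _ _ (hx k)
  exact := by
    intro i y hy hby
    have h1 : ∀ k : ℕ, ∃ x ∈ Fil' (i - k), a x = y k := fun k => by
      apply h.exact _ _ (hy k)
      have := DFunLike.congr_fun hby k
      simpa only [polyMap_apply, Finsupp.coe_zero, Pi.zero_apply] using this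
    choose q hq1 hq2 using h1
    have h0 : ∀ k, y k = 0 → q k = 0 := fun k hk => h.inj (by rw [hq2, hk, map_zero])
    refine ⟨Finsupp.onFinset y.support q (fun k hk => ?_), ?_, ?_⟩
    · rw [Finsupp.mem_support_iff]; exact fun h' => hk (h0 k h')
    · intro k; exact hq1 k
    · ext k; simp only [polyMap_apply, Finsupp.onFinset_apply, hq2]
  surj := by
    intro i z hz
    have h1 : ∀ k : ℕ, ∃ y ∈ Fil (i - k), b y = z k ∧ (z k = 0 → y = 0) := fun k => by
      by_cases hk : z k = 0
      · exact ⟨0, Submodule.zero_mem _, by rw [hk, map_zero], fun _ => rfl⟩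
      · obtain ⟨y, hy, hy2⟩ := h.surj _ _ (hz k)
        exact ⟨y, hy, hy2, fun h' => absurd h' hk⟩
    choose q hq1 hq2 hq3 using h1
    refine ⟨Finsupp.onFinset z.support q (fun k hk => ?_), ?_, ?_⟩
    · rw [Finsupp.mem_support_iff]; exact fun h' => hk (hq3 k h')
    · intro k; exact hq1 k
    · ext k; simp only [polyMap_apply, Finsupp.onFinset_apply, hq2]

theorem LevExact.prod {V V' V'' : Type*} [AddCommGroup V] [Module K V] [AddCommGroup V']
    [Module K V'] [AddCommGroup V''] [Module K V'']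
    {Fil' : ℤ → Submodule K W'} {Fil : ℤ → Submodule K W}
    {Fil'' : ℤ → Submodule K W''} {a : W' →ₗ[K] W} {b : W →ₗ[K] W''}
    (h : LevExact Fil' Fil Fil'' a b)
    {FilV' : ℤ → Submodule K V'} {FilV : ℤ → Submodule K V}
    {FilV'' : ℤ → Submodule K V''} {a' : V' →ₗ[K] V} {b' : V →ₗ[K] V''}
    (h' : LevExact FilV' FilV FilV'' a' b') :
    LevExact (fun i => (Fil' i).prod (FilV' i)) (fun i => (Fil i).prod (FilV i))
      (fun i => (Fil'' i).prod (FilV'' i)) (a.prodMap a') (b.prodMap b') where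
  inj := by
    rintro ⟨x, y⟩ ⟨x', y'⟩ hxy
    simp only [LinearMap.prodMap_apply, Prod.mk.injEq] at hxy
    rw [h.inj hxy.1, h'.inj hxy.2]
  comp := fun x => by simp [h.comp, h'.comp]
  filA := fun i x hx => ⟨h.filA _ _ hx.1, h'.filA _ _ hx.2⟩
  filB := fun i x hx => ⟨h.filB _ _ hx.1, h'.filB _ _ hx.2⟩
  exact := by
    rintro i ⟨y, y'⟩ ⟨hy, hy'⟩ hb
    simp only [LinearMap.prodMap_apply, Prod.mk_eq_zero] at hb
    obtain ⟨x, hx, rfl⟩ := h.exact i y hy hb.1
    obtain ⟨x', hx', rfl⟩ := h'.exact i y' hy' hb.2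
    exact ⟨(x, x'), ⟨hx, hx'⟩, rfl⟩
  surj := by
    rintro i ⟨y, y'⟩ ⟨hy, hy'⟩
    obtain ⟨x, hx, rfl⟩ := h.surj i y hy
    obtain ⟨x', hx', rfl⟩ := h'.surj i y' hy'
    exact ⟨(x, x'), ⟨hx, hx'⟩, rfl⟩

theorem LevExact.shift {Fil' : ℤ → Submodule K W'} {Fil : ℤ → Submodule K W}
    {Fil'' : ℤ → Submodule K W''} {a : W' →ₗ[K] W} {b : W →ₗ[K] W''}
    (h : LevExact Fil' Fil Fil'' a b) (j : ℤ) :
    LevExact (shiftFil Fil' j) (shiftFil Fil j) (shiftFil Fil'' j) a b where
  inj := h.inj
  comp := h.comp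
  filA := fun i => h.filA (i - j)
  filB := fun i => h.filB (i - j)
  exact := fun i => h.exact (i - j)
  surj := fun i => h.surj (i - j)

end Vale.Agent.P176
end
end

section

section

/-!
# P176: the functor X3

`X3 W = W[l] ⊕ (V ⊗ W)` where `V` is two-dimensional, `V ⊗ W = W × W`.
-/

namespace Vale.Agent.P176

variable {K : Type*} [CommRing K]
variable {W : Type*} [AddCommGroup W] [Module K W]
variable {Y : Type*} [AddCommGroup Y] [Module K Y]

/-! ### evaluation of polynomials -/

/-- `∑ t^k w_k ↦ ∑ T^k (φ w_k)`. -/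
noncomputable def evT (T : Module.End K Y) (φ : W →ₗ[K] Y) : (ℕ →₀ W) →ₗ[K] Y :=
  Finsupp.lsum ℕ (fun k => (T ^ k) ∘ₗ φ)

@[simp] theorem evT_single (T : Module.End K Y) (φ : W →ₗ[K] Y) (k : ℕ) (w : W) :
    evT T φ (Finsupp.single k w) = (T ^ k) (φ w) := by
  simp only [evT, Finsupp.coe_lsum, LinearMap.coe_comp, Function.comp_apply, map_zero, Finsupp.sum_single_index]

theorem evT_shift (T : Module.End K Y) (φ : W →ₗ[K] Y) (p : ℕ →₀ W) :
    evT T φ (polyShift K W p) = T (evT T φ p) := by
  have : evT T φ ∘ₗ polyShift K W = T ∘ₗ evT T φ := by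
    apply Finsupp.lhom_ext
    intro k w
    simp [pow_succ']
  exact LinearMap.congr_fun this p

theorem evT_mem {Fil : ℤ → Submodule K W} {FilY : ℤ → Submodule K Y} {T : Module.End K Y}
    {φ : W →ₗ[K] Y} {d : ℤ} (hT : FilDeg FilY FilY 1 T) (hφ : FilDeg Fil FilY d φ) :
    FilDeg (polyFil Fil) FilY d (evT T φ) := by
  intro i p hp
  refine lsum_mem _ _ (fun k w hw => ?_) hp
  have h1 : ∀ (n : ℕ) (j : ℤ) (y : Y), y ∈ FilY j → (T ^ n) y ∈ FilY (j + n) := by
    intro n
    induction n with
    | zero => intro j y hy; simpa only [CharP.cast_eq_zero, add_zero, pow_zero, Module.End.one_apply] using hy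
    | succ n ih =>
      intro j y hy
      rw [pow_succ', Module.End.mul_apply]
      have := hT _ _ (ih j y hy)
      rwa [show j + ((n + 1 : ℕ) : ℤ) = j + n + 1 by push_cast; ring]
  have h2 := h1 k _ _ (hφ _ _ hw)
  rw [LinearMap.comp_apply]
  rwa [show i - k + d + k = i + d by ring] at h2

/-! ### operators on `V ⊗ W` -/

/-- The operator of `e` on `V ⊗ W`. -/
def vE (E : Module.End K W) : Module.End K (W × W) :=
  LinearMap.prod (E ∘ₗ LinearMap.fst K W W + LinearMap.snd K W W) (E ∘ₗ LinearMap.snd K W W)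

/-- The operator of `f` on `V ⊗ W`. -/
def vF (F : Module.End K W) : Module.End K (W × W) :=
  LinearMap.prod (F ∘ₗ LinearMap.fst K W W) (F ∘ₗ LinearMap.snd K W W + LinearMap.fst K W W)

/-- The operator of `h` on `V ⊗ W`. -/
def vH (H : Module.End K W) : Module.End K (W × W) :=
  LinearMap.prod (H ∘ₗ LinearMap.fst K W W + LinearMap.fst K W W)
    (H ∘ₗ LinearMap.snd K W W - LinearMap.snd K W W)

/-- The operator `T = - 2 Ω - 2` on `V ⊗ W`. -/
def vT (E F H : Module.End K W) : Module.End K (W × W) :=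
  LinearMap.prod
    (-(H ∘ₗ LinearMap.fst K W W) - 2 • LinearMap.fst K W W - 2 • (F ∘ₗ LinearMap.snd K W W))
    (-(2 • (E ∘ₗ LinearMap.fst K W W)) + H ∘ₗ LinearMap.snd K W W - 2 • LinearMap.snd K W W)

@[simp] theorem vE_apply (E : Module.End K W) (w : W × W) :
    vE E w = (E w.1 + w.2, E w.2) := rfl

@[simp] theorem vF_apply (F : Module.End K W) (w : W × W) :
    vF F w = (F w.1, F w.2 + w.1) := rfl

@[simp] theorem vH_apply (H : Module.End K W) (w : W × W) :
    vH H w = (H w.1 + w.1, H w.2 - w.2) := rfl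

@[simp] theorem vT_apply (E F H : Module.End K W) (w : W × W) :
    vT E F H w = (-(H w.1) - 2 • w.1 - 2 • (F w.2), -(2 • (E w.1)) + H w.2 - 2 • w.2) := rfl

section

variable {E F H : Module.End K W}

theorem IsSl2.ef_apply (h : IsSl2 E F H) (w : W) : E (F w) = F (E w) + H w := by
  have := LinearMap.congr_fun h.ef w
  simpa only [Module.End.mul_apply, LinearMap.add_apply] using this

theorem IsSl2.he_apply (h : IsSl2 E F H) (w : W) : H (E w) = E (H w) + 2 • (E w) := by
  have := LinearMap.congr_fun h.he w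
  simpa only [Module.End.mul_apply, nsmul_eq_mul, Nat.cast_ofNat, LinearMap.add_apply,     Module.End.ofNat_apply] using this

theorem IsSl2.hf_apply (h : IsSl2 E F H) (w : W) : H (F w) = F (H w) - 2 • (F w) := by
  have := LinearMap.congr_fun h.hf w
  simpa only [Module.End.mul_apply, nsmul_eq_mul, Nat.cast_ofNat, LinearMap.sub_apply,     Module.End.ofNat_apply] using this

theorem isSl2_v (h : IsSl2 E F H) : IsSl2 (vE E) (vF F) (vH H) where
  ef := by
    apply LinearMap.ext
    rintro ⟨a, b⟩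
    simp only [Module.End.mul_apply, LinearMap.add_apply, vE_apply, vF_apply, vH_apply, map_add,
      h.ef_apply, Prod.mk_add_mk, Prod.mk.injEq]
    constructor <;> abel
  he := by
    apply LinearMap.ext
    rintro ⟨a, b⟩
    simp only [Module.End.mul_apply, vE_apply, vH_apply, map_add, h.he_apply, LinearMap.add_apply, map_sub, LinearMap.smul_apply, Prod.smul_mk, Prod.mk_add_mk, Prod.mk.injEq]
    constructor <;> abel
  hf := by
    apply LinearMap.ext
    rintro ⟨a, b⟩
    simp only [Module.End.mul_apply, vF_apply, vH_apply, h.hf_apply, map_add, LinearMap.sub_apply, map_sub, LinearMap.smul_apply, Prod.smul_mk, Prod.mk_sub_mk, Prod.mk.injEq]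
    constructor <;> abel

theorem vE_vT (h : IsSl2 E F H) : Commute (vE E) (vT E F H) := by
  apply LinearMap.ext
  rintro ⟨a, b⟩
  simp only [Module.End.mul_apply, vE_apply, vT_apply, map_add, map_sub, map_neg, map_nsmul,
    h.ef_apply, h.he_apply, Prod.mk.injEq]
  constructor <;> abel

theorem vF_vT (h : IsSl2 E F H) : Commute (vF F) (vT E F H) := by
  apply LinearMap.ext
  rintro ⟨a, b⟩
  simp only [Module.End.mul_apply, vF_apply, vT_apply, map_add, map_sub, map_neg, map_nsmul,
    h.ef_apply, h.hf_apply, Prod.mk.injEq]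
  constructor <;> abel

theorem vH_vT (h : IsSl2 E F H) : Commute (vH H) (vT E F H) := by
  apply LinearMap.ext
  rintro ⟨a, b⟩
  simp only [Module.End.mul_apply, vH_apply, vT_apply, map_add, map_sub, map_neg, map_nsmul,
    h.he_apply, h.hf_apply, Prod.mk.injEq]
  constructor <;> abel

theorem pow_comm_apply {A T : Module.End K Y} (h : Commute A T) (k : ℕ) (y : Y) :
    A ((T ^ k) y) = (T ^ k) (A y) :=
  LinearMap.congr_fun (h.pow_right k).eq y

end

/-! ### the operators on X3 -/

/-- The underlying module of X3. -/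
abbrev X3 (W : Type*) [AddCommGroup W] : Type _ := (ℕ →₀ W) × (W × W)

/-- The operator of `e`. -/
noncomputable def x3e (E : Module.End K W) : Module.End K (X3 W) :=
  LinearMap.prodMap (polyMap E) (vE E)

/-- The operator of `f`. -/
noncomputable def x3f (F : Module.End K W) : Module.End K (X3 W) :=
  LinearMap.prodMap (polyMap F) (vF F)

/-- The operator of `h`. -/
noncomputable def x3h (H : Module.End K W) : Module.End K (X3 W) :=
  LinearMap.prodMap (polyMap H) (vH H)

/-- The operator of `l`. -/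
noncomputable def x3l (E F H : Module.End K W) : Module.End K (X3 W) :=
  LinearMap.prodMap (polyShift K W) (vT E F H - 1)

/-- The operator of `v1`. -/
noncomputable def x31 (E F H : Module.End K W) : Module.End K (X3 W) :=
  LinearMap.inr K (ℕ →₀ W) (W × W) ∘ₗ evT (vT E F H) (LinearMap.inl K W W) ∘ₗ
    LinearMap.fst K (ℕ →₀ W) (W × W)

/-- The operator of `v2`. -/
noncomputable def x32 (E F H : Module.End K W) : Module.End K (X3 W) :=
  LinearMap.inr K (ℕ →₀ W) (W × W) ∘ₗ evT (vT E F H) (LinearMap.inr K W W) ∘ₗ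
    LinearMap.fst K (ℕ →₀ W) (W × W)

@[simp] theorem x3e_apply (E : Module.End K W) (x : X3 W) :
    x3e E x = (polyMap E x.1, vE E x.2) := rfl

@[simp] theorem x3f_apply (F : Module.End K W) (x : X3 W) :
    x3f F x = (polyMap F x.1, vF F x.2) := rfl

@[simp] theorem x3h_apply (H : Module.End K W) (x : X3 W) :
    x3h H x = (polyMap H x.1, vH H x.2) := rfl

@[simp] theorem x3l_apply (E F H : Module.End K W) (x : X3 W) :
    x3l E F H x = (polyShift K W x.1, vT E F H x.2 - x.2) := rfl

@[simp] theorem x31_apply (E F H : Module.End K W) (x : X3 W) :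
    x31 E F H x = (0, evT (vT E F H) (LinearMap.inl K W W) x.1) := rfl

@[simp] theorem x32_apply (E F H : Module.End K W) (x : X3 W) :
    x32 E F H x = (0, evT (vT E F H) (LinearMap.inr K W W) x.1) := rfl

theorem x3_ext {A B : X3 W →ₗ[K] Y}
    (h1 : ∀ (k : ℕ) (w : W), A (Finsupp.single k w, 0) = B (Finsupp.single k w, 0))
    (h2 : ∀ w : W × W, A (0, w) = B (0, w)) : A = B := by
  apply LinearMap.prod_ext
  · apply Finsupp.lhom_ext
    intro k w
    exact h1 k w
  · apply LinearMap.ext
    intro w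
    exact h2 w

section

variable {E F H : Module.End K W}

theorem isSl2_polyMap (h : IsSl2 E F H) : IsSl2 (polyMap E) (polyMap F) (polyMap H) where
  ef := by
    apply Finsupp.lhom_ext
    intro k w
    simp only [Module.End.mul_apply, LinearMap.add_apply, polyMap_single, h.ef_apply,
      Finsupp.single_add]
  he := by
    apply Finsupp.lhom_ext
    intro k w
    simp only [Module.End.mul_apply, polyMap_single, h.he_apply, Finsupp.single_add, LinearMap.add_apply, LinearMap.smul_apply, Finsupp.smul_single]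
  hf := by
    apply Finsupp.lhom_ext
    intro k w
    simp only [Module.End.mul_apply, polyMap_single, h.hf_apply, Finsupp.single_sub, LinearMap.sub_apply, LinearMap.smul_apply, Finsupp.smul_single]

theorem isSRel_x3 (h : IsSl2 E F H) :
    IsSRel (x3e E) (x3f F) (x3h H) (x3l E F H) (x31 E F H) (x32 E F H) where
  ef := by
    apply LinearMap.ext
    rintro ⟨p, w⟩
    have h1 := LinearMap.congr_fun (isSl2_polyMap h).ef p
    have h2 := LinearMap.congr_fun (isSl2_v h).ef w
    exact Prod.ext h1 h2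
  he := by
    apply LinearMap.ext
    rintro ⟨p, w⟩
    have h1 := LinearMap.congr_fun (isSl2_polyMap h).he p
    have h2 := LinearMap.congr_fun (isSl2_v h).he w
    exact Prod.ext h1 h2
  hf := by
    apply LinearMap.ext
    rintro ⟨p, w⟩
    have h1 := LinearMap.congr_fun (isSl2_polyMap h).hf p
    have h2 := LinearMap.congr_fun (isSl2_v h).hf w
    exact Prod.ext h1 h2
  le := by
    apply x3_ext
    · intro k w
      simp
      rfl
    · intro w
      have h2 := LinearMap.congr_fun (vE_vT h).eq w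
      simp only [Module.End.mul_apply] at h2
      simp only [Module.End.mul_apply, x3e_apply, x3l_apply, map_zero, map_sub, h2]
  lf := by
    apply x3_ext
    · intro k w
      simp
      rfl
    · intro w
      have h2 := LinearMap.congr_fun (vF_vT h).eq w
      simp only [Module.End.mul_apply] at h2
      simp only [Module.End.mul_apply, x3f_apply, x3l_apply, map_zero, map_sub, h2]
  lh := by
    apply x3_ext
    · intro k w
      simp
      rfl
    · intro w
      have h2 := LinearMap.congr_fun (vH_vT h).eq w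
      simp only [Module.End.mul_apply] at h2
      simp only [Module.End.mul_apply, x3h_apply, x3l_apply, map_zero, map_sub, h2]
  ev1 := by
    apply x3_ext
    · intro k w
      simp only [Module.End.mul_apply, x3e_apply, x31_apply, map_zero, evT_single,
        pow_comm_apply (vE_vT h), polyMap_single]
      simp
    · intro w
      simp only [Module.End.mul_apply, x3e_apply, x31_apply, map_zero]
  ev2 := by
    apply x3_ext
    · intro k w
      simp only [Module.End.mul_apply, LinearMap.add_apply, x3e_apply, x31_apply, x32_apply,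
        map_zero, evT_single, pow_comm_apply (vE_vT h), polyMap_single, Prod.mk_add_mk, ← map_add]
      simp
    · intro w
      simp only [Module.End.mul_apply, LinearMap.add_apply, x3e_apply, x31_apply, x32_apply,
        map_zero]
      simp
  fv1 := by
    apply x3_ext
    · intro k w
      simp only [Module.End.mul_apply, LinearMap.add_apply, x3f_apply, x31_apply, x32_apply,
        map_zero, evT_single, pow_comm_apply (vF_vT h), polyMap_single, Prod.mk_add_mk, ← map_add]
      simp
    · intro w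
      simp only [Module.End.mul_apply, LinearMap.add_apply, x3f_apply, x31_apply, x32_apply,
        map_zero]
      simp
  fv2 := by
    apply x3_ext
    · intro k w
      simp only [Module.End.mul_apply, x3f_apply, x32_apply, map_zero, evT_single,
        pow_comm_apply (vF_vT h), polyMap_single]
      simp
    · intro w
      simp only [Module.End.mul_apply, x3f_apply, x32_apply, map_zero]
  hv1 := by
    apply x3_ext
    · intro k w
      simp only [Module.End.mul_apply, LinearMap.add_apply, x3h_apply, x31_apply,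
        map_zero, evT_single, pow_comm_apply (vH_vT h), polyMap_single, Prod.mk_add_mk, ← map_add]
      simp
    · intro w
      simp only [Module.End.mul_apply, LinearMap.add_apply, x3h_apply, x31_apply,
        map_zero]
      simp
  hv2 := by
    apply x3_ext
    · intro k w
      simp only [Module.End.mul_apply, LinearMap.sub_apply, x3h_apply, x32_apply,
        map_zero, evT_single, pow_comm_apply (vH_vT h), polyMap_single, Prod.mk_sub_mk, ← map_sub]
      simp
    · intro w
      simp only [Module.End.mul_apply, LinearMap.sub_apply, x3h_apply, x32_apply,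
        map_zero]
      simp
  lv1 := by
    apply x3_ext
    · intro k w
      simp only [Module.End.mul_apply, LinearMap.sub_apply, x3l_apply, x31_apply,
        map_zero, evT_single, polyShift_single, pow_succ', Prod.mk_sub_mk, sub_zero]
    · intro w
      simp only [Module.End.mul_apply, LinearMap.sub_apply, x3l_apply, x31_apply,
        map_zero]
      simp
  lv2 := by
    apply x3_ext
    · intro k w
      simp only [Module.End.mul_apply, LinearMap.sub_apply, x3l_apply, x32_apply,
        map_zero, evT_single, polyShift_single, pow_succ', Prod.mk_sub_mk, sub_zero]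
    · intro w
      simp only [Module.End.mul_apply, LinearMap.sub_apply, x3l_apply, x32_apply,
        map_zero]
      simp
  v1l := by
    apply x3_ext
    · intro k w
      simp only [Module.End.mul_apply, LinearMap.sub_apply, LinearMap.neg_apply,
        LinearMap.smul_apply, x3l_apply, x31_apply, x32_apply, x3e_apply, x3h_apply,
        map_zero, evT_single, polyShift_single, polyMap_single, pow_succ, Prod.mk_sub_mk,
        Prod.smul_mk, Prod.neg_mk, smul_zero, neg_zero, sub_zero, ← map_nsmul, ← map_neg,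
        ← map_sub]
      simp
    · intro w
      simp
  v2l := by
    apply x3_ext
    · intro k w
      simp only [Module.End.mul_apply, LinearMap.sub_apply, LinearMap.neg_apply,
        LinearMap.add_apply,
        LinearMap.smul_apply, x3l_apply, x31_apply, x32_apply, x3f_apply, x3h_apply,
        map_zero, evT_single, polyShift_single, polyMap_single, pow_succ, Prod.mk_sub_mk,
        Prod.mk_add_mk, Prod.smul_mk, Prod.neg_mk, smul_zero, neg_zero, sub_zero, add_zero,
        ← map_nsmul, ← map_neg, ← map_sub, ← map_add]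
      simp
    · intro w
      simp
  v11 := by
    apply LinearMap.ext
    intro x
    simp
  v12 := by
    apply LinearMap.ext
    intro x
    simp
  v21 := by
    apply LinearMap.ext
    intro x
    simp
  v22 := by
    apply LinearMap.ext
    intro x
    simp

end

/-! ### filtration -/

/-- The filtration of X3. -/
noncomputable def x3Fil (Fil : ℤ → Submodule K W) (i : ℤ) : Submodule K (X3 W) :=
  (polyFil Fil i).prod ((Fil (i + 1)).prod (Fil (i + 1)))

theorem mem_x3Fil {Fil : ℤ → Submodule K W} {i : ℤ} {x : X3 W} :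
    x ∈ x3Fil Fil i ↔ x.1 ∈ polyFil Fil i ∧ x.2.1 ∈ Fil (i + 1) ∧ x.2.2 ∈ Fil (i + 1) :=
  Iff.rfl

theorem x3Fil_shiftFil (Fil : ℤ → Submodule K W) (j : ℤ) :
    x3Fil (shiftFil Fil j) = shiftFil (x3Fil Fil) j := by
  funext i
  simp only [shiftFil, x3Fil, polyFil_shiftFil]
  rw [show i + 1 - j = i - j + 1 by ring]

/-- The filtration of `V ⊗ W`. -/
def vFil (Fil : ℤ → Submodule K W) (i : ℤ) : Submodule K (W × W) :=
  (Fil (i + 1)).prod (Fil (i + 1))

section

variable {Fil : ℤ → Submodule K W} {E F H : Module.End K W}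

theorem vFil_mono (h : Monotone Fil) : Monotone (vFil Fil) := fun _ _ hij _ hx =>
  ⟨h (by omega) hx.1, h (by omega) hx.2⟩

theorem vE_fil (h : IsFilSl2 Fil E F H) : FilDeg (vFil Fil) (vFil Fil) 1 (vE E) := by
  rintro i ⟨a, b⟩ ⟨ha, hb⟩
  simp only at ha hb
  refine ⟨?_, ?_⟩
  · exact Submodule.add_mem _ (h.e _ _ ha) (h.mono (by omega) hb)
  · exact h.e _ _ hb

theorem vF_fil (h : IsFilSl2 Fil E F H) : FilDeg (vFil Fil) (vFil Fil) 1 (vF F) := by
  rintro i ⟨a, b⟩ ⟨ha, hb⟩
  simp only at ha hb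
  refine ⟨?_, ?_⟩
  · exact h.f _ _ ha
  · exact Submodule.add_mem _ (h.f _ _ hb) (h.mono (by omega) ha)

theorem vH_fil (h : IsFilSl2 Fil E F H) : FilDeg (vFil Fil) (vFil Fil) 1 (vH H) := by
  rintro i ⟨a, b⟩ ⟨ha, hb⟩
  simp only at ha hb
  refine ⟨?_, ?_⟩
  · exact Submodule.add_mem _ (h.h _ _ ha) (h.mono (by omega) ha)
  · exact Submodule.sub_mem _ (h.h _ _ hb) (h.mono (by omega) hb)

theorem vT_fil (h : IsFilSl2 Fil E F H) : FilDeg (vFil Fil) (vFil Fil) 1 (vT E F H) := by
  rintro i ⟨a, b⟩ ⟨ha, hb⟩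
  simp only at ha hb
  have hm : Fil (i + 1) ≤ Fil (i + 1 + 1) := h.mono (by omega)
  refine ⟨?_, ?_⟩
  · exact Submodule.sub_mem _ (Submodule.sub_mem _ (Submodule.neg_mem _ (h.h _ _ ha))
      (Submodule.smul_of_tower_mem _ (2 : ℕ) (hm ha)))
      (Submodule.smul_of_tower_mem _ (2 : ℕ) (h.f _ _ hb))
  · exact Submodule.sub_mem _ (Submodule.add_mem _ (Submodule.neg_mem _
      (Submodule.smul_of_tower_mem _ (2 : ℕ) (h.e _ _ ha))) (h.h _ _ hb))
      (Submodule.smul_of_tower_mem _ (2 : ℕ) (hm hb))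

theorem isFilS_x3 (h : IsFilSl2 Fil E F H) :
    IsFilS (x3Fil Fil) (x3e E) (x3f F) (x3h H) (x3l E F H) (x31 E F H) (x32 E F H) where
  mono := fun _ _ hij _ hx => ⟨polyFil_mono h.mono hij hx.1, vFil_mono h.mono hij hx.2⟩
  e := fun i x hx => ⟨polyMap_fil h.e i x.1 hx.1, vE_fil h i x.2 hx.2⟩
  f := fun i x hx => ⟨polyMap_fil h.f i x.1 hx.1, vF_fil h i x.2 hx.2⟩
  h := fun i x hx => ⟨polyMap_fil h.h i x.1 hx.1, vH_fil h i x.2 hx.2⟩
  l := fun i x hx => ⟨polyShift_fil Fil i x.1 hx.1,
    Submodule.sub_mem _ (vT_fil h i x.2 hx.2) (vFil_mono h.mono (by omega) hx.2)⟩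
  v1 := fun i x hx => ⟨Submodule.zero_mem _, by
    have h1 : FilDeg Fil (vFil Fil) (-1) (LinearMap.inl K W W) := fun j w hw =>
      ⟨by simpa using hw, Submodule.zero_mem _⟩
    exact evT_mem (vT_fil h) h1 i x.1 hx.1⟩
  v2 := fun i x hx => ⟨Submodule.zero_mem _, by
    have h1 : FilDeg Fil (vFil Fil) (-1) (LinearMap.inr K W W) := fun j w hw =>
      ⟨Submodule.zero_mem _, by simpa using hw⟩
    exact evT_mem (vT_fil h) h1 i x.1 hx.1⟩

end

/-! ### functoriality -/

section

variable {W' : Type*} [AddCommGroup W'] [Module K W']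

/-- The map induced by `g`. -/
noncomputable def x3map (g : W →ₗ[K] W') : X3 W →ₗ[K] X3 W' :=
  LinearMap.prodMap (polyMap g) (LinearMap.prodMap g g)

@[simp] theorem x3map_apply (g : W →ₗ[K] W') (x : X3 W) :
    x3map g x = (polyMap g x.1, (g x.2.1, g x.2.2)) := rfl

/-- The linear maps commuting with three operators. -/
structure HomSl2 (g : W →ₗ[K] W') (e f h : Module.End K W) (e' f' h' : Module.End K W') :
    Prop where
  e : ∀ x, g (e x) = e' (g x)
  f : ∀ x, g (f x) = f' (g x)
  h : ∀ x, g (h x) = h' (g x)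

/-- The linear maps commuting with six operators. -/
structure HomS (g : W →ₗ[K] W') (e f h l v1 v2 : Module.End K W)
    (e' f' h' l' v1' v2' : Module.End K W') : Prop where
  e : ∀ x, g (e x) = e' (g x)
  f : ∀ x, g (f x) = f' (g x)
  h : ∀ x, g (h x) = h' (g x)
  l : ∀ x, g (l x) = l' (g x)
  v1 : ∀ x, g (v1 x) = v1' (g x)
  v2 : ∀ x, g (v2 x) = v2' (g x)

theorem homS_x3map {E F H : Module.End K W} {E' F' H' : Module.End K W'} {g : W →ₗ[K] W'}
    (h : HomSl2 g E F H E' F' H') :
    HomS (x3map g) (x3e E) (x3f F) (x3h H) (x3l E F H) (x31 E F H) (x32 E F H)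
      (x3e E') (x3f F') (x3h H') (x3l E' F' H') (x31 E' F' H') (x32 E' F' H') := by
  have hT : ∀ w : W × W, LinearMap.prodMap g g (vT E F H w) =
      vT E' F' H' (LinearMap.prodMap g g w) := by
    rintro ⟨a, b⟩
    simp only [vT_apply, LinearMap.prodMap_apply, map_sub, map_neg, h.h, LinearMap.map_smul_of_tower, h.f, map_add, h.e]
  have hTk : ∀ (k : ℕ) (w : W × W), LinearMap.prodMap g g ((vT E F H ^ k) w) =
      (vT E' F' H' ^ k) (LinearMap.prodMap g g w) := by
    intro k
    induction k with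
    | zero => intro w; simp only [pow_zero, Module.End.one_apply, LinearMap.prodMap_apply]
    | succ k ih =>
      intro w
      rw [pow_succ', pow_succ', Module.End.mul_apply, Module.End.mul_apply, hT, ih]
  refine ⟨?_, ?_, ?_, ?_, ?_, ?_⟩
  · rintro ⟨p, a, b⟩
    refine Prod.ext ?_ ?_
    · ext k; simp only [x3e_apply, vE_apply, x3map_apply, map_add, h.e, polyMap_apply]
    · simp only [x3e_apply, vE_apply, x3map_apply, map_add, h.e]
  · rintro ⟨p, a, b⟩
    refine Prod.ext ?_ ?_
    · ext k; simp only [x3f_apply, vF_apply, x3map_apply, h.f, map_add, polyMap_apply]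
    · simp only [x3f_apply, vF_apply, x3map_apply, h.f, map_add]
  · rintro ⟨p, a, b⟩
    refine Prod.ext ?_ ?_
    · ext k; simp only [x3h_apply, vH_apply, x3map_apply, map_add, h.h, map_sub, polyMap_apply]
    · simp only [x3h_apply, vH_apply, x3map_apply, map_add, h.h, map_sub]
  · rintro ⟨p, a⟩
    refine Prod.ext ?_ ?_
    · have : polyMap g ∘ₗ polyShift K W = polyShift K W' ∘ₗ polyMap g := by
        apply Finsupp.lhom_ext
        intro k w
        simp
      exact LinearMap.congr_fun this p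
    · have := hT a
      change LinearMap.prodMap g g (vT E F H a - a) =
        vT E' F' H' (LinearMap.prodMap g g a) - LinearMap.prodMap g g a
      rw [map_sub, this]
  · rintro ⟨p, a⟩
    refine Prod.ext ?_ ?_
    · simp only [x31_apply, x3map_apply, map_zero]
    · have : LinearMap.prodMap g g ∘ₗ evT (vT E F H) (LinearMap.inl K W W) =
          evT (vT E' F' H') (LinearMap.inl K W' W') ∘ₗ polyMap g := by
        apply Finsupp.lhom_ext
        intro k w
        rw [LinearMap.comp_apply, LinearMap.comp_apply, evT_single, polyMap_single, evT_single,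
          hTk]
        simp only [LinearMap.coe_inl, LinearMap.prodMap_apply, map_zero]
      exact LinearMap.congr_fun this p
  · rintro ⟨p, a⟩
    refine Prod.ext ?_ ?_
    · simp only [x32_apply, x3map_apply, map_zero]
    · have : LinearMap.prodMap g g ∘ₗ evT (vT E F H) (LinearMap.inr K W W) =
          evT (vT E' F' H') (LinearMap.inr K W' W') ∘ₗ polyMap g := by
        apply Finsupp.lhom_ext
        intro k w
        rw [LinearMap.comp_apply, LinearMap.comp_apply, evT_single, polyMap_single, evT_single,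
          hTk]
        simp only [LinearMap.coe_inr, LinearMap.prodMap_apply, map_zero]
      exact LinearMap.congr_fun this p

theorem x3map_fil {Fil : ℤ → Submodule K W} {Fil' : ℤ → Submodule K W'} {d : ℤ}
    {g : W →ₗ[K] W'} (hg : FilDeg Fil Fil' d g) :
    FilDeg (x3Fil Fil) (x3Fil Fil') d (x3map g) := fun i x hx =>
  ⟨polyMap_fil hg i x.1 hx.1, by
    have h1 := hg _ _ hx.2.1
    have h2 := hg _ _ hx.2.2
    rw [show i + 1 + d = i + d + 1 by ring] at h1 h2
    exact ⟨h1, h2⟩⟩

theorem LevExact.x3 {W'' : Type*} [AddCommGroup W''] [Module K W'']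
    {Fil' : ℤ → Submodule K W'} {Fil : ℤ → Submodule K W}
    {Fil'' : ℤ → Submodule K W''} {a : W' →ₗ[K] W} {b : W →ₗ[K] W''}
    (h : LevExact Fil' Fil Fil'' a b) :
    LevExact (x3Fil Fil') (x3Fil Fil) (x3Fil Fil'') (x3map a) (x3map b) := by
  have h1 : LevExact (fun i => Fil' (i + 1)) (fun i => Fil (i + 1)) (fun i => Fil'' (i + 1)) a b :=
    ⟨h.inj, h.comp, fun i => h.filA (i + 1), fun i => h.filB (i + 1), fun i => h.exact (i + 1),
      fun i => h.surj (i + 1)⟩
  exact h.poly.prod (h1.prod h1)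

end

/-! ### the universal property -/

section

variable {E F H : Module.End K W} {e f h l v1 v2 : Module.End K Y} {φ : W →ₗ[K] Y}

/-- The extension of `φ : W → Y` to `X3 W`. -/
noncomputable def x3lift (l v1 v2 : Module.End K Y) (φ : W →ₗ[K] Y) : X3 W →ₗ[K] Y :=
  LinearMap.coprod (evT l φ) (LinearMap.coprod (v1 ∘ₗ φ) (v2 ∘ₗ φ))

@[simp] theorem x3lift_apply (l v1 v2 : Module.End K Y) (φ : W →ₗ[K] Y) (x : X3 W) :
    x3lift l v1 v2 φ x = evT l φ x.1 + (v1 (φ x.2.1) + v2 (φ x.2.2)) := rfl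

theorem x3lift_single_zero (l v1 v2 : Module.End K Y) (φ : W →ₗ[K] Y) (w : W) :
    x3lift l v1 v2 φ (Finsupp.single 0 w, 0) = φ w := by
  simp

/-- The six operators satisfy the relations and `φ` commutes with `e`, `f`, `h`: the extension
commutes with all operators. -/
theorem homS_x3lift (hS : IsSRel e f h l v1 v2) (hφ : HomSl2 φ E F H e f h) :
    HomS (x3lift l v1 v2 φ) (x3e E) (x3f F) (x3h H) (x3l E F H) (x31 E F H) (x32 E F H)
      e f h l v1 v2 := by
  have hT : ∀ w : W × W, x3lift l v1 v2 φ (0, vT E F H w - w) =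
      l (x3lift l v1 v2 φ (0, w)) := by
    rintro ⟨a, b⟩
    have h1 := LinearMap.congr_fun hS.lv1 (φ a)
    have h2 := LinearMap.congr_fun hS.lv2 (φ b)
    have h3 := LinearMap.congr_fun hS.v1l (φ a)
    have h4 := LinearMap.congr_fun hS.v2l (φ b)
    simp only [Module.End.mul_apply, LinearMap.sub_apply, LinearMap.add_apply,
      LinearMap.neg_apply, LinearMap.smul_apply] at h1 h2 h3 h4
    simp only [vT_apply, Prod.mk_sub_mk, x3lift_apply, map_zero, map_sub, map_neg, hφ.h, map_nsmul, hφ.f, map_add, hφ.e, zero_add, h1, h3, h2, h4]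
    abel
  have hT1 : ∀ w : W × W, x3lift l v1 v2 φ (0, vT E F H w) =
      (l + 1) (x3lift l v1 v2 φ (0, w)) := by
    intro w
    rw [LinearMap.add_apply, ← hT w, Module.End.one_apply, ← map_add]
    simp only [vT_apply, x3lift_apply, map_zero, map_sub, map_neg, LinearMap.map_smul_of_tower, map_add, zero_add, Prod.mk_add_mk, add_zero, sub_add_cancel]
  have hTk : ∀ (k : ℕ) (w : W × W), x3lift l v1 v2 φ (0, (vT E F H ^ k) w) =
      ((l + 1) ^ k) (x3lift l v1 v2 φ (0, w)) := by
    intro k
    induction k with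
    | zero => intro w; simp only [pow_zero, Module.End.one_apply, x3lift_apply, map_zero, zero_add]
    | succ k ih =>
      intro w
      rw [pow_succ', pow_succ', Module.End.mul_apply, Module.End.mul_apply, hT1, ih]
  have hv1 : ∀ (k : ℕ) (y : Y), v1 ((l ^ k) y) = ((l + 1) ^ k) (v1 y) := by
    intro k
    induction k with
    | zero => intro y; simp
    | succ k ih =>
      intro y
      have h1 := LinearMap.congr_fun hS.lv1 ((l ^ k) y)
      simp only [Module.End.mul_apply, LinearMap.sub_apply] at h1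
      rw [pow_succ', pow_succ', Module.End.mul_apply, Module.End.mul_apply, ← ih,
        LinearMap.add_apply, Module.End.one_apply, h1]
      abel
  have hv2 : ∀ (k : ℕ) (y : Y), v2 ((l ^ k) y) = ((l + 1) ^ k) (v2 y) := by
    intro k
    induction k with
    | zero => intro y; simp only [pow_zero, Module.End.one_apply]
    | succ k ih =>
      intro y
      have h1 := LinearMap.congr_fun hS.lv2 ((l ^ k) y)
      simp only [Module.End.mul_apply, LinearMap.sub_apply] at h1
      rw [pow_succ', pow_succ', Module.End.mul_apply, Module.End.mul_apply, ← ih,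
        LinearMap.add_apply, Module.End.one_apply, h1]
      abel
  refine ⟨?_, ?_, ?_, ?_, ?_, ?_⟩
  · have : x3lift l v1 v2 φ ∘ₗ x3e E = e ∘ₗ x3lift l v1 v2 φ := by
      apply x3_ext
      · intro k w
        have h1 := pow_comm_apply (Y := Y) (A := e) (T := l) hS.le.symm k (φ w)
        simp [hφ.e, h1]
      · rintro ⟨a, b⟩
        have h1 := LinearMap.congr_fun hS.ev1 (φ a)
        have h2 := LinearMap.congr_fun hS.ev2 (φ b)
        simp only [Module.End.mul_apply, LinearMap.add_apply] at h1 h2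
        simp only [LinearMap.comp_apply, x3e_apply, map_zero, vE_apply, x3lift_apply, map_add, hφ.e, zero_add, h1, h2]
        abel
    exact fun x => LinearMap.congr_fun this x
  · have : x3lift l v1 v2 φ ∘ₗ x3f F = f ∘ₗ x3lift l v1 v2 φ := by
      apply x3_ext
      · intro k w
        have h1 := pow_comm_apply (Y := Y) (A := f) (T := l) hS.lf.symm k (φ w)
        simp only [LinearMap.coe_comp, Function.comp_apply, x3f_apply, polyMap_single, vF_apply, Prod.fst_zero, map_zero, Prod.snd_zero, add_zero, x3lift_apply, evT_single, hφ.f, h1]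
      · rintro ⟨a, b⟩
        have h1 := LinearMap.congr_fun hS.fv1 (φ a)
        have h2 := LinearMap.congr_fun hS.fv2 (φ b)
        simp only [Module.End.mul_apply, LinearMap.add_apply] at h1 h2
        simp only [LinearMap.comp_apply, x3f_apply, map_zero, vF_apply, x3lift_apply, hφ.f, map_add, zero_add, h1, h2]
        abel
    exact fun x => LinearMap.congr_fun this x
  · have : x3lift l v1 v2 φ ∘ₗ x3h H = h ∘ₗ x3lift l v1 v2 φ := by
      apply x3_ext
      · intro k w
        have h1 := pow_comm_apply (Y := Y) (A := h) (T := l) hS.lh.symm k (φ w)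
        simp only [LinearMap.coe_comp, Function.comp_apply, x3h_apply, polyMap_single, vH_apply, Prod.fst_zero, map_zero, add_zero, Prod.snd_zero, sub_self, x3lift_apply, evT_single, hφ.h, h1]
      · rintro ⟨a, b⟩
        have h1 := LinearMap.congr_fun hS.hv1 (φ a)
        have h2 := LinearMap.congr_fun hS.hv2 (φ b)
        simp only [Module.End.mul_apply, LinearMap.add_apply, LinearMap.sub_apply] at h1 h2
        simp only [LinearMap.comp_apply, x3h_apply, map_zero, vH_apply, x3lift_apply, map_add, hφ.h, map_sub, zero_add, h1, h2]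
    exact fun x => LinearMap.congr_fun this x
  · have : x3lift l v1 v2 φ ∘ₗ x3l E F H = l ∘ₗ x3lift l v1 v2 φ := by
      apply x3_ext
      · intro k w
        simp [pow_succ']
      · intro w
        rw [LinearMap.comp_apply, LinearMap.comp_apply, ← hT w]
        simp only [x3l_apply, map_zero, vT_apply, x3lift_apply, Prod.fst_sub, map_sub, map_neg, LinearMap.map_smul_of_tower, Prod.snd_sub, map_add, zero_add]
    exact fun x => LinearMap.congr_fun this x
  · have : x3lift l v1 v2 φ ∘ₗ x31 E F H = v1 ∘ₗ x3lift l v1 v2 φ := by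
      apply x3_ext
      · intro k w
        have h2 := hTk k (w, 0)
        rw [LinearMap.comp_apply, LinearMap.comp_apply, x31_apply]
        simp only [evT_single, LinearMap.inl_apply]
        rw [h2]
        simp only [x3lift_apply, map_zero, add_zero, zero_add, evT_single, Prod.fst_zero, Prod.snd_zero]
        exact (hv1 k (φ w)).symm
      · rintro ⟨a, b⟩
        have h1 := LinearMap.congr_fun hS.v11 (φ a)
        have h2 := LinearMap.congr_fun hS.v12 (φ b)
        simp only [Module.End.mul_apply, LinearMap.zero_apply] at h1 h2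
        simp only [LinearMap.coe_comp, Function.comp_apply, x31_apply, map_zero, x3lift_apply, Prod.fst_zero, Prod.snd_zero, add_zero, zero_add, map_add, h1, h2]
    exact fun x => LinearMap.congr_fun this x
  · have : x3lift l v1 v2 φ ∘ₗ x32 E F H = v2 ∘ₗ x3lift l v1 v2 φ := by
      apply x3_ext
      · intro k w
        have h2 := hTk k (0, w)
        rw [LinearMap.comp_apply, LinearMap.comp_apply, x32_apply]
        simp only [evT_single, LinearMap.inr_apply]
        rw [h2]
        simp only [x3lift_apply, map_zero, add_zero, zero_add, evT_single, Prod.fst_zero,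
          Prod.snd_zero]
        exact (hv2 k (φ w)).symm
      · rintro ⟨a, b⟩
        have h1 := LinearMap.congr_fun hS.v21 (φ a)
        have h2 := LinearMap.congr_fun hS.v22 (φ b)
        simp only [Module.End.mul_apply, LinearMap.zero_apply] at h1 h2
        simp [h1, h2]
    exact fun x => LinearMap.congr_fun this x

/-- The extension is filtered. -/
theorem x3lift_fil {Fil : ℤ → Submodule K W} {FilY : ℤ → Submodule K Y} {d : ℤ}
    (hY : IsFilS FilY e f h l v1 v2) (hφ : FilDeg Fil FilY d φ) :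
    FilDeg (x3Fil Fil) FilY d (x3lift l v1 v2 φ) := by
  intro i x hx
  rw [x3lift_apply]
  refine Submodule.add_mem _ (evT_mem hY.l hφ i x.1 hx.1) (Submodule.add_mem _ ?_ ?_)
  · have := hY.v1 _ _ (hφ _ _ hx.2.1)
    rwa [show i + 1 + d + -1 = i + d by ring] at this
  · have := hY.v2 _ _ (hφ _ _ hx.2.2)
    rwa [show i + 1 + d + -1 = i + d by ring] at this

/-- Uniqueness of the extension. -/
theorem x3_hom_ext {A B : X3 W →ₗ[K] Y}
    (hA : HomS A (x3e E) (x3f F) (x3h H) (x3l E F H) (x31 E F H) (x32 E F H) e f h l v1 v2)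
    (hB : HomS B (x3e E) (x3f F) (x3h H) (x3l E F H) (x31 E F H) (x32 E F H) e f h l v1 v2)
    (hAB : ∀ w, A (Finsupp.single 0 w, 0) = B (Finsupp.single 0 w, 0)) : A = B := by
  apply x3_ext
  · intro k w
    induction k with
    | zero => exact hAB w
    | succ k ih =>
      have h1 : ((Finsupp.single (k + 1) w, 0) : X3 W) = x3l E F H (Finsupp.single k w, 0) := by
        simp
        rfl
      rw [h1, hA.l, hB.l, ih]
  · rintro ⟨a, b⟩
    have h1 : ((0, (a, b)) : X3 W) = x31 E F H (Finsupp.single 0 a, 0) +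
        x32 E F H (Finsupp.single 0 b, 0) := by
      simp only [x31_apply, evT_single, pow_zero, LinearMap.coe_inl, Module.End.one_apply, x32_apply, LinearMap.coe_inr, Prod.mk_add_mk, add_zero, zero_add]
    rw [h1, map_add, map_add, hA.v1, hA.v2, hB.v1, hB.v2, hAB, hAB]

end

end Vale.Agent.P176
end
end

section

section

/-!
# P176: filtered operator modules and the window functor

`FMod K ι`: a `K`-vector space with operators indexed by `ι` and a `ℤ`-indexed family of
subspaces.  `FHom X Y`: the linear maps commuting with the operators and preserving the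
subspaces.  For a fixed object `P`, the algebra `(FEnd P)ᵐᵒᵖ` acts on `FHom P X`.
-/

namespace Vale.Agent.P176

universe u

/-- A vector space with operators indexed by `ι` and a `ℤ`-indexed family of subspaces. -/
structure FMod (K : Type u) [Field K] (ι : Type) where
  /-- the underlying space -/
  X : Type u
  [acg : AddCommGroup X]
  [mod : Module K X]
  /-- the operators -/
  op : ι → X →ₗ[K] X
  /-- the filtration -/
  Fil : ℤ → Submodule K X

attribute [instance] FMod.acg FMod.mod

variable {K : Type u} [Field K] {ι : Type}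

/-- Linear maps commuting with the operators and preserving the filtrations. -/
def FHom (X Y : FMod K ι) : Submodule K (X.X →ₗ[K] Y.X) where
  carrier := {φ | (∀ s x, φ (X.op s x) = Y.op s (φ x)) ∧ ∀ i, ∀ x ∈ X.Fil i, φ x ∈ Y.Fil i}
  zero_mem' := by
    refine ⟨fun s x => by simp, fun i x _ => by simp⟩
  add_mem' := by
    rintro a b ⟨ha, ha'⟩ ⟨hb, hb'⟩
    refine ⟨fun s x => by simp [ha s x, hb s x], fun i x hx => ?_⟩
    exact (Y.Fil i).add_mem (ha' i x hx) (hb' i x hx)
  smul_mem' := by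
    rintro c a ⟨ha, ha'⟩
    refine ⟨fun s x => by simp [ha s x], fun i x hx => ?_⟩
    exact (Y.Fil i).smul_mem c (ha' i x hx)

theorem mem_FHom {X Y : FMod K ι} {φ : X.X →ₗ[K] Y.X} :
    φ ∈ FHom X Y ↔ (∀ s x, φ (X.op s x) = Y.op s (φ x)) ∧ ∀ i, ∀ x ∈ X.Fil i, φ x ∈ Y.Fil i :=
  Iff.rfl

theorem FHom.op {X Y : FMod K ι} {φ : X.X →ₗ[K] Y.X} (h : φ ∈ FHom X Y) (s : ι) (x : X.X) :
    φ (X.op s x) = Y.op s (φ x) := h.1 s x

theorem FHom.fil {X Y : FMod K ι} {φ : X.X →ₗ[K] Y.X} (h : φ ∈ FHom X Y) {i : ℤ} {x : X.X}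
    (hx : x ∈ X.Fil i) : φ x ∈ Y.Fil i := h.2 i x hx

theorem FHom.comp {X Y Z : FMod K ι} {ψ : Y.X →ₗ[K] Z.X} {φ : X.X →ₗ[K] Y.X}
    (hψ : ψ ∈ FHom Y Z) (hφ : φ ∈ FHom X Y) : ψ ∘ₗ φ ∈ FHom X Z := by
  refine ⟨fun s x => ?_, fun i x hx => ?_⟩
  · simp only [LinearMap.coe_comp, Function.comp_apply, hφ.1 s x, hψ.1 s (φ x)]
  · exact hψ.2 i _ (hφ.2 i x hx)

theorem FHom.id (X : FMod K ι) : (LinearMap.id : X.X →ₗ[K] X.X) ∈ FHom X X :=
  ⟨fun _ _ => rfl, fun _ _ hx => hx⟩

/-- The algebra of endomorphisms of a filtered operator module. -/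
def FEnd (P : FMod K ι) : Subalgebra K (Module.End K P.X) where
  carrier := {φ | φ ∈ FHom P P}
  mul_mem' := by
    intro a b ha hb
    exact FHom.comp ha hb
  one_mem' := FHom.id P
  add_mem' := by
    intro a b ha hb
    exact (FHom P P).add_mem ha hb
  zero_mem' := (FHom P P).zero_mem
  algebraMap_mem' := by
    intro r
    have := (FHom P P).smul_mem r (FHom.id P)
    have h2 : (algebraMap K (Module.End K P.X) r) = r • (LinearMap.id : P.X →ₗ[K] P.X) := by
      ext x; simp
    rw [h2]; exact this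

theorem mem_FEnd {P : FMod K ι} {φ : Module.End K P.X} : φ ∈ FEnd P ↔ φ ∈ FHom P P := Iff.rfl

/-- The algebra acting on windows. -/
abbrev WAlg (P : FMod K ι) := (FEnd P)ᵐᵒᵖ

/-- `FHom P X` as a left module over `(FEnd P)ᵐᵒᵖ`, by precomposition. -/
def Win (P X : FMod K ι) : Type u := FHom P X

instance (P X : FMod K ι) : AddCommGroup (Win P X) := inferInstanceAs (AddCommGroup (FHom P X))
instance (P X : FMod K ι) : Module K (Win P X) := inferInstanceAs (Module K (FHom P X))

/-- underlying linear map -/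
def Win.toLin {P X : FMod K ι} (φ : Win P X) : P.X →ₗ[K] X.X := φ.1

theorem Win.toLin_mem {P X : FMod K ι} (φ : Win P X) : φ.toLin ∈ FHom P X := φ.2

/-- constructor -/
def Win.mk {P X : FMod K ι} (φ : P.X →ₗ[K] X.X) (h : φ ∈ FHom P X) : Win P X := ⟨φ, h⟩

@[simp] theorem Win.toLin_mk {P X : FMod K ι} (φ : P.X →ₗ[K] X.X) (h : φ ∈ FHom P X) :
    (Win.mk φ h).toLin = φ := rfl

theorem Win.ext' {P X : FMod K ι} {φ ψ : Win P X} (h : φ.toLin = ψ.toLin) : φ = ψ :=
  Subtype.ext h

@[simp] theorem Win.toLin_add {P X : FMod K ι} (φ ψ : Win P X) :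
    (φ + ψ).toLin = φ.toLin + ψ.toLin := rfl
@[simp] theorem Win.toLin_zero {P X : FMod K ι} : (0 : Win P X).toLin = 0 := rfl
@[simp] theorem Win.toLin_smulK {P X : FMod K ι} (c : K) (φ : Win P X) :
    (c • φ).toLin = c • φ.toLin := rfl

instance (P X : FMod K ι) : SMul (WAlg P) (Win P X) :=
  ⟨fun a φ => Win.mk (φ.toLin ∘ₗ (a.unop : Module.End K P.X)) (FHom.comp φ.toLin_mem a.unop.2)⟩

@[simp] theorem Win.toLin_smul {P X : FMod K ι} (a : WAlg P) (φ : Win P X) :
    (a • φ).toLin = φ.toLin ∘ₗ (a.unop : Module.End K P.X) := rfl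

instance (P X : FMod K ι) : Module (WAlg P) (Win P X) where
  one_smul φ := by
    apply Win.ext'; simp; rfl
  mul_smul a b φ := by
    apply Win.ext'; simp; rfl
  smul_zero a := by
    apply Win.ext'; simp
  smul_add a φ ψ := by
    apply Win.ext'; simp [LinearMap.add_comp]
  add_smul a b φ := by
    apply Win.ext'; simp [LinearMap.comp_add]
  zero_smul φ := by
    apply Win.ext'; simp

instance (P X : FMod K ι) : IsScalarTower K (WAlg P) (Win P X) where
  smul_assoc c a φ := by
    apply Win.ext'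
    simp only [Win.toLin_smul, Win.toLin_smulK, MulOpposite.unop_smul]
    ext x
    simp

/-- Functoriality of windows. -/
def Win.map (P : FMod K ι) {X Y : FMod K ι} (g : X.X →ₗ[K] Y.X) (hg : g ∈ FHom X Y) :
    Win P X →ₗ[WAlg P] Win P Y where
  toFun φ := Win.mk (g ∘ₗ φ.toLin) (FHom.comp hg φ.toLin_mem)
  map_add' φ ψ := by
    apply Win.ext'; simp [LinearMap.comp_add]
  map_smul' a φ := by
    apply Win.ext'; simp [LinearMap.comp_assoc]

@[simp] theorem Win.toLin_map (P : FMod K ι) {X Y : FMod K ι} (g : X.X →ₗ[K] Y.X)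
    (hg : g ∈ FHom X Y) (φ : Win P X) : (Win.map P g hg φ).toLin = g ∘ₗ φ.toLin := rfl

/-- `Win P P` is the regular module. -/
def Win.self (P : FMod K ι) : Win P P ≃ₗ[WAlg P] WAlg P where
  toFun φ := MulOpposite.op ⟨φ.toLin, φ.toLin_mem⟩
  invFun a := Win.mk (a.unop : Module.End K P.X) a.unop.2
  left_inv _ := rfl
  right_inv _ := rfl
  map_add' _ _ := rfl
  map_smul' _ _ := rfl

instance (P : FMod K ι) : Module.Projective (WAlg P) (Win P P) :=
  Module.Projective.of_equiv (Win.self P).symm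

/-- Retracts of `P` have projective windows. -/
theorem Win.projective_of_retract (P : FMod K ι) {Q : FMod K ι} {n : ℕ}
    (α : Fin n → P.X →ₗ[K] Q.X) (β : Fin n → Q.X →ₗ[K] P.X)
    (hα : ∀ k, α k ∈ FHom P Q) (hβ : ∀ k, β k ∈ FHom Q P)
    (h : ∀ x, ∑ k, α k (β k x) = x) : Module.Projective (WAlg P) (Win P Q) := by
  let i : Win P Q →ₗ[WAlg P] (Fin n → Win P P) := LinearMap.pi fun k => Win.map P (β k) (hβ k)
  let s : (Fin n → Win P P) →ₗ[WAlg P] Win P Q :=
    ∑ k, (Win.map P (α k) (hα k)) ∘ₗ LinearMap.proj k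
  have hproj : Module.Projective (WAlg P) (Fin n → Win P P) :=
    Module.Projective.of_equiv (DirectSum.linearEquivFunOnFintype (WAlg P) (Fin n) fun _ => Win P P)
  refine Module.Projective.of_split i s ?_
  apply LinearMap.ext
  intro φ
  apply Win.ext'
  ext x
  have h2 : (s (i φ)).toLin x = ∑ k, α k (β k (φ.toLin x)) := by
    have h3 : s (i φ) = ∑ k, Win.map P (α k) (hα k) (Win.map P (β k) (hβ k) φ) := by
      simp only [LinearMap.coe_sum, LinearMap.coe_comp, LinearMap.coe_proj, Finset.sum_apply, Function.comp_apply, Function.eval, LinearMap.pi_apply, s, i]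
    rw [h3]
    have h4 : ∀ (t : Finset (Fin n)) (ψ : Fin n → Win P Q) (y : P.X),
        (∑ k ∈ t, ψ k).toLin y = ∑ k ∈ t, (ψ k).toLin y := by
      intro t ψ y
      classical
      induction t using Finset.induction_on with
      | empty => simp only [Finset.sum_empty, toLin_zero, LinearMap.zero_apply]
      | insert a t ha ih => simp only [Finset.sum_insert ha, toLin_add, LinearMap.add_apply, ih]
    rw [h4]
    rfl
  exact h2.trans (h _)

/-- The object with shifted filtration, `Fil i (X(-j)) = Fil (i - j) X`. -/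
@[reducible] def FMod.shift (X : FMod K ι) (j : ℤ) : FMod K ι where
  X := X.X
  op := X.op
  Fil i := X.Fil (i - j)

/-- Finite products. -/
@[reducible] def FMod.pi {n : ℕ} (Q : Fin n → FMod K ι) : FMod K ι where
  X := ∀ j, (Q j).X
  op s := LinearMap.pi fun j => (Q j).op s ∘ₗ LinearMap.proj j
  Fil i := Submodule.pi Set.univ fun j => (Q j).Fil i

theorem FHom.shift {X Y : FMod K ι} {φ : X.X →ₗ[K] Y.X} (h : φ ∈ FHom X Y) (j : ℤ) :
    φ ∈ FHom (X.shift j) (Y.shift j) :=
  ⟨h.1, fun i x hx => h.2 (i - j) x hx⟩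

theorem FMod.proj_mem {n : ℕ} (Q : Fin n → FMod K ι) (j : Fin n) :
    (LinearMap.proj j : (∀ j, (Q j).X) →ₗ[K] (Q j).X) ∈ FHom (FMod.pi Q) (Q j) :=
  ⟨fun _ _ => rfl, fun _ _ hx => hx j (Set.mem_univ _)⟩

theorem FMod.single_mem {n : ℕ} (Q : Fin n → FMod K ι) (j : Fin n) :
    (LinearMap.single K (fun j => (Q j).X) j) ∈ FHom (Q j) (FMod.pi Q) := by
  refine ⟨fun s x => ?_, fun i x hx k _ => ?_⟩
  · ext k
    by_cases hk : k = j
    · subst hk; simp
    · simp [hk]
  · by_cases hk : k = j
    · subst hk; simpa using hx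
    · simp [hk]

/-- Maps commuting with the operators (no filtration condition). -/
def IsOpHom (X Y : FMod K ι) (φ : X.X →ₗ[K] Y.X) : Prop :=
  ∀ s x, φ (X.op s x) = Y.op s (φ x)

/-- `U` is generated by `one`: operator-linear maps out of `U` are determined by the value at
`one`. -/
def IsGen (U : FMod K ι) (one : U.X) : Prop :=
  ∀ (Y : FMod K ι) (φ ψ : U.X →ₗ[K] Y.X), IsOpHom U Y φ → IsOpHom U Y ψ →
    φ one = ψ one → φ = ψ

/-- `X` receives maps from (the shifts of) `U`, one for each element of each `Fil j X`. -/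
def IsUniv (U : FMod K ι) (one : U.X) (X : FMod K ι) : Prop :=
  ∀ (j : ℤ), ∀ x ∈ X.Fil j, ∃ φ ∈ FHom (U.shift j) X, φ one = x

/-- The object `P = U ⊕ U(-1) ⊕ ... ⊕ U(-4)`. -/
def PU (U : FMod K ι) : FMod K ι := FMod.pi fun j : Fin 5 => U.shift (j : ℤ)

/-- projection -/
def PU.proj (U : FMod K ι) (j : Fin 5) : (PU U).X →ₗ[K] U.X :=
  (LinearMap.proj j : (Fin 5 → U.X) →ₗ[K] U.X)

/-- inclusion -/
def PU.inj (U : FMod K ι) (j : Fin 5) : U.X →ₗ[K] (PU U).X :=
  LinearMap.single K (fun _ : Fin 5 => U.X) j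

theorem PU.proj_mem (U : FMod K ι) (j : Fin 5) :
    PU.proj U j ∈ FHom (PU U) (U.shift (j : ℤ)) :=
  FMod.proj_mem (fun j : Fin 5 => U.shift (j : ℤ)) j

theorem PU.inj_mem (U : FMod K ι) (j : Fin 5) :
    PU.inj U j ∈ FHom (U.shift (j : ℤ)) (PU U) :=
  FMod.single_mem (fun j : Fin 5 => U.shift (j : ℤ)) j

@[simp] theorem PU.proj_inj_same (U : FMod K ι) (j : Fin 5) (x : U.X) :
    PU.proj U j (PU.inj U j x) = x := by
  change (Pi.single j x : Fin 5 → U.X) j = x
  simp

theorem PU.proj_inj_ne (U : FMod K ι) {j k : Fin 5} (h : k ≠ j) (x : U.X) :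
    PU.proj U k (PU.inj U j x) = 0 := by
  change (Pi.single j x : Fin 5 → U.X) k = 0
  simp [h]

theorem PU.lin_ext {U : FMod K ι} {Y : Type*} [AddCommGroup Y] [Module K Y]
    {φ ψ : (PU U).X →ₗ[K] Y} (h : ∀ j, φ ∘ₗ PU.inj U j = ψ ∘ₗ PU.inj U j) : φ = ψ :=
  LinearMap.pi_ext' (φ := fun _ : Fin 5 => U.X) h

/-- the generator at level `j` -/
def gen (U : FMod K ι) (one : U.X) (j : Fin 5) : (PU U).X := PU.inj U j one

theorem gen_mem {U : FMod K ι} {one : U.X} (h0 : one ∈ U.Fil 0) (j : Fin 5) :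
    gen U one j ∈ (PU U).Fil (j : ℤ) := by
  refine FHom.fil (PU.inj_mem U j) ?_
  change one ∈ U.Fil ((j : ℤ) - (j : ℤ))
  simpa using h0

section

variable {U : FMod K ι} {one : U.X}

theorem hom_ext (hU : IsGen U one) {X : FMod K ι} {φ ψ : (PU U).X →ₗ[K] X.X}
    (hφ : φ ∈ FHom (PU U) X) (hψ : ψ ∈ FHom (PU U) X)
    (h : ∀ j, φ (gen U one j) = ψ (gen U one j)) : φ = ψ := by
  apply PU.lin_ext
  intro j
  have hj := PU.inj_mem U j
  exact hU X _ _ (FHom.comp hφ hj).1 (FHom.comp hψ hj).1 (h j)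

theorem exists_hom (X : FMod K ι) (hX : IsUniv U one X) (x : Fin 5 → X.X)
    (hx : ∀ j : Fin 5, x j ∈ X.Fil (j : ℤ)) :
    ∃ φ ∈ FHom (PU U) X, ∀ j, φ (gen U one j) = x j := by
  choose φ hφ hφ1 using fun j : Fin 5 => hX (j : ℤ) (x j) (hx j)
  refine ⟨∑ j, φ j ∘ₗ PU.proj U j, ?_, ?_⟩
  · exact (FHom (PU U) X).sum_mem fun j _ => FHom.comp (hφ j) (PU.proj_mem U j)
  · intro j
    rw [LinearMap.sum_apply, Finset.sum_eq_single j]
    · rw [LinearMap.comp_apply, gen, PU.proj_inj_same, hφ1]
    · intro k _ hk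
      rw [LinearMap.comp_apply, gen, PU.proj_inj_ne U hk, map_zero]
    · simp only [Finset.mem_univ, not_true_eq_false, LinearMap.coe_comp, Function.comp_apply, IsEmpty.forall_iff]

/-- Injectivity of windows. -/
theorem Win.map_injective (h0 : one ∈ U.Fil 0) (hU : IsGen U one) {X Y : FMod K ι}
    (f : X.X →ₗ[K] Y.X) (hf : f ∈ FHom X Y)
    (hinj : ∀ j : Fin 5, ∀ x ∈ X.Fil (j : ℤ), f x = 0 → x = 0) :
    Function.Injective (Win.map (PU U) f hf) := by
  rw [injective_iff_map_eq_zero]
  intro φ hφ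
  apply Win.ext'
  refine hom_ext hU φ.toLin_mem (0 : Win (PU U) X).toLin_mem fun j => ?_
  refine hinj j _ (FHom.fil φ.toLin_mem (gen_mem h0 j)) ?_
  have := congrArg (fun ψ => ψ.toLin (gen U one j)) hφ
  exact this

/-- Surjectivity of windows. -/
theorem Win.map_surjective (h0 : one ∈ U.Fil 0) (hU : IsGen U one) {Y Z : FMod K ι}
    (hY : IsUniv U one Y) (g : Y.X →ₗ[K] Z.X) (hg : g ∈ FHom Y Z)
    (hsurj : ∀ j : Fin 5, ∀ z ∈ Z.Fil (j : ℤ), ∃ y ∈ Y.Fil (j : ℤ), g y = z) :
    Function.Surjective (Win.map (PU U) g hg) := by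
  intro ψ
  choose y hy hgy using fun j : Fin 5 =>
    hsurj j (ψ.toLin (gen U one j)) (FHom.fil ψ.toLin_mem (gen_mem h0 j))
  obtain ⟨φ, hφ, hφ1⟩ := exists_hom Y hY y hy
  refine ⟨Win.mk φ hφ, ?_⟩
  apply Win.ext'
  refine hom_ext hU (Win.map (PU U) g hg (Win.mk φ hφ)).toLin_mem ψ.toLin_mem fun j => ?_
  simp [hφ1, hgy]

/-- Exactness of windows. -/
theorem Win.map_exact (h0 : one ∈ U.Fil 0) (hU : IsGen U one) {X Y Z : FMod K ι}
    (hX : IsUniv U one X) (f : X.X →ₗ[K] Y.X) (hf : f ∈ FHom X Y)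
    (g : Y.X →ₗ[K] Z.X) (hg : g ∈ FHom Y Z)
    (hgf : ∀ j : Fin 5, ∀ x ∈ X.Fil (j : ℤ), g (f x) = 0)
    (hex : ∀ j : Fin 5, ∀ y ∈ Y.Fil (j : ℤ), g y = 0 → ∃ x ∈ X.Fil (j : ℤ), f x = y) :
    Function.Exact (Win.map (PU U) f hf) (Win.map (PU U) g hg) := by
  intro ψ
  constructor
  · intro hψ
    have h1 : ∀ j : Fin 5, g (ψ.toLin (gen U one j)) = 0 := fun j =>
      congrArg (fun φ => φ.toLin (gen U one j)) hψ
    choose x hx hfx using fun j : Fin 5 =>
      hex j (ψ.toLin (gen U one j)) (FHom.fil ψ.toLin_mem (gen_mem h0 j)) (h1 j)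
    obtain ⟨φ, hφ, hφ1⟩ := exists_hom X hX x hx
    refine ⟨Win.mk φ hφ, ?_⟩
    apply Win.ext'
    refine hom_ext hU (Win.map (PU U) f hf (Win.mk φ hφ)).toLin_mem ψ.toLin_mem fun j => ?_
    simp [hφ1, hfx]
  · rintro ⟨φ, rfl⟩
    apply Win.ext'
    refine hom_ext hU (Win.map (PU U) g hg (Win.map (PU U) f hf φ)).toLin_mem
      (0 : Win (PU U) Z).toLin_mem fun j => ?_
    exact hgf j _ (FHom.fil φ.toLin_mem (gen_mem h0 j))

/-- The window of `X` is finite-dimensional if the first filtration pieces are. -/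
theorem Win.finite (h0 : one ∈ U.Fil 0) (hU : IsGen U one) (X : FMod K ι)
    (hfin : ∀ j : Fin 5, Module.Finite K (X.Fil (j : ℤ))) :
    Module.Finite K (Win (PU U) X) := by
  let ev : Win (PU U) X →ₗ[K] (∀ j : Fin 5, X.Fil (j : ℤ)) :=
    { toFun := fun φ j => ⟨φ.toLin (gen U one j), FHom.fil φ.toLin_mem (gen_mem h0 j)⟩
      map_add' := fun φ ψ => by ext j; simp only [toLin_add, LinearMap.add_apply, Pi.add_apply, AddMemClass.mk_add_mk]
      map_smul' := fun c φ => by ext j; simp only [toLin_smulK, LinearMap.smul_apply, RingHom.id_apply, Pi.smul_apply, SetLike.mk_smul_mk] }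
  refine Module.Finite.of_injective ev ?_
  intro φ ψ h
  apply Win.ext'
  refine hom_ext hU φ.toLin_mem ψ.toLin_mem fun j => ?_
  have := congrFun h j
  exact congrArg Subtype.val this

end

end Vale.Agent.P176
end
end

section

section

/-!
# P176: filtered modules over the ring `S`, as objects of `FMod K (Fin 6)`

Operators are numbered `0 = e, 1 = f, 2 = h, 3 = l, 4 = v1, 5 = v2`.
-/

namespace Vale.Agent.P176

universe u

variable {K : Type u} [Field K]

/-- The object with operators `e f h l v1 v2`. -/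
@[reducible] def mkS {X : Type u} [AddCommGroup X] [Module K X] (e f h l v1 v2 : Module.End K X)
    (Fil : ℤ → Submodule K X) : FMod K (Fin 6) where
  X := X
  op := ![e, f, h, l, v1, v2]
  Fil := Fil

/-- Filtration condition for `S`-modules: increasing; `e f h l` raise by one, `v1 v2` lower by
one. -/
structure IsSFil {X : Type u} [AddCommGroup X] [Module K X] (e f h l v1 v2 : Module.End K X)
    (Fil : ℤ → Submodule K X) : Prop where
  mono : Monotone Fil
  e : ∀ i, ∀ x ∈ Fil i, e x ∈ Fil (i + 1)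
  f : ∀ i, ∀ x ∈ Fil i, f x ∈ Fil (i + 1)
  h : ∀ i, ∀ x ∈ Fil i, h x ∈ Fil (i + 1)
  l : ∀ i, ∀ x ∈ Fil i, l x ∈ Fil (i + 1)
  v1 : ∀ i, ∀ x ∈ Fil i, v1 x ∈ Fil (i - 1)
  v2 : ∀ i, ∀ x ∈ Fil i, v2 x ∈ Fil (i - 1)

/-- A filtered `S`-module. -/
structure IsSObj (X : FMod K (Fin 6)) : Prop where
  rel : IsSRel (R := Module.End K X.X) (X.op 0) (X.op 1) (X.op 2) (X.op 3) (X.op 4) (X.op 5)
  fil : IsSFil (X.op 0) (X.op 1) (X.op 2) (X.op 3) (X.op 4) (X.op 5) X.Fil

theorem isSObj_mkS {X : Type u} [AddCommGroup X] [Module K X] {e f h l v1 v2 : Module.End K X}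
    {Fil : ℤ → Submodule K X} (h1 : IsSRel e f h l v1 v2) (h2 : IsSFil e f h l v1 v2 Fil) :
    IsSObj (mkS e f h l v1 v2 Fil) := ⟨h1, h2⟩

/-- Morphisms between `mkS` objects. -/
theorem mem_FHom_mkS {X Y : Type u} [AddCommGroup X] [Module K X] [AddCommGroup Y] [Module K Y]
    {e f h l v1 v2 : Module.End K X} {FilX : ℤ → Submodule K X}
    {e' f' h' l' v1' v2' : Module.End K Y} {FilY : ℤ → Submodule K Y} {φ : X →ₗ[K] Y}
    (he : ∀ x, φ (e x) = e' (φ x)) (hf : ∀ x, φ (f x) = f' (φ x)) (hh : ∀ x, φ (h x) = h' (φ x))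
    (hl : ∀ x, φ (l x) = l' (φ x)) (hv1 : ∀ x, φ (v1 x) = v1' (φ x))
    (hv2 : ∀ x, φ (v2 x) = v2' (φ x)) (hfil : ∀ i, ∀ x ∈ FilX i, φ x ∈ FilY i) :
    φ ∈ FHom (mkS e f h l v1 v2 FilX) (mkS e' f' h' l' v1' v2' FilY) := by
  refine ⟨fun s x => ?_, hfil⟩
  fin_cases s
  · exact he x
  · exact hf x
  · exact hh x
  · exact hl x
  · exact hv1 x
  · exact hv2 x

theorem IsSObj.shift {X : FMod K (Fin 6)} (h : IsSObj X) (j : ℤ) : IsSObj (X.shift j) := by
  refine ⟨h.rel, ⟨fun a b hab => h.fil.mono (by omega), ?_, ?_, ?_, ?_, ?_, ?_⟩⟩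
  · intro i x hx
    have := h.fil.e (i - j) x hx
    rwa [show i - j + 1 = i + 1 - j by ring] at this
  · intro i x hx
    have := h.fil.f (i - j) x hx
    rwa [show i - j + 1 = i + 1 - j by ring] at this
  · intro i x hx
    have := h.fil.h (i - j) x hx
    rwa [show i - j + 1 = i + 1 - j by ring] at this
  · intro i x hx
    have := h.fil.l (i - j) x hx
    rwa [show i - j + 1 = i + 1 - j by ring] at this
  · intro i x hx
    have := h.fil.v1 (i - j) x hx
    rwa [show i - j - 1 = i - 1 - j by ring] at this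
  · intro i x hx
    have := h.fil.v2 (i - j) x hx
    rwa [show i - j - 1 = i - 1 - j by ring] at this

end Vale.Agent.P176
end
end

section

section

/-!
# P176: the chain of induced filtered modules

`P(W) = W[t] = ℕ →₀ W` with its filtration, the exact sequences
`0 → P(W)(-1) → P(W) → W → 0` attached to an operator `T` raising the filtration by one,
and the induced modules `Ind_h`, `Ind_e`, `Ind_f`.
-/

namespace Vale.Agent.P176

open Finsupp

variable {K : Type*} [Field K]
variable {W W' W'' : Type*} [AddCommGroup W] [Module K W] [AddCommGroup W'] [Module K W']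
  [AddCommGroup W''] [Module K W'']

/-- Short exact sequences of filtered vector spaces, exact on every level. -/
structure FilShort (F₁ : ℤ → Submodule K W) (F₂ : ℤ → Submodule K W') (F₃ : ℤ → Submodule K W'')
    (f : W →ₗ[K] W') (g : W' →ₗ[K] W'') : Prop where
  inj : Function.Injective f
  comp : ∀ x, g (f x) = 0
  map₁ : ∀ i x, x ∈ F₁ i → f x ∈ F₂ i
  map₂ : ∀ i x, x ∈ F₂ i → g x ∈ F₃ i
  exact : ∀ i y, y ∈ F₂ i → g y = 0 → ∃ x ∈ F₁ i, f x = y
  surj : ∀ i z, z ∈ F₃ i → ∃ y ∈ F₂ i, g y = z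

/-- An operator raising the filtration by one. -/
def Raises (F : ℤ → Submodule K W) (T : W →ₗ[K] W) : Prop := ∀ i, ∀ w ∈ F i, T w ∈ F (i + 1)

/-- Relations of a module over the Borel subalgebra. -/
structure IsB (e h : W →ₗ[K] W) : Prop where
  he : ∀ w, h (e w) = e (h w) + (2 : K) • e w

/-- Relations of an `sl₂`-module. -/
structure IsSl (e f h : W →ₗ[K] W) : Prop extends IsB e h where
  ef : ∀ w, e (f w) = f (e w) + h w
  hf : ∀ w, h (f w) = f (h w) - (2 : K) • f w

lemma isB_iff {e h : W →ₗ[K] W} : IsB e h ↔ IsBorel (R := Module.End K W) e h := by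
  constructor
  · intro H
    refine ⟨LinearMap.ext fun w => ?_⟩
    have := H.he w
    simpa only [Module.End.mul_apply, two_smul, LinearMap.add_apply] using this
  · intro H
    refine ⟨fun w => ?_⟩
    have := LinearMap.congr_fun H.he w
    simpa only [two_smul, Module.End.mul_apply, LinearMap.add_apply] using this

lemma isSl_iff {e f h : W →ₗ[K] W} : IsSl e f h ↔ IsSl2 (R := Module.End K W) e f h := by
  constructor
  · intro H
    refine ⟨LinearMap.ext fun w => ?_, LinearMap.ext fun w => ?_, LinearMap.ext fun w => ?_⟩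
    · simpa only [Module.End.mul_apply, LinearMap.add_apply] using H.ef w
    · simpa only [Module.End.mul_apply, two_smul, LinearMap.add_apply] using H.he w
    · simpa only [Module.End.mul_apply, two_smul, LinearMap.sub_apply, LinearMap.add_apply] using H.hf w
  · intro H
    refine ⟨⟨fun w => ?_⟩, fun w => ?_, fun w => ?_⟩
    · simpa only [two_smul, Module.End.mul_apply, LinearMap.add_apply] using LinearMap.congr_fun H.he w
    · simpa only [Module.End.mul_apply, LinearMap.add_apply] using LinearMap.congr_fun H.ef w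
    · simpa only [two_smul, Module.End.mul_apply, LinearMap.sub_apply, LinearMap.add_apply] using     LinearMap.congr_fun H.hf w

/-- The filtration of `P(W) = ℕ →₀ W`. -/
def filP (F : ℤ → Submodule K W) (i : ℤ) : Submodule K (ℕ →₀ W) where
  carrier := {p | ∀ a : ℕ, p a ∈ F (i - a)}
  add_mem' := fun hp hq a => by
    simpa using (F (i - a)).add_mem (hp a) (hq a)
  zero_mem' := fun a => by simp
  smul_mem' := fun c p hp a => by
    simpa using (F (i - a)).smul_mem c (hp a)

lemma mem_filP {F : ℤ → Submodule K W} {i : ℤ} {p : ℕ →₀ W} :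
    p ∈ filP F i ↔ ∀ a : ℕ, p a ∈ F (i - a) := Iff.rfl

lemma single_mem_filP {F : ℤ → Submodule K W} {i : ℤ} {a : ℕ} {w : W} (hw : w ∈ F (i - a)) :
    single a w ∈ filP F i := by
  intro b
  by_cases hb : a = b
  · subst hb; simpa only [single_eq_same] using hw
  · rw [Finsupp.single_eq_of_ne (by (clear * - hb; tauto))]
    exact Submodule.zero_mem _

lemma filP_induction {F : ℤ → Submodule K W} {i : ℤ} (T : (ℕ →₀ W) →ₗ[K] W')
    (G : Submodule K W') (h : ∀ (a : ℕ) (w : W), w ∈ F (i - a) → T (single a w) ∈ G)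
    {p : ℕ →₀ W} (hp : p ∈ filP F i) : T p ∈ G := by
  have h1 : T p = p.sum fun a w => T (single a w) := by
    conv_lhs => rw [← Finsupp.sum_single p]
    rw [map_finsuppSum]
  rw [h1]
  exact Submodule.sum_mem _ fun a _ => h a (p a) (hp a)

lemma filP_mono {F : ℤ → Submodule K W} (hF : Monotone F) : Monotone (filP F) := by
  intro i j hij p hp a
  exact hF (by omega) (hp a)

/-- The shift `t·`. -/
noncomputable def sh : (ℕ →₀ W) →ₗ[K] (ℕ →₀ W) := Finsupp.lmapDomain W K Nat.succ

@[simp] lemma sh_single (a : ℕ) (w : W) :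
    (sh : (ℕ →₀ W) →ₗ[K] (ℕ →₀ W)) (single a w) = single (a + 1) w := by
  simp [sh]

/-- Coefficientwise operators depending on the exponent. -/
noncomputable def coef (T : ℕ → (W →ₗ[K] W')) : (ℕ →₀ W) →ₗ[K] (ℕ →₀ W') :=
  Finsupp.lsum ℕ (fun a => (Finsupp.lsingle a).comp (T a))

@[simp] lemma coef_single (T : ℕ → (W →ₗ[K] W')) (a : ℕ) (w : W) :
    coef T (single a w) = single a (T a w) := by
  simp [coef]

lemma coef_apply (T : ℕ → (W →ₗ[K] W')) (p : ℕ →₀ W) (a : ℕ) :
    coef T p a = T a (p a) := by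
  induction p using Finsupp.induction_linear with
  | zero => simp only [map_zero, coe_zero, Pi.zero_apply]
  | add p q hp hq => simp only [map_add, coe_add, Pi.add_apply, hp, hq]
  | single b w =>
    rw [coef_single]
    by_cases hb : b = a
    · subst hb; simp only [single_eq_same]
    · rw [Finsupp.single_eq_of_ne (by tauto), Finsupp.single_eq_of_ne (by tauto), map_zero]

/-- The functor `P` on linear maps. -/
noncomputable abbrev mapP (φ : W →ₗ[K] W') : (ℕ →₀ W) →ₗ[K] (ℕ →₀ W') := coef fun _ => φ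

lemma sh_raises (F : ℤ → Submodule K W) : Raises (filP F) sh := by
  intro i p hp
  refine filP_induction sh _ (fun a w hw => ?_) hp
  rw [sh_single]
  exact single_mem_filP (by push_cast; convert hw using 2; ring)

lemma coef_mem {F : ℤ → Submodule K W} {F' : ℤ → Submodule K W'} {T : ℕ → (W →ₗ[K] W')} {i j : ℤ}
    (hT : ∀ a : ℕ, ∀ w ∈ F (i - a), T a w ∈ F' (j - a)) {p : ℕ →₀ W} (hp : p ∈ filP F i) :
    coef T p ∈ filP F' j := fun a => by
  rw [coef_apply]; exact hT a _ (hp a)

/-- `κ = t - T`. -/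
noncomputable def kap (T : W →ₗ[K] W) : (ℕ →₀ W) →ₗ[K] (ℕ →₀ W) := sh - mapP T

@[simp] lemma kap_single (T : W →ₗ[K] W) (a : ℕ) (w : W) :
    kap T (single a w) = single (a + 1) w - single a (T w) := by
  simp only [kap, LinearMap.sub_apply, sh_single, coef_single]

/-- Evaluation `t ↦ T`. -/
noncomputable def evP (T : W →ₗ[K] W) : (ℕ →₀ W) →ₗ[K] W :=
  Finsupp.lsum ℕ (fun a => T ^ a)

@[simp] lemma evP_single (T : W →ₗ[K] W) (a : ℕ) (w : W) : evP T (single a w) = (T ^ a) w := by
  simp [evP]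

/-- The contraction `D`. -/
noncomputable def conD (T : W →ₗ[K] W) : (ℕ →₀ W) →ₗ[K] (ℕ →₀ W) :=
  Finsupp.lsum ℕ (fun a => ∑ b ∈ Finset.range a, (Finsupp.lsingle b).comp (T ^ (a - 1 - b)))

lemma conD_single (T : W →ₗ[K] W) (a : ℕ) (w : W) :
    conD T (single a w) = ∑ b ∈ Finset.range a, single b ((T ^ (a - 1 - b)) w) := by
  simp only [conD, coe_lsum, LinearMap.coe_sum, LinearMap.coe_comp, Finset.sum_apply, Function.comp_apply, map_zero, lsingle_apply, single_zero, Finset.sum_const_zero, sum_single_index]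

lemma conD_single_zero (T : W →ₗ[K] W) (w : W) : conD T (single 0 w) = 0 := by
  simp only [conD_single, Finset.range_zero, zero_tsub, pow_zero, Module.End.one_apply, Finset.sum_empty]

lemma conD_single_succ (T : W →ₗ[K] W) (a : ℕ) (w : W) :
    conD T (single (a + 1) w) = single a w + conD T (single a (T w)) := by
  rw [conD_single, conD_single, Finset.sum_range_succ, add_comm]
  congr 1
  · simp only [add_tsub_cancel_right, tsub_self, pow_zero, Module.End.one_apply]
  · refine Finset.sum_congr rfl fun b hb => ?_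
    rw [Finset.mem_range] at hb
    have : a + 1 - 1 - b = (a - 1 - b) + 1 := by omega
    rw [this, pow_succ]
    rfl

lemma conD_kap (T : W →ₗ[K] W) (p : ℕ →₀ W) : conD T (kap T p) = p := by
  have : (conD T).comp (kap T) = LinearMap.id := by
    refine Finsupp.lhom_ext fun a w => ?_
    simp only [LinearMap.comp_apply, kap_single, map_sub, LinearMap.id_apply]
    rw [conD_single_succ]
    abel
  exact LinearMap.congr_fun this p

lemma evP_kap (T : W →ₗ[K] W) (p : ℕ →₀ W) : evP T (kap T p) = 0 := by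
  have : (evP T).comp (kap T) = 0 := by
    refine Finsupp.lhom_ext fun a w => ?_
    simp only [LinearMap.comp_apply, kap_single, map_sub, evP_single, LinearMap.zero_apply]
    rw [pow_succ]
    simp only [Module.End.mul_apply, sub_self]
  exact LinearMap.congr_fun this p

lemma kap_conD (T : W →ₗ[K] W) (p : ℕ →₀ W) : kap T (conD T p) + single 0 (evP T p) = p := by
  have : (kap T).comp (conD T) + (Finsupp.lsingle 0).comp (evP T) = LinearMap.id := by
    refine Finsupp.lhom_ext fun a w => ?_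
    simp only [LinearMap.add_apply, LinearMap.comp_apply, LinearMap.id_apply, evP_single,
      Finsupp.lsingle_apply]
    induction a generalizing w with
    | zero => simp only [conD_single_zero, map_zero, pow_zero, Module.End.one_apply, zero_add]
    | succ a ih =>
      rw [conD_single_succ, map_add, kap_single, pow_succ]
      have := ih (T w)
      rw [Module.End.mul_apply]
      calc _ = single (a + 1) w - single a (T w) +
          ((kap T) ((conD T) (single a (T w))) + single 0 ((T ^ a) (T w))) := by abel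
        _ = _ := by rw [this]; abel
  exact LinearMap.congr_fun this p

lemma pow_mem {F : ℤ → Submodule K W} {T : W →ₗ[K] W} (hT : Raises F T) (k : ℕ) {i : ℤ} {w : W}
    (hw : w ∈ F i) : (T ^ k) w ∈ F (i + k) := by
  induction k generalizing i w with
  | zero => simpa only [CharP.cast_eq_zero, add_zero, pow_zero, Module.End.one_apply] using hw
  | succ k ih =>
    rw [pow_succ, Module.End.mul_apply]
    have := ih (hT i w hw)
    convert this using 2
    push_cast; ring

/-- The basic exact sequence `0 → P(W)(-1) → P(W) → W → 0`. -/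
theorem filShort_kap {F : ℤ → Submodule K W} {T : W →ₗ[K] W} (hT : Raises F T) :
    FilShort (fun i => filP F (i - 1)) (filP F) F (kap T) (evP T) where
  inj := Function.LeftInverse.injective (g := conD T) (conD_kap T)
  comp := evP_kap T
  map₁ := by
    intro i p hp
    refine filP_induction (F := F) (i := i - 1) (kap T) _ (fun a w hw => ?_) hp
    rw [kap_single]
    refine Submodule.sub_mem _ (single_mem_filP ?_) (single_mem_filP ?_)
    · push_cast; convert hw using 2; ring
    · have := hT _ _ hw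
      convert this using 2; ring
  map₂ := by
    intro i p hp
    refine filP_induction (F := F) (i := i) (evP T) _ (fun a w hw => ?_) hp
    rw [evP_single]
    have := pow_mem hT a hw
    convert this using 2; ring
  exact := by
    intro i p hp h0
    refine ⟨conD T p, ?_, ?_⟩
    · refine filP_induction (F := F) (i := i) (conD T) _ (fun a w hw => ?_) hp
      rw [conD_single]
      refine Submodule.sum_mem _ fun b hb => single_mem_filP ?_
      rw [Finset.mem_range] at hb
      have := pow_mem hT (a - 1 - b) hw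
      convert this using 2
      have h2 : ((a - 1 - b : ℕ) : ℤ) = (a : ℤ) - 1 - b := by omega
      rw [h2]; ring
    · have := kap_conD T p
      rw [h0, Finsupp.single_zero, add_zero] at this
      exact this
  surj := by
    intro i w hw
    exact ⟨single 0 w, single_mem_filP (by simpa using hw), by simp only [evP_single, pow_zero, Module.End.one_apply]⟩

/-- `P` preserves filtered short exact sequences. -/
theorem FilShort.mapP {F₁ : ℤ → Submodule K W} {F₂ : ℤ → Submodule K W'}
    {F₃ : ℤ → Submodule K W''} {f : W →ₗ[K] W'} {g : W' →ₗ[K] W''}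
    (H : FilShort F₁ F₂ F₃ f g) :
    FilShort (filP F₁) (filP F₂) (filP F₃) (mapP f) (mapP g) where
  inj := by
    intro p q hpq
    ext a
    have := DFunLike.congr_fun hpq a
    rw [coef_apply, coef_apply] at this
    exact H.inj this
  comp := by
    intro p
    ext a
    rw [coef_apply, coef_apply, H.comp]
    rfl
  map₁ := fun i p hp => coef_mem (fun a w hw => H.map₁ _ _ hw) hp
  map₂ := fun i p hp => coef_mem (fun a w hw => H.map₂ _ _ hw) hp
  exact := by
    intro i p hp h0
    have h1 : ∀ a : ℕ, ∃ x ∈ F₁ (i - a), f x = p a := fun a => by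
      refine H.exact _ _ (hp a) ?_
      have := DFunLike.congr_fun h0 a
      rwa [coef_apply] at this
    choose x hx hfx using h1
    refine ⟨Finsupp.onFinset p.support x fun a ha => ?_, fun a => ?_, ?_⟩
    · rw [Finsupp.mem_support_iff]
      intro h2
      apply ha
      apply H.inj
      rw [hfx, h2, map_zero]
    · simpa only [onFinset_apply] using hx a
    · ext a
      rw [coef_apply]
      simpa only [onFinset_apply] using hfx a
  surj := by
    intro i p hp
    have h1 : ∀ a : ℕ, ∃ y ∈ F₂ (i - a), g y = p a := fun a => H.surj _ _ (hp a)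
    choose y hy hgy using h1
    classical
    refine ⟨Finsupp.onFinset p.support (fun a => if p a = 0 then 0 else y a) fun a ha => ?_,
      fun a => ?_, ?_⟩
    · rw [Finsupp.mem_support_iff]
      intro h2
      exact ha (if_pos h2)
    · simp only [Finsupp.onFinset_apply]
      split_ifs
      · exact Submodule.zero_mem _
      · exact hy a
    · ext a
      rw [coef_apply]
      simp only [Finsupp.onFinset_apply]
      split_ifs with h2
      · rw [map_zero, h2]
      · exact hgy a

/-- Shifting a filtered short exact sequence. -/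
theorem FilShort.shift {F₁ : ℤ → Submodule K W} {F₂ : ℤ → Submodule K W'}
    {F₃ : ℤ → Submodule K W''} {f : W →ₗ[K] W'} {g : W' →ₗ[K] W''}
    (H : FilShort F₁ F₂ F₃ f g) (j : ℤ) :
    FilShort (fun i => F₁ (i - j)) (fun i => F₂ (i - j)) (fun i => F₃ (i - j)) f g where
  inj := H.inj
  comp := H.comp
  map₁ := fun _ => H.map₁ _
  map₂ := fun _ => H.map₂ _
  exact := fun _ => H.exact _
  surj := fun _ => H.surj _

/-! ### The induced modules -/

/-- The operator `h` on `P(W)`: `h (t^a w) = t^a (h + c a) w`. -/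
noncomputable def hP (c : K) (h : W →ₗ[K] W) : (ℕ →₀ W) →ₗ[K] (ℕ →₀ W) :=
  coef fun a => h + (c * a) • LinearMap.id

@[simp] lemma hP_single (c : K) (h : W →ₗ[K] W) (a : ℕ) (w : W) :
    hP c h (single a w) = single a (h w + (c * a) • w) := by
  simp only [hP, coef_single, LinearMap.add_apply, LinearMap.smul_apply, LinearMap.id_coe, id_eq, single_add]

/-- The operator `e` on `Ind_f`: `e (f^a w) = f^a e w + a f^{a-1} (h - a + 1) w`. -/
noncomputable def eP (e h : W →ₗ[K] W) : (ℕ →₀ W) →ₗ[K] (ℕ →₀ W) :=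
  Finsupp.lsum ℕ fun a => (Finsupp.lsingle a).comp e +
    (Finsupp.lsingle (a - 1)).comp ((a : K) • (h - ((a : K) - 1) • LinearMap.id))

lemma eP_single (e h : W →ₗ[K] W) (a : ℕ) (w : W) :
    eP e h (single a w) = single a (e w) + single (a - 1) ((a : K) • (h w - ((a : K) - 1) • w)) := by
  simp only [eP, Finsupp.lsum_single, LinearMap.add_apply, LinearMap.comp_apply,
    LinearMap.smul_apply, LinearMap.sub_apply, LinearMap.id_apply, Finsupp.lsingle_apply]

@[simp] lemma eP_single_zero (e h : W →ₗ[K] W) (w : W) :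
    eP e h (single 0 w) = single 0 (e w) := by
  simp only [eP_single, zero_tsub, Nat.cast_zero, zero_sub, neg_smul, one_smul, sub_neg_eq_add, smul_add, zero_smul, add_zero, single_zero]

@[simp] lemma eP_single_succ (e h : W →ₗ[K] W) (a : ℕ) (w : W) :
    eP e h (single (a + 1) w) =
      single (a + 1) (e w) + single a (((a : K) + 1) • (h w - (a : K) • w)) := by
  rw [eP_single]
  simp only [add_tsub_cancel_right, Nat.cast_add, Nat.cast_one, add_sub_cancel_right]

lemma hP_raises {F : ℤ → Submodule K W} (hF : Monotone F) (c : K) {h : W →ₗ[K] W}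
    (hh : Raises F h) : Raises (filP F) (hP c h) := by
  intro i p hp
  refine coef_mem (fun a w hw => ?_) hp
  simp only [LinearMap.add_apply, LinearMap.smul_apply, LinearMap.id_apply]
  refine Submodule.add_mem _ ?_ (Submodule.smul_mem _ _ (hF (by omega) hw))
  have := hh _ _ hw
  convert this using 2; ring

lemma eP_raises {F : ℤ → Submodule K W} (hF : Monotone F) {e h : W →ₗ[K] W}
    (he : Raises F e) (hh : Raises F h) : Raises (filP F) (eP e h) := by
  intro i p hp
  refine filP_induction (F := F) (i := i) (eP e h) _ (fun a w hw => ?_) hp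
  cases a with
  | zero =>
    rw [eP_single_zero]
    refine single_mem_filP ?_
    have := he _ _ hw
    simpa using this
  | succ a =>
    rw [eP_single_succ]
    refine Submodule.add_mem _ (single_mem_filP ?_) (single_mem_filP ?_)
    · have := he _ _ hw
      convert this using 2; ring
    · refine Submodule.smul_mem _ _ (Submodule.sub_mem _ ?_
        (Submodule.smul_mem _ _ (hF ?_ hw)))
      · have := hh _ _ hw
        refine hF ?_ this
        push_cast; omega
      · push_cast; omega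

/-- `Ind_e W` is a module over the Borel subalgebra (`e` = shift). -/
lemma isB_indE (h : W →ₗ[K] W) : IsB (sh : (ℕ →₀ W) →ₗ[K] (ℕ →₀ W)) (hP 2 h) where
  he := by
    intro p
    have : (hP 2 h).comp sh = (sh : (ℕ →₀ W) →ₗ[K] (ℕ →₀ W)).comp (hP 2 h) + (2 : K) • sh := by
      refine Finsupp.lhom_ext fun a w => ?_
      simp only [LinearMap.comp_apply, LinearMap.add_apply, LinearMap.smul_apply, sh_single,
        hP_single, Finsupp.smul_single, ← Finsupp.single_add]
      congr 1
      push_cast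
      module
    exact LinearMap.congr_fun this p

/-- `Ind_f W` is an `sl₂`-module (`f` = shift). -/
lemma isSl_indF {e h : W →ₗ[K] W} (H : IsB e h) :
    IsSl (eP e h) (sh : (ℕ →₀ W) →ₗ[K] (ℕ →₀ W)) (hP (-2) h) where
  he := by
    intro p
    have : (hP (-2) h).comp (eP e h) = (eP e h).comp (hP (-2) h) + (2 : K) • eP e h := by
      refine Finsupp.lhom_ext fun a w => ?_
      cases a with
      | zero =>
        simp only [LinearMap.comp_apply, LinearMap.add_apply, LinearMap.smul_apply,
          hP_single, eP_single_zero, Finsupp.smul_single, ← Finsupp.single_add, H.he]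
        congr 1
        simp
      | succ a =>
        simp only [LinearMap.comp_apply, eP_single_succ, smul_sub, single_sub, map_add, hP_single, H.he, single_add, map_sub, map_smul, LinearMap.add_apply, LinearMap.smul_apply, smul_add]
        simp only [← Finsupp.smul_single]
        push_cast
        module
    exact LinearMap.congr_fun this p
  ef := by
    intro p
    have : (eP e h).comp sh = (sh : (ℕ →₀ W) →ₗ[K] (ℕ →₀ W)).comp (eP e h) + hP (-2) h := by
      refine Finsupp.lhom_ext fun a w => ?_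
      cases a with
      | zero =>
        simp [eP_single_succ]
      | succ a =>
        simp only [LinearMap.comp_apply, LinearMap.add_apply, sh_single,
          hP_single, eP_single_succ, map_add, smul_sub, Finsupp.single_add, Finsupp.single_sub]
        simp only [← smul_single, map_sub, map_smul, sh_single]
        push_cast
        module
    exact LinearMap.congr_fun this p
  hf := by
    intro p
    have : (hP (-2) h).comp sh =
        (sh : (ℕ →₀ W) →ₗ[K] (ℕ →₀ W)).comp (hP (-2) h) - (2 : K) • sh := by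
      refine Finsupp.lhom_ext fun a w => ?_
      simp only [LinearMap.comp_apply, LinearMap.sub_apply, LinearMap.smul_apply, sh_single,
        hP_single, Finsupp.smul_single, ← Finsupp.single_sub]
      congr 1
      push_cast
      module
    exact LinearMap.congr_fun this p

/-! ### Functoriality -/

lemma mapP_sh (φ : W →ₗ[K] W') (p : ℕ →₀ W) : mapP φ (sh (K := K) p) = sh (K := K) (mapP φ p) := by
  have : (mapP φ).comp sh = (sh (K := K)).comp (mapP φ) := by
    refine Finsupp.lhom_ext fun a w => ?_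
    simp
  exact LinearMap.congr_fun this p

lemma mapP_hP (c : K) {φ : W →ₗ[K] W'} {h : W →ₗ[K] W} {h' : W' →ₗ[K] W'}
    (hφ : ∀ w, φ (h w) = h' (φ w)) (p : ℕ →₀ W) : mapP φ (hP c h p) = hP c h' (mapP φ p) := by
  have : (mapP φ).comp (hP c h) = (hP c h').comp (mapP φ) := by
    refine Finsupp.lhom_ext fun a w => ?_
    simp only [LinearMap.coe_comp, Function.comp_apply, hP_single, single_add, map_add, coef_single, hφ, map_smul]
  exact LinearMap.congr_fun this p

lemma mapP_eP {φ : W →ₗ[K] W'} {e h : W →ₗ[K] W} {e' h' : W' →ₗ[K] W'}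
    (he : ∀ w, φ (e w) = e' (φ w)) (hφ : ∀ w, φ (h w) = h' (φ w)) (p : ℕ →₀ W) :
    mapP φ (eP e h p) = eP e' h' (mapP φ p) := by
  have : (mapP φ).comp (eP e h) = (eP e' h').comp (mapP φ) := by
    refine Finsupp.lhom_ext fun a w => ?_
    cases a with
    | zero => simp [he]
    | succ a => simp only [LinearMap.coe_comp, Function.comp_apply, eP_single_succ, map_add, coef_single, he, map_smul, map_sub, hφ]
  exact LinearMap.congr_fun this p

/-! ### Linearity of `κ` and `ev` -/

section Hstep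

variable (h : W →ₗ[K] W)

/-- `Ind_h` : `h` acts on `P(W)` by the shift; `κ` and `ev` commute with `h`. -/
lemma kap_sh (T : W →ₗ[K] W) (p : ℕ →₀ W) :
    kap T (sh (K := K) p) = sh (K := K) (kap T p) := by
  have : (kap T).comp sh = (sh (K := K)).comp (kap T) := by
    refine Finsupp.lhom_ext fun a w => ?_
    simp only [LinearMap.coe_comp, Function.comp_apply, sh_single, kap_single, map_sub]
  exact LinearMap.congr_fun this p

lemma evP_sh (T : W →ₗ[K] W) (p : ℕ →₀ W) : evP T (sh (K := K) p) = T (evP T p) := by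
  have : (evP T).comp sh = T.comp (evP T) := by
    refine Finsupp.lhom_ext fun a w => ?_
    simp only [LinearMap.coe_comp, Function.comp_apply, sh_single, evP_single, pow_succ', Module.End.mul_apply]
  exact LinearMap.congr_fun this p

end Hstep

/-- `[h, T] = c T` implies that `κ : P(W^{tw})(-1) → P(W)` commutes with `h`, where
`h^{tw} = h + c`. -/
lemma kap_hP (c : K) {T h : W →ₗ[K] W} (hT : ∀ w, h (T w) = T (h w) + c • T w) (p : ℕ →₀ W) :
    kap T (hP c (h + c • LinearMap.id) p) = hP c h (kap T p) := by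
  have : (kap T).comp (hP c (h + c • LinearMap.id)) = (hP c h).comp (kap T) := by
    refine Finsupp.lhom_ext fun a w => ?_
    simp only [LinearMap.comp_apply, hP_single, LinearMap.add_apply, LinearMap.smul_apply, LinearMap.id_apply, single_add, map_add, kap_single, map_smul, map_sub, hT]
    simp only [← Finsupp.smul_single]
    push_cast
    module
  exact LinearMap.congr_fun this p

lemma evP_hP (c : K) {T h : W →ₗ[K] W} (hT : ∀ w, h (T w) = T (h w) + c • T w) (p : ℕ →₀ W) :
    evP T (hP c h p) = h (evP T p) := by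
  have : (evP T).comp (hP c h) = h.comp (evP T) := by
    refine Finsupp.lhom_ext fun a w => ?_
    simp only [LinearMap.comp_apply, hP_single, evP_single]
    induction a generalizing w with
    | zero => simp only [pow_zero, Nat.cast_zero, mul_zero, zero_smul, add_zero, Module.End.one_apply]
    | succ a ih =>
      have h1 := ih (T w)
      rw [pow_succ, Module.End.mul_apply, Module.End.mul_apply, ← h1]
      simp only [map_add, map_smul, hT]
      push_cast
      module
  exact LinearMap.congr_fun this p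

/-- `κ : Ind_f(W^{tw})(-1) → Ind_f(W)` commutes with `e`. -/
lemma kap_eP {e f h : W →ₗ[K] W} (H : IsSl e f h) (p : ℕ →₀ W) :
    kap f (eP e (h + (-2 : K) • LinearMap.id) p) = eP e h (kap f p) := by
  have : (kap f).comp (eP e (h + (-2 : K) • LinearMap.id)) = (eP e h).comp (kap f) := by
    refine Finsupp.lhom_ext fun a w => ?_
    cases a with
    | zero =>
      simp only [LinearMap.comp_apply, eP_single_zero, kap_single, map_sub, eP_single_succ, H.ef, single_add]
      simp only [zero_add, Nat.cast_zero, zero_smul, sub_zero, one_smul, add_sub_add_right_eq_sub]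
    | succ a =>
      simp only [LinearMap.comp_apply, eP_single_succ, kap_single, map_add, map_sub, map_smul,
        LinearMap.add_apply, LinearMap.smul_apply, LinearMap.id_apply, H.ef, H.hf,
        Finsupp.single_add, Finsupp.single_sub, ← Finsupp.smul_single]
      push_cast
      module
  exact LinearMap.congr_fun this p

lemma evP_eP {e f h : W →ₗ[K] W} (H : IsSl e f h) (p : ℕ →₀ W) :
    evP f (eP e h p) = e (evP f p) := by
  have : (evP f).comp (eP e h) = e.comp (evP f) := by
    refine Finsupp.lhom_ext fun a w => ?_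
    simp only [LinearMap.comp_apply, evP_single]
    induction a generalizing w with
    | zero => simp only [eP_single_zero, evP_single, pow_zero, Module.End.one_apply]
    | succ a ih =>
      have h1 := ih (f w)
      rw [pow_succ, Module.End.mul_apply, ← h1]
      cases a with
      | zero =>
        simp only [zero_add, eP_single_succ, Nat.cast_zero, zero_smul, sub_zero, one_smul, map_add, evP_single, pow_succ, pow_zero, one_mul, Module.End.one_apply, eP_single_zero, H.ef, single_add]
      | succ a =>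
        simp only [eP_single_succ, map_add, evP_single, map_smul, map_sub, H.ef, H.hf]
        simp only [pow_succ, Module.End.mul_apply]
        push_cast
        module
  exact LinearMap.congr_fun this p

end Vale.Agent.P176
end
end

section

section

/-!
# P176: glue between X3, the chain and the objects `FMod K (Fin 6)`
-/

namespace Vale.Agent.P176

universe u

variable {K : Type u} [Field K] {W W' : Type u} [AddCommGroup W] [Module K W] [AddCommGroup W']
  [Module K W']

theorem IsFilS.isSFil {Fil : ℤ → Submodule K W} {e f h l v1 v2 : Module.End K W}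
    (H : IsFilS Fil e f h l v1 v2) : IsSFil e f h l v1 v2 Fil :=
  ⟨H.mono, H.e, H.f, H.h, H.l, H.v1, H.v2⟩

/-- X3 as an object. -/
@[reducible] noncomputable def x3Obj (E F H : Module.End K W) (Fil : ℤ → Submodule K W) :
    FMod K (Fin 6) :=
  mkS (x3e E) (x3f F) (x3h H) (x3l E F H) (x31 E F H) (x32 E F H) (x3Fil Fil)

theorem isSObj_x3Obj {E F H : Module.End K W} {Fil : ℤ → Submodule K W} (h : IsSl2 E F H)
    (hF : IsFilSl2 Fil E F H) : IsSObj (x3Obj E F H Fil) :=
  isSObj_mkS (isSRel_x3 h) (isFilS_x3 hF).isSFil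

theorem HomS.mem_FHom {X Y : Type u} [AddCommGroup X] [Module K X] [AddCommGroup Y] [Module K Y]
    {e f h l v1 v2 : Module.End K X} {FilX : ℤ → Submodule K X}
    {e' f' h' l' v1' v2' : Module.End K Y} {FilY : ℤ → Submodule K Y} {φ : X →ₗ[K] Y}
    (H : HomS φ e f h l v1 v2 e' f' h' l' v1' v2')
    (hfil : ∀ i, ∀ x ∈ FilX i, φ x ∈ FilY i) :
    φ ∈ FHom (mkS e f h l v1 v2 FilX) (mkS e' f' h' l' v1' v2' FilY) :=
  mem_FHom_mkS H.e H.f H.h H.l H.v1 H.v2 hfil

theorem x3map_fil_zero {Fil : ℤ → Submodule K W} {Fil' : ℤ → Submodule K W'} {g : W →ₗ[K] W'}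
    (hf : ∀ i, ∀ x ∈ Fil i, g x ∈ Fil' i) : ∀ i, ∀ x ∈ x3Fil Fil i, x3map g x ∈ x3Fil Fil' i := by
  have h1 : FilDeg Fil Fil' 0 g := fun i x hx => by rw [add_zero]; exact hf i x hx
  intro i x hx
  have := x3map_fil h1 i x hx
  rwa [add_zero] at this

theorem x3map_mem_FHom {E F H : Module.End K W} {Fil : ℤ → Submodule K W}
    {E' F' H' : Module.End K W'} {Fil' : ℤ → Submodule K W'} {g : W →ₗ[K] W'}
    (hg : HomSl2 g E F H E' F' H') (hf : ∀ i, ∀ x ∈ Fil i, g x ∈ Fil' i) :
    x3map g ∈ FHom (x3Obj E F H Fil) (x3Obj E' F' H' Fil') :=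
  (homS_x3map hg).mem_FHom (x3map_fil_zero hf)

/-- The X3 object of a shifted filtration is the shifted X3 object. -/
theorem x3Obj_shiftFil (E F H : Module.End K W) (Fil : ℤ → Submodule K W) (j : ℤ) :
    x3Obj E F H (fun i => Fil (i - j)) = (x3Obj E F H Fil).shift j := by
  have h := x3Fil_shiftFil Fil j
  simp only [x3Obj, mkS, FMod.shift]
  congr 1

/-- The extension as a morphism of objects, out of a shifted X3 object. -/
theorem x3lift_mem_FHom {E F H : Module.End K W} {Fil : ℤ → Submodule K W} {X : FMod K (Fin 6)}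
    (hX : IsSObj X) {j : ℤ} {φ : W →ₗ[K] X.X}
    (hφ : HomSl2 φ E F H (X.op 0) (X.op 1) (X.op 2)) (hf : ∀ i, ∀ w ∈ Fil i, φ w ∈ X.Fil (i + j)) :
    x3lift (X.op 3) (X.op 4) (X.op 5) φ ∈ FHom ((x3Obj E F H Fil).shift j) X := by
  have h1 := homS_x3lift hX.rel hφ
  have h2 : IsFilS X.Fil (X.op 0) (X.op 1) (X.op 2) (X.op 3) (X.op 4) (X.op 5) :=
    ⟨hX.fil.mono, hX.fil.e, hX.fil.f, hX.fil.h, hX.fil.l, hX.fil.v1, hX.fil.v2⟩
  refine ⟨fun s x => ?_, fun i x hx => ?_⟩
  · fin_cases s
    · exact h1.e x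
    · exact h1.f x
    · exact h1.h x
    · exact h1.l x
    · exact h1.v1 x
    · exact h1.v2 x
  · have := x3lift_fil (Fil := Fil) (d := j) h2 hf (i - j) x hx
    rwa [show i - j + j = i by ring] at this

/-- Uniqueness for objects. -/
theorem x3Obj_hom_ext {E F H : Module.End K W} {Fil : ℤ → Submodule K W} {X : FMod K (Fin 6)}
    {A B : X3 W →ₗ[K] X.X} (hA : IsOpHom (x3Obj E F H Fil) X A)
    (hB : IsOpHom (x3Obj E F H Fil) X B)
    (hAB : ∀ w, A (Finsupp.single 0 w, 0) = B (Finsupp.single 0 w, 0)) : A = B :=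
  x3_hom_ext (e := X.op 0) (f := X.op 1) (h := X.op 2) (l := X.op 3) (v1 := X.op 4)
    (v2 := X.op 5) ⟨hA 0, hA 1, hA 2, hA 3, hA 4, hA 5⟩ ⟨hB 0, hB 1, hB 2, hB 3, hB 4, hB 5⟩ hAB

end Vale.Agent.P176
end
end

section

section

/-!
# P176: the four-term and three-term sequences, abstractly
-/

namespace Vale.Agent.P176

universe u

variable {K : Type u} [Field K] {W M : Type u} [AddCommGroup W] [Module K W] [AddCommGroup M]
  [Module K M]

/-- The filtration which is everything in degrees `≥ 0` and zero in negative degrees. -/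
structure IsStd (F : ℤ → Submodule K W) : Prop where
  top : ∀ i : ℤ, 0 ≤ i → F i = ⊤
  bot : ∀ i : ℤ, i < 0 → F i = ⊥

namespace IsStd

variable {F : ℤ → Submodule K W} {G : ℤ → Submodule K M}

theorem mem (h : IsStd F) {i : ℤ} (hi : 0 ≤ i) (w : W) : w ∈ F i := by
  rw [h.top i hi]; trivial

theorem eq_zero (h : IsStd F) {i : ℤ} (hi : i < 0) {w : W} (hw : w ∈ F i) : w = 0 := by
  rw [h.bot i hi] at hw; exact hw

theorem mono (h : IsStd F) : Monotone F := by
  intro i j hij w hw
  rcases lt_or_ge i 0 with hi | hi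
  · rw [h.eq_zero hi hw]; exact Submodule.zero_mem _
  · exact h.mem (by omega) w

theorem map (h : IsStd F) (h' : IsStd G) (g : W →ₗ[K] M) {i j : ℤ} (hij : i ≤ j) {w : W}
    (hw : w ∈ F i) : g w ∈ G j := by
  rcases lt_or_ge i 0 with hi | hi
  · rw [h.eq_zero hi hw, map_zero]; exact Submodule.zero_mem _
  · exact h'.mem (by omega) _

theorem isFilSl2 (h : IsStd F) (e f k : Module.End K W) : IsFilSl2 F e f k where
  mono := h.mono
  e := fun _ _ hw => h.map h e (by omega) hw
  f := fun _ _ hw => h.map h f (by omega) hw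
  h := fun _ _ hw => h.map h k (by omega) hw

end IsStd

/-- The scalar operator. -/
def scal (K W : Type*) [Field K] [AddCommGroup W] [Module K W] (c : K) : Module.End K W :=
  c • LinearMap.id

@[simp] theorem scal_apply (c : K) (w : W) : scal K W c w = c • w := rfl

@[simp] theorem scal_pow_apply (c : K) (k : ℕ) (w : W) : (scal K W c ^ k) w = c ^ k • w := by
  induction k with
  | zero => simp only [pow_zero, Module.End.one_apply, one_smul]
  | succ k ih => rw [pow_succ', Module.End.mul_apply, ih, scal_apply, smul_smul, pow_succ']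

/-- The object `W` with `l` acting by the scalar `c` and `v1`, `v2` by zero. -/
@[reducible] def flatObj (E F H : Module.End K W) (c : K) (Fil : ℤ → Submodule K W) :
    FMod K (Fin 6) :=
  mkS E F H (scal K W c) 0 0 Fil

theorem isSObj_flatObj {E F H : Module.End K W} (h : IsSl2 E F H) (c : K)
    {Fil : ℤ → Submodule K W} (hFil : IsFilSl2 Fil E F H) : IsSObj (flatObj E F H c Fil) := by
  refine isSObj_mkS ?_ ?_
  · refine ⟨h, ?_, ?_, ?_, ?_, ?_, ?_, ?_, ?_, ?_, ?_, ?_, ?_, ?_, ?_, ?_, ?_, ?_⟩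
    all_goals
      apply LinearMap.ext
      intro x
      simp
  · refine ⟨hFil.mono, hFil.e, hFil.f, hFil.h, ?_, ?_, ?_⟩
    · intro i x hx
      exact (Fil (i + 1)).smul_mem c (hFil.mono (by omega) hx)
    · intro i x _; exact Submodule.zero_mem _
    · intro i x _; exact Submodule.zero_mem _

/-- The data for the four-term sequence. -/
structure FourData (E F H : Module.End K W) (e f h : Module.End K M) (ι : M →ₗ[K] W × W)
    (d : W × W →ₗ[K] M) (c : K) : Prop where
  slW : IsSl2 E F H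
  slM : IsSl2 e f h
  homι : HomSl2 ι e f h (vE E) (vF F) (vH H)
  homd : HomSl2 d (vE E) (vF F) (vH H) e f h
  inj : Function.Injective ι
  surj : Function.Surjective d
  Tι : ∀ m, vT E F H (ι m) = c • ι m
  dT : ∀ x, d (vT E F H x) = c • d x
  ker : ∀ x, vT E F H x = c • x → ∃ m, ι m = x
  im : ∀ x, d x = 0 → ∃ y, vT E F H y - c • y = x

section

variable {E F H : Module.End K W} {e f h : Module.End K M} {ι : M →ₗ[K] W × W}
  {d : W × W →ₗ[K] M} {c : K}

/-- `e`, `f`, `h` on `W × M`. -/
@[reducible] def hOp (A : Module.End K W) (a : Module.End K M) : Module.End K (W × M) :=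
  LinearMap.prodMap A a

/-- `l` on `W × M`. -/
@[reducible] def hL (K W M : Type*) [Field K] [AddCommGroup W] [Module K W] [AddCommGroup M]
    [Module K M] (c : K) : Module.End K (W × M) :=
  LinearMap.prodMap (scal K W c) (scal K M (c - 1))

/-- `v1` on `W × M`. -/
@[reducible] def hV1 (d : W × W →ₗ[K] M) : Module.End K (W × M) :=
  LinearMap.inr K W M ∘ₗ d ∘ₗ LinearMap.inl K W W ∘ₗ LinearMap.fst K W M

/-- `v2` on `W × M`. -/
@[reducible] def hV2 (d : W × W →ₗ[K] M) : Module.End K (W × M) :=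
  LinearMap.inr K W M ∘ₗ d ∘ₗ LinearMap.inr K W W ∘ₗ LinearMap.fst K W M

/-- The filtration of `W × M`. -/
@[reducible] def hFil (FW : ℤ → Submodule K W) (FM : ℤ → Submodule K M) (i : ℤ) :
    Submodule K (W × M) :=
  (FW i).prod (FM (i + 1))

/-- The object `H`. -/
@[reducible] def hObj (E F H : Module.End K W) (e f h : Module.End K M)
    (d : W × W →ₗ[K] M) (c : K) (FW : ℤ → Submodule K W) (FM : ℤ → Submodule K M) :
    FMod K (Fin 6) :=
  mkS (hOp E e) (hOp F f) (hOp H h) (hL K W M c) (hV1 d) (hV2 d) (hFil FW FM)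

theorem isSObj_hObj (D : FourData E F H e f h ι d c) {FW : ℤ → Submodule K W}
    {FM : ℤ → Submodule K M} (hW : IsStd FW) (hM : IsStd FM) :
    IsSObj (hObj E F H e f h d c FW FM) := by
  have e1 := fun w => D.homd.e (w, 0)
  have e2 := fun w => D.homd.e (0, w)
  have f1 := fun w => D.homd.f (w, 0)
  have f2 := fun w => D.homd.f (0, w)
  have h1 := fun w => D.homd.h (w, 0)
  have h2 := fun w => D.homd.h (0, w)
  have t1 := fun w => D.dT (w, 0)
  have t2 := fun w => D.dT (0, w)
  have d00 : d (0, 0) = 0 := map_zero d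
  have split : ∀ a b : W, d (a, b) = d (a, 0) + d (0, b) := fun a b => by
    rw [← map_add]; simp
  have neg1 : ∀ a : W, d (-a, 0) = -d (a, 0) := fun a => by rw [← map_neg]; simp
  have neg2 : ∀ a : W, d (0, -a) = -d (0, a) := fun a => by rw [← map_neg]; simp
  have sub1 : ∀ a b : W, d (a - b, 0) = d (a, 0) - d (b, 0) := fun a b => by
    rw [← map_sub]; simp
  have sub2 : ∀ a b : W, d (0, a - b) = d (0, a) - d (0, b) := fun a b => by
    rw [← map_sub]; simp
  have add1 : ∀ a b : W, d (a + b, 0) = d (a, 0) + d (b, 0) := fun a b => by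
    rw [← map_add]; simp
  have add2 : ∀ a b : W, d (0, a + b) = d (0, a) + d (0, b) := fun a b => by
    rw [← map_add]; simp
  have sm1 : ∀ a : W, d (2 • a, 0) = 2 • d (a, 0) := fun a => by
    rw [← map_nsmul]; simp
  have sm2 : ∀ a : W, d (0, 2 • a) = 2 • d (0, a) := fun a => by
    rw [← map_nsmul]; simp
  simp only [vE_apply, vF_apply, vH_apply, vT_apply, map_zero, zero_add, add_zero, smul_zero,
    sub_zero, neg_zero, zero_sub] at e1 e2 f1 f2 h1 h2 t1 t2
  refine isSObj_mkS ?_ ?_
  · refine ⟨⟨?_, ?_, ?_⟩, ?_, ?_, ?_, ?_, ?_, ?_, ?_, ?_, ?_, ?_, ?_, ?_, ?_, ?_, ?_, ?_, ?_⟩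
    · apply LinearMap.ext
      rintro ⟨w, m⟩
      simp only [Module.End.mul_apply, LinearMap.prodMap_apply, D.slW.ef_apply, D.slM.ef_apply, LinearMap.add_apply, Prod.mk_add_mk]
    · apply LinearMap.ext
      rintro ⟨w, m⟩
      simp only [Module.End.mul_apply, LinearMap.prodMap_apply, D.slW.he_apply, D.slM.he_apply, nsmul_eq_mul, Nat.cast_ofNat, LinearMap.add_apply, Module.End.ofNat_apply, Prod.smul_mk, Prod.mk_add_mk]
    · apply LinearMap.ext
      rintro ⟨w, m⟩
      simp only [Module.End.mul_apply, LinearMap.prodMap_apply, D.slW.hf_apply, D.slM.hf_apply, nsmul_eq_mul, Nat.cast_ofNat, LinearMap.sub_apply, Module.End.ofNat_apply, Prod.smul_mk, Prod.mk_sub_mk]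
    · apply LinearMap.ext
      rintro ⟨w, m⟩
      simp only [Module.End.mul_apply, LinearMap.prodMap_apply, scal_apply, map_smul]
    · apply LinearMap.ext
      rintro ⟨w, m⟩
      simp only [Module.End.mul_apply, LinearMap.prodMap_apply, scal_apply, map_smul]
    · apply LinearMap.ext
      rintro ⟨w, m⟩
      simp only [Module.End.mul_apply, LinearMap.prodMap_apply, scal_apply, map_smul]
    · apply LinearMap.ext
      rintro ⟨w, m⟩
      simp only [Module.End.mul_apply, LinearMap.coe_comp, LinearMap.coe_inr, LinearMap.coe_inl, LinearMap.coe_fst, Function.comp_apply, LinearMap.prodMap_apply, map_zero, e1]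
    · apply LinearMap.ext
      rintro ⟨w, m⟩
      simp only [Module.End.mul_apply, LinearMap.add_apply, LinearMap.comp_apply,
        LinearMap.prodMap_apply, LinearMap.fst_apply, LinearMap.inl_apply, LinearMap.inr_apply,
        map_zero, Prod.mk_add_mk, add_zero]
      rw [← e2, split, add_comm]
    · apply LinearMap.ext
      rintro ⟨w, m⟩
      simp only [Module.End.mul_apply, LinearMap.add_apply, LinearMap.comp_apply,
        LinearMap.prodMap_apply, LinearMap.fst_apply, LinearMap.inl_apply, LinearMap.inr_apply,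
        map_zero, Prod.mk_add_mk, add_zero]
      rw [← f1, split]
    · apply LinearMap.ext
      rintro ⟨w, m⟩
      simp only [Module.End.mul_apply, LinearMap.coe_comp, LinearMap.coe_inr, LinearMap.coe_fst, Function.comp_apply, LinearMap.prodMap_apply, map_zero, f2]
    · apply LinearMap.ext
      rintro ⟨w, m⟩
      simp only [Module.End.mul_apply, LinearMap.add_apply, LinearMap.comp_apply,
        LinearMap.prodMap_apply, LinearMap.fst_apply, LinearMap.inl_apply, LinearMap.inr_apply,
        map_zero, Prod.mk_add_mk, add_zero]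
      rw [← h1, add1]
    · apply LinearMap.ext
      rintro ⟨w, m⟩
      simp only [Module.End.mul_apply, LinearMap.sub_apply, LinearMap.comp_apply,
        LinearMap.prodMap_apply, LinearMap.fst_apply, LinearMap.inl_apply, LinearMap.inr_apply,
        map_zero, Prod.mk_sub_mk, sub_zero]
      rw [← h2, sub2]
    · apply LinearMap.ext
      rintro ⟨w, m⟩
      simp only [Module.End.mul_apply, LinearMap.comp_apply, LinearMap.fst_apply, LinearMap.inl_apply, LinearMap.inr_apply, LinearMap.prodMap_apply, scal_apply, smul_zero, LinearMap.sub_apply, Prod.mk_sub_mk, sub_zero]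
      rw [show ((c • w, (0 : W)) : W × W) = c • (w, 0) by simp, map_smul, sub_smul, one_smul]
    · apply LinearMap.ext
      rintro ⟨w, m⟩
      simp only [Module.End.mul_apply, LinearMap.sub_apply, LinearMap.comp_apply,
        LinearMap.prodMap_apply, LinearMap.fst_apply, LinearMap.inl_apply, LinearMap.inr_apply,
        scal_apply, smul_zero, Prod.mk_sub_mk, sub_zero]
      rw [show (((0 : W), c • w) : W × W) = c • (0, w) by simp, map_smul, sub_smul, one_smul]
    · apply LinearMap.ext
      rintro ⟨w, m⟩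
      simp only [Module.End.mul_apply, LinearMap.prodMap_apply, scal_apply, LinearMap.comp_apply, LinearMap.fst_apply, LinearMap.inl_apply, LinearMap.inr_apply, LinearMap.sub_apply, LinearMap.neg_apply, LinearMap.smul_apply, Prod.smul_mk, smul_zero, Prod.neg_mk, neg_zero, Prod.mk_sub_mk, sub_zero]
      rw [show ((c • w, (0 : W)) : W × W) = c • (w, 0) by simp, map_smul, ← t1, split, sub1, neg1,
        sm1, neg2, sm2]
      refine Prod.ext rfl ?_
      dsimp only
      abel
    · apply LinearMap.ext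
      rintro ⟨w, m⟩
      simp only [Module.End.mul_apply, LinearMap.prodMap_apply, scal_apply, LinearMap.comp_apply, LinearMap.fst_apply, LinearMap.inr_apply, LinearMap.sub_apply, LinearMap.add_apply, LinearMap.neg_apply, LinearMap.smul_apply, LinearMap.inl_apply, Prod.smul_mk, smul_zero, Prod.neg_mk, neg_zero, Prod.mk_add_mk, add_zero, Prod.mk_sub_mk, sub_zero]
      rw [show (((0 : W), c • w) : W × W) = c • (0, w) by simp, map_smul, ← t2, split, sub2, neg1,
        sm1, sm2]
      refine Prod.ext rfl ?_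
      dsimp only
      abel
    · apply LinearMap.ext
      rintro ⟨w, m⟩
      simp only [Module.End.mul_apply, LinearMap.coe_comp, LinearMap.coe_inr, LinearMap.coe_inl, LinearMap.coe_fst, Function.comp_apply, d00, LinearMap.zero_apply, Prod.mk_eq_zero, and_self]
    · apply LinearMap.ext
      rintro ⟨w, m⟩
      simp only [Module.End.mul_apply, LinearMap.coe_comp, LinearMap.coe_inr, LinearMap.coe_fst, Function.comp_apply, LinearMap.coe_inl, d00, LinearMap.zero_apply, Prod.mk_eq_zero, and_self]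
    · apply LinearMap.ext
      rintro ⟨w, m⟩
      simp only [Module.End.mul_apply, LinearMap.coe_comp, LinearMap.coe_inr, LinearMap.coe_inl, LinearMap.coe_fst, Function.comp_apply, d00, LinearMap.zero_apply, Prod.mk_eq_zero, and_self]
    · apply LinearMap.ext
      rintro ⟨w, m⟩
      simp only [Module.End.mul_apply, LinearMap.coe_comp, LinearMap.coe_inr, LinearMap.coe_fst, Function.comp_apply, d00, LinearMap.zero_apply, Prod.mk_eq_zero, and_self]
  · refine ⟨?_, ?_, ?_, ?_, ?_, ?_, ?_⟩
    · intro i j hij x hx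
      exact ⟨hW.mono hij hx.1, hM.mono (by omega) hx.2⟩
    · intro i x hx
      exact ⟨hW.map hW E (by omega) hx.1, hM.map hM e (by omega) hx.2⟩
    · intro i x hx
      exact ⟨hW.map hW F (by omega) hx.1, hM.map hM f (by omega) hx.2⟩
    · intro i x hx
      exact ⟨hW.map hW H (by omega) hx.1, hM.map hM h (by omega) hx.2⟩
    · intro i x hx
      exact ⟨hW.map hW (scal K W c) (by omega) hx.1, hM.map hM (scal K M (c - 1)) (by omega) hx.2⟩
    · intro i x hx
      refine ⟨Submodule.zero_mem _, ?_⟩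
      exact hW.map hM (d ∘ₗ LinearMap.inl K W W) (by omega) hx.1
    · intro i x hx
      refine ⟨Submodule.zero_mem _, ?_⟩
      exact hW.map hM (d ∘ₗ LinearMap.inr K W W) (by omega) hx.1

/-! ### the maps -/

/-- `M → X3 W`. -/
noncomputable def ftA (ι : M →ₗ[K] W × W) : M →ₗ[K] X3 W :=
  LinearMap.inr K (ℕ →₀ W) (W × W) ∘ₗ ι

/-- `X3 W → X3 W`, `l - c` on the right. -/
noncomputable def ftK (E F H : Module.End K W) (c : K) : X3 W →ₗ[K] X3 W :=
  LinearMap.prodMap (kap (scal K W c)) (vT E F H - scal K (W × W) c)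

/-- `X3 W → W × M`. -/
noncomputable def ftB (d : W × W →ₗ[K] M) (c : K) : X3 W →ₗ[K] W × M :=
  LinearMap.prodMap (evP (scal K W c)) d

@[simp] theorem ftA_apply (ι : M →ₗ[K] W × W) (m : M) : ftA ι m = (0, ι m) := rfl

@[simp] theorem ftK_apply (E F H : Module.End K W) (c : K) (x : X3 W) :
    ftK E F H c x = (kap (scal K W c) x.1, vT E F H x.2 - c • x.2) := rfl

@[simp] theorem ftB_apply (d : W × W →ₗ[K] M) (c : K) (x : X3 W) :
    ftB d c x = (evP (scal K W c) x.1, d x.2) := rfl

theorem homS_ftA (D : FourData E F H e f h ι d c) :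
    HomS (ftA ι) e f h (scal K M (c - 1)) 0 0 (x3e E) (x3f F) (x3h H) (x3l E F H) (x31 E F H)
      (x32 E F H) := by
  refine ⟨fun m => ?_, fun m => ?_, fun m => ?_, fun m => ?_, fun m => ?_, fun m => ?_⟩
  · rw [ftA_apply, D.homι.e, ftA_apply, x3e_apply, map_zero]
  · rw [ftA_apply, D.homι.f, ftA_apply, x3f_apply, map_zero]
  · rw [ftA_apply, D.homι.h, ftA_apply, x3h_apply, map_zero]
  · rw [ftA_apply, ftA_apply, x3l_apply, map_zero]
    simp only [scal_apply, map_smul, map_sub, D.Tι, sub_smul, one_smul]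
  · simp
  · simp

theorem homS_ftK (D : FourData E F H e f h ι d c) :
    HomS (ftK E F H c) (x3e E) (x3f F) (x3h H) (x3l E F H) (x31 E F H) (x32 E F H)
      (x3e E) (x3f F) (x3h H) (x3l E F H) (x31 E F H) (x32 E F H) := by
  refine ⟨?_, ?_, ?_, ?_, ?_, ?_⟩
  · have : ftK E F H c ∘ₗ x3e E = x3e E ∘ₗ ftK E F H c := by
      apply x3_ext
      · intro k w
        simp
        rfl
      · intro w
        have h2 := LinearMap.congr_fun (vE_vT D.slW).eq w
        simp only [Module.End.mul_apply] at h2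
        simp only [LinearMap.comp_apply, x3e_apply, map_zero, ftK_apply, map_sub, h2, map_smul]
    exact fun x => LinearMap.congr_fun this x
  · have : ftK E F H c ∘ₗ x3f F = x3f F ∘ₗ ftK E F H c := by
      apply x3_ext
      · intro k w
        simp
        rfl
      · intro w
        have h2 := LinearMap.congr_fun (vF_vT D.slW).eq w
        simp only [Module.End.mul_apply] at h2
        simp only [LinearMap.comp_apply, x3f_apply, ftK_apply, map_zero, map_sub, map_smul, h2]
    exact fun x => LinearMap.congr_fun this x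
  · have : ftK E F H c ∘ₗ x3h H = x3h H ∘ₗ ftK E F H c := by
      apply x3_ext
      · intro k w
        simp
        rfl
      · intro w
        have h2 := LinearMap.congr_fun (vH_vT D.slW).eq w
        simp only [Module.End.mul_apply] at h2
        simp only [LinearMap.comp_apply, x3h_apply, ftK_apply, map_zero, map_sub, map_smul, h2]
    exact fun x => LinearMap.congr_fun this x
  · have : ftK E F H c ∘ₗ x3l E F H = x3l E F H ∘ₗ ftK E F H c := by
      apply x3_ext
      · intro k w
        simp only [LinearMap.coe_comp, Function.comp_apply, x3l_apply, polyShift_single, vT_apply, Prod.fst_zero, map_zero, neg_zero, nsmul_zero, sub_self, Prod.snd_zero, add_zero, sub_zero, ftK_apply, kap_single, scal_apply, Prod.smul_mk, smul_zero, map_sub]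
      · intro w
        simp only [LinearMap.comp_apply, x3l_apply, map_zero, ftK_apply, map_sub, map_smul]
        refine Prod.ext rfl ?_
        simp only
        rw [smul_sub]
        abel
    exact fun x => LinearMap.congr_fun this x
  · have : ftK E F H c ∘ₗ x31 E F H = x31 E F H ∘ₗ ftK E F H c := by
      apply x3_ext
      · intro k w
        simp only [LinearMap.comp_apply, x31_apply, evT_single, ftK_apply, map_zero, kap_single, scal_apply, map_sub, pow_succ', Module.End.mul_apply, map_smul]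
      · intro w
        simp
    exact fun x => LinearMap.congr_fun this x
  · have : ftK E F H c ∘ₗ x32 E F H = x32 E F H ∘ₗ ftK E F H c := by
      apply x3_ext
      · intro k w
        simp only [LinearMap.comp_apply, x32_apply, evT_single, ftK_apply, map_zero, kap_single, scal_apply, map_sub, pow_succ', Module.End.mul_apply, map_smul]
      · intro w
        simp
    exact fun x => LinearMap.congr_fun this x

theorem homS_ftB (D : FourData E F H e f h ι d c) :
    HomS (ftB d c) (x3e E) (x3f F) (x3h H) (x3l E F H) (x31 E F H) (x32 E F H)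
      (hOp E e) (hOp F f) (hOp H h) (hL K W M c) (hV1 d) (hV2 d) := by
  have d00 : d (0, 0) = 0 := map_zero d
  have dTk : ∀ (k : ℕ) (x : W × W), d ((vT E F H ^ k) x) = c ^ k • d x := by
    intro k
    induction k with
    | zero => intro x; simp only [pow_zero, Module.End.one_apply, one_smul]
    | succ k ih => intro x; rw [pow_succ', Module.End.mul_apply, D.dT, ih, smul_smul, pow_succ']
  refine ⟨?_, ?_, ?_, ?_, ?_, ?_⟩
  · have : ftB d c ∘ₗ x3e E = hOp E e ∘ₗ ftB d c := by
      apply x3_ext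
      · intro k w
        simp [scal_pow_apply, d00]
      · intro w
        have := D.homd.e w
        simp only [vE_apply] at this
        simp only [LinearMap.coe_comp, Function.comp_apply, x3e_apply, map_zero, vE_apply, ftB_apply, this, LinearMap.prodMap_apply]
    exact fun x => LinearMap.congr_fun this x
  · have : ftB d c ∘ₗ x3f F = hOp F f ∘ₗ ftB d c := by
      apply x3_ext
      · intro k w
        simp only [LinearMap.coe_comp, Function.comp_apply, x3f_apply, polyMap_single, vF_apply, Prod.fst_zero, map_zero, Prod.snd_zero, add_zero, ftB_apply, evP_single, scal_pow_apply, d00, LinearMap.prodMap_apply, map_smul]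
      · intro w
        have := D.homd.f w
        simp only [vF_apply] at this
        simp [this]
    exact fun x => LinearMap.congr_fun this x
  · have : ftB d c ∘ₗ x3h H = hOp H h ∘ₗ ftB d c := by
      apply x3_ext
      · intro k w
        simp only [LinearMap.coe_comp, Function.comp_apply, x3h_apply, polyMap_single, vH_apply, Prod.fst_zero, map_zero, add_zero, Prod.snd_zero, sub_self, ftB_apply, evP_single, scal_pow_apply, d00, LinearMap.prodMap_apply, map_smul]
      · intro w
        have := D.homd.h w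
        simp only [vH_apply] at this
        simp only [LinearMap.coe_comp, Function.comp_apply, x3h_apply, map_zero, vH_apply, ftB_apply, this, LinearMap.prodMap_apply]
    exact fun x => LinearMap.congr_fun this x
  · have : ftB d c ∘ₗ x3l E F H = hL K W M c ∘ₗ ftB d c := by
      apply x3_ext
      · intro k w
        simp only [LinearMap.comp_apply, x3l_apply, ftB_apply, map_zero, polyShift_single,
          evP_single, scal_pow_apply, LinearMap.prodMap_apply, LinearMap.smul_apply,
          Module.End.one_apply, sub_zero, smul_smul, pow_succ']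
        simp only [Module.End.mul_apply, scal_pow_apply, map_smul, scal_apply]
      · intro w
        have := D.dT w
        simp only [vT_apply] at this
        simp only [LinearMap.comp_apply, x3l_apply, ftB_apply, map_zero, map_sub, D.dT,
          LinearMap.prodMap_apply, scal_apply, sub_smul, one_smul]
    exact fun x => LinearMap.congr_fun this x
  · have : ftB d c ∘ₗ x31 E F H = hV1 d ∘ₗ ftB d c := by
      apply x3_ext
      · intro k w
        simp only [LinearMap.comp_apply, x31_apply, evT_single, LinearMap.inl_apply, ftB_apply, map_zero, dTk, evP_single, scal_pow_apply, LinearMap.fst_apply, LinearMap.inr_apply]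
        rw [show ((c ^ k • w, (0 : W)) : W × W) = c ^ k • (w, 0) by simp, map_smul]
      · intro w
        simp only [LinearMap.coe_comp, Function.comp_apply, x31_apply, map_zero, ftB_apply, LinearMap.coe_inr, LinearMap.coe_inl, LinearMap.coe_fst, d00]
    exact fun x => LinearMap.congr_fun this x
  · have : ftB d c ∘ₗ x32 E F H = hV2 d ∘ₗ ftB d c := by
      apply x3_ext
      · intro k w
        simp only [LinearMap.comp_apply, x32_apply, ftB_apply, map_zero, evT_single, evP_single,
          scal_pow_apply, dTk, LinearMap.fst_apply, LinearMap.inl_apply, LinearMap.inr_apply]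
        rw [show (((0 : W), c ^ k • w) : W × W) = c ^ k • (0, w) by simp only [Prod.smul_mk, smul_zero], map_smul]
      · intro w
        simp [d00]
    exact fun x => LinearMap.congr_fun this x

/-! ### filtrations -/

theorem ftA_fil (D : FourData E F H e f h ι d c) {FW : ℤ → Submodule K W}
    {FM : ℤ → Submodule K M} (hW : IsStd FW) (hM : IsStd FM) :
    ∀ i, ∀ m ∈ FM i, ftA ι m ∈ x3Fil FW (i - 1) := by
  intro i m hm
  refine ⟨Submodule.zero_mem _, ?_, ?_⟩
  · exact hM.map hW (LinearMap.fst K W W ∘ₗ ι) (by omega) hm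
  · exact hM.map hW (LinearMap.snd K W W ∘ₗ ι) (by omega) hm

theorem scal_fil {FW : ℤ → Submodule K W} (hW : Monotone FW) (c : K) :
    FilDeg FW FW 1 (scal K W c) := fun i _ hw => (FW (i + 1)).smul_mem c (hW (by omega) hw)

theorem ftK_fil (D : FourData E F H e f h ι d c) {FW : ℤ → Submodule K W} (hW : IsStd FW) :
    ∀ i, ∀ x ∈ x3Fil FW (i - 1), ftK E F H c x ∈ x3Fil FW i := by
  intro i x hx
  have h1 := (filShort_kap (scal_fil hW.mono c)).map₁ i x.1 hx.1
  have h2 := vT_fil (hW.isFilSl2 E F H) (i - 1) x.2 hx.2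
  have h3 := vFil_mono hW.mono (show i - 1 ≤ i by omega) hx.2
  rw [show i - 1 + 1 = i by ring] at h2
  exact ⟨h1, (vFil FW i).sub_mem h2 ((vFil FW i).smul_mem c h3)⟩

theorem ftB_fil (D : FourData E F H e f h ι d c) {FW : ℤ → Submodule K W}
    {FM : ℤ → Submodule K M} (hW : IsStd FW) (hM : IsStd FM) :
    ∀ i, ∀ x ∈ x3Fil FW i, ftB d c x ∈ hFil FW FM i := by
  intro i x hx
  refine ⟨(filShort_kap (scal_fil hW.mono c)).map₂ i x.1 hx.1, ?_⟩
  rcases lt_or_ge (i + 1) 0 with hi | hi
  · have h1 := hW.eq_zero hi hx.2.1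
    have h2 := hW.eq_zero hi hx.2.2
    have h3 : x.2 = 0 := Prod.ext h1 h2
    simp only [ftB_apply, h3, map_zero]
    exact Submodule.zero_mem _
  · exact hM.mem hi _

/-! ### exactness -/

theorem ft_exact1 (D : FourData E F H e f h ι d c) {FW : ℤ → Submodule K W}
    {FM : ℤ → Submodule K M} (hW : IsStd FW) (hM : IsStd FM) (i : ℤ) (hi : 0 ≤ i) :
    ∀ y ∈ x3Fil FW (i - 1), ftK E F H c y = 0 → ∃ m ∈ FM i, ftA ι m = y := by
  rintro ⟨p, x⟩ hy h0
  simp only [ftK_apply, Prod.mk_eq_zero] at h0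
  obtain ⟨hp, hx⟩ := h0
  have hp' : p = 0 := (filShort_kap (scal_fil hW.mono c)).inj (by rw [hp, map_zero])
  obtain ⟨m, rfl⟩ := D.ker x (sub_eq_zero.mp hx)
  exact ⟨m, hM.mem hi m, by rw [hp', ftA_apply]⟩

theorem ft_exact2 (D : FourData E F H e f h ι d c) {FW : ℤ → Submodule K W}
    (hW : IsStd FW) (i : ℤ) (hi : 0 ≤ i) :
    ∀ y ∈ x3Fil FW i, ftB d c y = 0 → ∃ x ∈ x3Fil FW (i - 1), ftK E F H c x = y := by
  rintro ⟨p, x⟩ hy h0
  simp only [ftB_apply, Prod.mk_eq_zero] at h0
  obtain ⟨hp, hx⟩ := h0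
  obtain ⟨q, hq, rfl⟩ := (filShort_kap (scal_fil hW.mono c)).exact i p hy.1 hp
  obtain ⟨z, rfl⟩ := D.im x hx
  exact ⟨(q, z), ⟨hq, hW.mem (by omega) _, hW.mem (by omega) _⟩, rfl⟩

theorem ft_surj (D : FourData E F H e f h ι d c) {FW : ℤ → Submodule K W}
    {FM : ℤ → Submodule K M} (hW : IsStd FW) (i : ℤ) (hi : 0 ≤ i) :
    ∀ z ∈ hFil FW FM i, ∃ y ∈ x3Fil FW i, ftB d c y = z := by
  rintro ⟨w, m⟩ hz
  obtain ⟨p, hp, rfl⟩ := (filShort_kap (scal_fil hW.mono c)).surj i w hz.1
  obtain ⟨x, rfl⟩ := D.surj m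
  exact ⟨(p, x), ⟨hp, hW.mem (by omega) _, hW.mem (by omega) _⟩, rfl⟩

theorem ft_comp1 (D : FourData E F H e f h ι d c) (m : M) : ftK E F H c (ftA ι m) = 0 := by
  simp only [ftA_apply, ftK_apply, map_zero, D.Tι, sub_self]
  rfl

theorem ft_comp2 (D : FourData E F H e f h ι d c) (x : X3 W) : ftB d c (ftK E F H c x) = 0 := by
  simp only [ftK_apply, ftB_apply, evP_kap, map_sub, D.dT, map_smul, sub_self]
  rfl

theorem ftA_inj (D : FourData E F H e f h ι d c) : Function.Injective (ftA ι) := by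
  intro m m' hm
  simp only [ftA_apply, Prod.mk.injEq, true_and] at hm
  exact D.inj hm

/-! ### the morphisms of objects -/

section

variable {FW : ℤ → Submodule K W} {FM : ℤ → Submodule K M}

theorem ftA_mem (D : FourData E F H e f h ι d c) (hW : IsStd FW) (hM : IsStd FM) :
    ftA ι ∈ FHom (flatObj e f h (c - 1) FM) ((x3Obj E F H FW).shift 1) :=
  (homS_ftA D).mem_FHom (ftA_fil D hW hM)

theorem ftK_mem (D : FourData E F H e f h ι d c) (hW : IsStd FW) :
    ftK E F H c ∈ FHom ((x3Obj E F H FW).shift 1) (x3Obj E F H FW) :=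
  (homS_ftK D).mem_FHom (ftK_fil D hW)

theorem ftB_mem (D : FourData E F H e f h ι d c) (hW : IsStd FW) (hM : IsStd FM) :
    ftB d c ∈ FHom (x3Obj E F H FW) (hObj E F H e f h d c FW FM) :=
  (homS_ftB D).mem_FHom (ftB_fil D hW hM)

/-- `M → H`. -/
def htA (K W M : Type*) [Field K] [AddCommGroup W] [Module K W] [AddCommGroup M] [Module K M] :
    M →ₗ[K] W × M := LinearMap.inr K W M

/-- `H → W`. -/
def htB (K W M : Type*) [Field K] [AddCommGroup W] [Module K W] [AddCommGroup M] [Module K M] :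
    W × M →ₗ[K] W := LinearMap.fst K W M

@[simp] theorem htA_apply (m : M) : htA K W M m = (0, m) := rfl

@[simp] theorem htB_apply (x : W × M) : htB K W M x = x.1 := rfl

theorem htA_mem (D : FourData E F H e f h ι d c) (hM : IsStd FM) :
    htA K W M ∈ FHom (flatObj e f h (c - 1) FM) (hObj E F H e f h d c FW FM) := by
  refine mem_FHom_mkS ?_ ?_ ?_ ?_ ?_ ?_ ?_
  · intro m; simp only [htA_apply, LinearMap.prodMap_apply, map_zero]
  · intro m; simp only [htA_apply, LinearMap.prodMap_apply, map_zero]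
  · intro m; simp
  · intro m; simp
  · intro m
    have d00 : d (0, 0) = 0 := map_zero d
    simp [d00]
  · intro m
    have d00 : d (0, 0) = 0 := map_zero d
    simp only [LinearMap.zero_apply, htA_apply, LinearMap.coe_comp, LinearMap.coe_inr, LinearMap.coe_fst, Function.comp_apply, d00]
  · intro i m hm
    exact ⟨Submodule.zero_mem _, hM.mono (by omega) hm⟩

theorem htB_mem (D : FourData E F H e f h ι d c) :
    htB K W M ∈ FHom (hObj E F H e f h d c FW FM) (flatObj E F H c FW) := by
  refine mem_FHom_mkS ?_ ?_ ?_ ?_ ?_ ?_ ?_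
  · intro m; simp
  · intro m; simp
  · intro m; simp
  · intro m; simp
  · intro m; simp
  · intro m; simp
  · intro i m hm
    exact hm.1

theorem ht_exact (hM : IsStd FM) (i : ℤ) (hi : 0 ≤ i) :
    ∀ y ∈ hFil FW FM i, htB K W M y = 0 → ∃ m ∈ FM i, htA K W M m = y := by
  rintro ⟨w, m⟩ _ h0
  simp only [htB_apply] at h0
  subst h0
  exact ⟨m, hM.mem hi m, rfl⟩

theorem ht_surj (i : ℤ) : ∀ z ∈ FW i, ∃ y ∈ hFil FW FM i, htB K W M y = z := fun w hw =>
  ⟨(w, 0), ⟨hw, Submodule.zero_mem _⟩, rfl⟩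

theorem htA_inj : Function.Injective (htA K W M) := by
  intro m m' hm
  simpa using hm

theorem ht_comp (m : M) : htB K W M (htA K W M m) = 0 := rfl

end

end

end Vale.Agent.P176
end
end

section

section

/-!
The simple `sl2`-modules as spaces of polynomials, and the decomposition of their tensor product
with the two-dimensional module.
-/

namespace Vale.Agent.P176.Mm

open Polynomial

universe u

section Poly

variable (K : Type u) [Field K]

/-- Derivative as an endomorphism of `K[X]`. -/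
noncomputable def eP : Module.End K K[X] := derivative

/-- `q ↦ c q - 2 X q'`. -/
noncomputable def hP (c : K) : Module.End K K[X] :=
  c • LinearMap.id - (2 : K) • (LinearMap.mulLeft K X ∘ₗ derivative)

/-- `q ↦ c X q - X² q'`. -/
noncomputable def fP (c : K) : Module.End K K[X] :=
  c • LinearMap.mulLeft K X - LinearMap.mulLeft K (X ^ 2) ∘ₗ derivative

variable {K}

theorem eP_apply (q : K[X]) : eP K q = derivative q := rfl

theorem hP_apply (c : K) (q : K[X]) : hP K c q = C c * q - 2 * (X * derivative q) := by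
  have h2 : (C (2 : K) : K[X]) = 2 := map_ofNat C 2
  simp only [hP, LinearMap.sub_apply, LinearMap.smul_apply, LinearMap.id_coe, id_eq, smul_eq_C_mul, LinearMap.coe_comp, Function.comp_apply, LinearMap.mulLeft_apply, h2]

theorem fP_apply (c : K) (q : K[X]) : fP K c q = C c * (X * q) - X ^ 2 * derivative q := by
  simp only [fP, LinearMap.sub_apply, LinearMap.smul_apply, LinearMap.mulLeft_apply, smul_eq_C_mul, LinearMap.coe_comp, Function.comp_apply]

theorem isSl2_P (c : K) : IsSl2 (eP K) (fP K c) (hP K c) := by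
  have h2 : (C (2 : K) : K[X]) = 2 := map_ofNat C 2
  refine ⟨?_, ?_, ?_⟩
  · refine LinearMap.ext fun q => ?_
    simp only [LinearMap.add_apply, Module.End.mul_apply, eP_apply, fP_apply, hP_apply,
      derivative_mul, derivative_sub, derivative_C, derivative_X, derivative_X_pow]
    simp only [zero_mul, one_mul, zero_add, Nat.cast_ofNat, h2, Nat.add_one_sub_one, pow_one]
    ring
  · refine LinearMap.ext fun q => ?_
    simp only [Module.End.mul_apply, eP_apply, hP_apply, LinearMap.add_apply, derivative_sub, derivative_mul, derivative_C, derivative_ofNat, derivative_X, LinearMap.smul_apply]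
    simp only [zero_mul, zero_add, one_mul, nsmul_eq_mul, Nat.cast_ofNat]
    ring
  · refine LinearMap.ext fun q => ?_
    simp only [Module.End.mul_apply, fP_apply, hP_apply, derivative_sub, derivative_mul, derivative_C, derivative_X, derivative_X_pow, LinearMap.sub_apply, derivative_ofNat, LinearMap.smul_apply]
    simp only [zero_mul, one_mul, zero_add, Nat.cast_ofNat, h2, Nat.add_one_sub_one, pow_one, nsmul_eq_mul]
    ring

/-- Membership in `degreeLT` by coefficients. -/
theorem mem_dlt {m : ℕ} {q : K[X]} : q ∈ degreeLT K m ↔ ∀ k, m ≤ k → q.coeff k = 0 := by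
  rw [mem_degreeLT, degree_lt_iff_coeff_zero]

theorem coeff_eP (q : K[X]) (k : ℕ) : (eP K q).coeff k = q.coeff (k + 1) * (k + 1) := by
  rw [eP_apply, coeff_derivative]

theorem coeff_X_mul_derivative (q : K[X]) (k : ℕ) :
    (X * derivative q).coeff k = k * q.coeff k := by
  cases k with
  | zero => simp only [mul_coeff_zero, coeff_X_zero, zero_mul, Nat.cast_zero]
  | succ k => rw [coeff_X_mul, coeff_derivative]; push_cast; ring

theorem coeff_hP (c : K) (q : K[X]) (k : ℕ) : (hP K c q).coeff k = (c - 2 * k) * q.coeff k := by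
  have h2 : (2 : K[X]) = C 2 := (map_ofNat C 2).symm
  rw [hP_apply, coeff_sub, coeff_C_mul, h2, coeff_C_mul, coeff_X_mul_derivative]
  ring

theorem coeff_fP_zero (c : K) (q : K[X]) : (fP K c q).coeff 0 = 0 := by
  rw [fP_apply]
  simp only [coeff_sub, mul_coeff_zero, coeff_C_zero, coeff_X_zero, zero_mul, mul_zero, coeff_X_pow, OfNat.zero_ne_ofNat, ↓reduceIte, sub_self]

theorem coeff_fP_succ (c : K) (q : K[X]) (k : ℕ) :
    (fP K c q).coeff (k + 1) = (c - k) * q.coeff k := by
  rw [fP_apply, coeff_sub, coeff_C_mul, coeff_X_mul, sq, mul_assoc, coeff_X_mul,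
    coeff_X_mul_derivative]
  ring

theorem eP_mem {m : ℕ} {q : K[X]} (hq : q ∈ degreeLT K m) : eP K q ∈ degreeLT K m := by
  rw [mem_dlt] at *
  intro k hk
  rw [coeff_eP, hq _ (by omega), zero_mul]

theorem hP_mem (c : K) {m : ℕ} {q : K[X]} (hq : q ∈ degreeLT K m) :
    hP K c q ∈ degreeLT K m := by
  rw [mem_dlt] at *
  intro k hk
  rw [coeff_hP, hq _ hk, mul_zero]

theorem fP_mem {m : ℕ} {q : K[X]} (hq : q ∈ degreeLT K m) :
    fP K ((m : K) - 1) q ∈ degreeLT K m := by
  rw [mem_dlt] at *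
  intro k hk
  cases k with
  | zero => exact coeff_fP_zero _ _
  | succ k =>
    rw [coeff_fP_succ]
    rcases Nat.lt_or_ge k m with h | h
    · have : (m : K) = k + 1 := by
        have : m = k + 1 := by omega
        rw [this]; push_cast; ring
      rw [this]; ring
    · rw [hq _ h, mul_zero]

/-- `q ↦ (-X q, q)`. -/
noncomputable def iotaP (K : Type u) [Field K] : K[X] →ₗ[K] K[X] × K[X] :=
  (-(LinearMap.mulLeft K X)).prod LinearMap.id

/-- `(w₁, w₂) ↦ w₁' - c w₂ + X w₂'`. -/
noncomputable def dP (K : Type u) [Field K] (c : K) : K[X] × K[X] →ₗ[K] K[X] :=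
  LinearMap.coprod derivative (LinearMap.mulLeft K X ∘ₗ derivative - c • LinearMap.id)

theorem iotaP_apply (q : K[X]) : iotaP K q = (-(X * q), q) := by
  simp only [iotaP, LinearMap.prod_apply, LinearMap.coe_neg, LinearMap.id_coe, Function.prod_apply, Pi.neg_apply, LinearMap.mulLeft_apply, id_eq]

theorem dP_apply (c : K) (w : K[X] × K[X]) :
    dP K c w = derivative w.1 + (X * derivative w.2 - C c * w.2) := by
  simp only [dP, LinearMap.coprod_apply, LinearMap.sub_apply, LinearMap.coe_comp, Function.comp_apply, LinearMap.mulLeft_apply, LinearMap.smul_apply, LinearMap.id_coe, id_eq, smul_eq_C_mul]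

theorem iotaP_mem {m : ℕ} {q : K[X]} (hq : q ∈ degreeLT K m) :
    -(X * q) ∈ degreeLT K (m + 1) ∧ q ∈ degreeLT K (m + 1) := by
  rw [mem_dlt] at hq
  constructor
  · rw [mem_dlt]
    intro k hk
    obtain ⟨k, rfl⟩ : ∃ k', k = k' + 1 := ⟨k - 1, by omega⟩
    rw [coeff_neg, coeff_X_mul, hq _ (by omega), neg_zero]
  · rw [mem_dlt]
    intro k hk
    exact hq _ (by omega)

theorem dP_mem {m : ℕ} {w : K[X] × K[X]} (h1 : w.1 ∈ degreeLT K (m + 1))
    (h2 : w.2 ∈ degreeLT K (m + 1)) : dP K (m : K) w ∈ degreeLT K m := by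
  rw [mem_dlt] at *
  intro k hk
  rw [dP_apply, coeff_add, coeff_sub, coeff_C_mul, coeff_X_mul_derivative, coeff_derivative,
    h1 _ (by omega)]
  rcases Nat.lt_or_ge m k with h | h
  · rw [h2 _ (by omega)]; ring
  · have : m = k := by omega
    rw [this]; ring

end Poly

section Mod

variable (K : Type u) [Field K]

/-- The module `M_m` of polynomials of degree less than `m`. -/
abbrev MM (m : ℕ) : Type u := degreeLT K m

/-- The operator `e` on `M_m`. -/
noncomputable def eM (m : ℕ) : Module.End K (MM K m) := (eP K).restrict fun _ h => eP_mem h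

/-- The operator `f` on `M_m`. -/
noncomputable def fM (m : ℕ) : Module.End K (MM K m) :=
  (fP K ((m : K) - 1)).restrict fun _ h => fP_mem h

/-- The operator `h` on `M_m`. -/
noncomputable def hM (m : ℕ) : Module.End K (MM K m) :=
  (hP K ((m : K) - 1)).restrict fun _ h => hP_mem _ h

/-- The embedding `M_m → V ⊗ M_{m+1}`. -/
noncomputable def iotaM (m : ℕ) : MM K m →ₗ[K] MM K (m + 1) × MM K (m + 1) :=
  LinearMap.prod
    (LinearMap.codRestrict (degreeLT K (m + 1))
      (-(LinearMap.mulLeft K X ∘ₗ (degreeLT K m).subtype)) fun q => (iotaP_mem q.2).1)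
    (LinearMap.codRestrict (degreeLT K (m + 1)) (degreeLT K m).subtype
      fun q => (iotaP_mem q.2).2)

/-- The projection `V ⊗ M_{m+1} → M_m`. -/
noncomputable def dM (m : ℕ) : MM K (m + 1) × MM K (m + 1) →ₗ[K] MM K m :=
  LinearMap.codRestrict (degreeLT K m)
    (dP K (m : K) ∘ₗ (degreeLT K (m + 1)).subtype.prodMap (degreeLT K (m + 1)).subtype)
    fun w => dP_mem w.1.2 w.2.2

variable {K}

theorem coe_eM {m : ℕ} (q : MM K m) : (eM K m q : K[X]) = derivative (q : K[X]) := rfl

theorem coe_fM {m : ℕ} (q : MM K m) :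
    (fM K m q : K[X]) = C ((m : K) - 1) * (X * (q : K[X])) - X ^ 2 * derivative (q : K[X]) :=
  fP_apply _ _

theorem coe_hM {m : ℕ} (q : MM K m) :
    (hM K m q : K[X]) = C ((m : K) - 1) * (q : K[X]) - 2 * (X * derivative (q : K[X])) :=
  hP_apply _ _

theorem coe_iotaM_fst {m : ℕ} (q : MM K m) : ((iotaM K m q).1 : K[X]) = -(X * (q : K[X])) := by
  rw [iotaM, LinearMap.prod_apply]
  exact (LinearMap.codRestrict_apply _ _ _).trans rfl

theorem coe_iotaM_snd {m : ℕ} (q : MM K m) : ((iotaM K m q).2 : K[X]) = (q : K[X]) := by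
  rw [iotaM, LinearMap.prod_apply]
  exact LinearMap.codRestrict_apply _ _ _

theorem coe_dM {m : ℕ} (w : MM K (m + 1) × MM K (m + 1)) :
    (dM K m w : K[X]) =
      derivative (w.1 : K[X]) + (X * derivative (w.2 : K[X]) - C (m : K) * (w.2 : K[X])) :=
  dP_apply _ _

theorem isSl2_M (m : ℕ) : IsSl2 (eM K m) (fM K m) (hM K m) := by
  have H := isSl2_P ((m : K) - 1)
  refine ⟨?_, ?_, ?_⟩
  · refine LinearMap.ext fun q => Subtype.ext ?_
    exact LinearMap.congr_fun H.ef (q : K[X])
  · refine LinearMap.ext fun q => Subtype.ext ?_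
    exact LinearMap.congr_fun H.he (q : K[X])
  · refine LinearMap.ext fun q => Subtype.ext ?_
    exact LinearMap.congr_fun H.hf (q : K[X])

theorem iotaM_injective (m : ℕ) : Function.Injective (iotaM K m) := by
  intro x y hxy
  apply Subtype.ext
  rw [← coe_iotaM_snd x, ← coe_iotaM_snd y, hxy]

theorem iotaM_eM {m : ℕ} (q : MM K m) :
    iotaM K m (eM K m q) = vE (eM K (m + 1)) (iotaM K m q) := by
  refine Prod.ext (Subtype.ext ?_) (Subtype.ext ?_)
  · rw [vE_apply, Submodule.coe_add, coe_eM, coe_iotaM_fst, coe_iotaM_fst, coe_iotaM_snd, coe_eM]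
    simp only [derivative_neg, derivative_mul, derivative_X, one_mul, neg_add_rev, neg_add_cancel_right]
  · rw [vE_apply, coe_eM, coe_iotaM_snd, coe_iotaM_snd, coe_eM]

theorem iotaM_fM {m : ℕ} (q : MM K m) :
    iotaM K m (fM K m q) = vF (fM K (m + 1)) (iotaM K m q) := by
  refine Prod.ext (Subtype.ext ?_) (Subtype.ext ?_)
  · rw [vF_apply, coe_fM, coe_iotaM_fst, coe_iotaM_fst, coe_fM]
    simp only [map_sub, map_natCast, map_one, Nat.cast_add, Nat.cast_one, add_sub_cancel_right, mul_neg, derivative_neg, derivative_mul, derivative_X, one_mul, neg_add_rev]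
    ring
  · rw [vF_apply, Submodule.coe_add, coe_fM, coe_iotaM_snd, coe_iotaM_snd, coe_iotaM_fst, coe_fM]
    simp only [map_sub, map_natCast, map_one, Nat.cast_add, Nat.cast_one, add_sub_cancel_right]
    ring

theorem iotaM_hM {m : ℕ} (q : MM K m) :
    iotaM K m (hM K m q) = vH (hM K (m + 1)) (iotaM K m q) := by
  refine Prod.ext (Subtype.ext ?_) (Subtype.ext ?_)
  · rw [vH_apply, Submodule.coe_add, coe_hM, coe_iotaM_fst, coe_iotaM_fst, coe_hM]
    simp only [map_sub, map_natCast, map_one, Nat.cast_add, Nat.cast_one, add_sub_cancel_right, mul_neg, derivative_neg, derivative_mul, derivative_X, one_mul, neg_add_rev]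
    ring
  · rw [vH_apply, Submodule.coe_sub, coe_hM, coe_iotaM_snd, coe_iotaM_snd, coe_hM]
    simp only [map_sub, map_natCast, map_one, Nat.cast_add, Nat.cast_one, add_sub_cancel_right]
    ring

theorem vT_eq {m : ℕ} (w : MM K (m + 1) × MM K (m + 1)) :
    vT (eM K (m + 1)) (fM K (m + 1)) (hM K (m + 1)) w =
      -((m + 2) • w) - 2 • iotaM K m (dM K m w) := by
  refine Prod.ext (Subtype.ext ?_) (Subtype.ext ?_)
  · rw [vT_apply]
    simp only [AddSubgroupClass.coe_sub, NegMemClass.coe_neg, coe_hM, Nat.cast_add, Nat.cast_one, add_sub_cancel_right, map_natCast, neg_sub, SetLike.val_smul_of_tower, nsmul_eq_mul, Nat.cast_ofNat, coe_fM, Prod.fst_sub, Prod.fst_neg, Prod.smul_fst, coe_iotaM_fst, coe_dM, smul_neg, sub_neg_eq_add]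
    ring
  · rw [vT_apply]
    simp only [AddSubgroupClass.coe_sub, Submodule.coe_add, NegMemClass.coe_neg, SetLike.val_smul_of_tower, coe_eM, nsmul_eq_mul, Nat.cast_ofNat, coe_hM, Nat.cast_add, Nat.cast_one, add_sub_cancel_right, map_natCast, Prod.snd_sub, Prod.snd_neg, Prod.smul_snd, coe_iotaM_snd, coe_dM, smul_add]
    ring

theorem dM_iotaM {m : ℕ} (q : MM K m) : dM K m (iotaM K m q) = -((m + 1) • q) := by
  apply Subtype.ext
  rw [coe_dM, coe_iotaM_fst, coe_iotaM_snd]
  simp only [derivative_neg, derivative_mul, derivative_X, one_mul, neg_add_rev, map_natCast, NegMemClass.coe_neg, SetLike.val_smul_of_tower, nsmul_eq_mul, Nat.cast_add, Nat.cast_one]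
  ring

theorem dM_vE {m : ℕ} (w : MM K (m + 1) × MM K (m + 1)) :
    dM K m (vE (eM K (m + 1)) w) = eM K m (dM K m w) := by
  apply Subtype.ext
  rw [coe_dM, coe_eM, coe_dM, vE_apply]
  simp only [Submodule.coe_add, coe_eM, derivative_add, map_natCast, derivative_sub, derivative_mul, derivative_X, one_mul, derivative_natCast, zero_mul, zero_add]
  ring

theorem dM_vF {m : ℕ} (w : MM K (m + 1) × MM K (m + 1)) :
    dM K m (vF (fM K (m + 1)) w) = fM K m (dM K m w) := by
  apply Subtype.ext
  rw [coe_dM, coe_fM, coe_dM, vF_apply]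
  simp only [coe_fM, Nat.cast_add, Nat.cast_one, add_sub_cancel_right, map_natCast, derivative_sub, derivative_mul, derivative_natCast, zero_mul, derivative_X, one_mul, zero_add, derivative_X_pow_succ, map_add, map_one, pow_one, Submodule.coe_add, derivative_add, map_sub]
  ring

theorem dM_vH {m : ℕ} (w : MM K (m + 1) × MM K (m + 1)) :
    dM K m (vH (hM K (m + 1)) w) = hM K m (dM K m w) := by
  apply Subtype.ext
  rw [coe_dM, coe_hM, coe_dM, vH_apply]
  simp only [Submodule.coe_add, coe_hM, Nat.cast_add, Nat.cast_one, add_sub_cancel_right, map_natCast, derivative_add, derivative_sub, derivative_mul, derivative_natCast, zero_mul, zero_add, derivative_ofNat, derivative_X, one_mul, AddSubgroupClass.coe_sub, map_sub, map_one]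
  ring

/-- `T ι = m ι`. -/
theorem vT_iotaM {m : ℕ} (q : MM K m) :
    vT (eM K (m + 1)) (fM K (m + 1)) (hM K (m + 1)) (iotaM K m q) = (m : K) • iotaM K m q := by
  rw [vT_eq, dM_iotaM, map_neg, map_nsmul]
  simp only [← Nat.cast_smul_eq_nsmul K]
  push_cast
  module

/-- `d T = m d`. -/
theorem dM_vT {m : ℕ} (w : MM K (m + 1) × MM K (m + 1)) :
    dM K m (vT (eM K (m + 1)) (fM K (m + 1)) (hM K (m + 1)) w) = (m : K) • dM K m w := by
  rw [vT_eq, map_sub, map_neg, map_nsmul, map_nsmul, dM_iotaM]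
  simp only [← Nat.cast_smul_eq_nsmul K]
  push_cast
  module

theorem dM_surjective [CharZero K] (m : ℕ) : Function.Surjective (dM K m) := by
  intro q
  have h : ((m : K) + 1) ≠ 0 := Nat.cast_add_one_ne_zero m
  refine ⟨-(((m : K) + 1)⁻¹ • iotaM K m q), ?_⟩
  rw [map_neg, map_smul, dM_iotaM, ← Nat.cast_smul_eq_nsmul K]
  push_cast
  rw [smul_neg, neg_neg, smul_smul, inv_mul_cancel₀ h, one_smul]

/-- The kernel of `T - m` is the image of `ι`. -/
theorem exists_iotaM [CharZero K] {m : ℕ} {w : MM K (m + 1) × MM K (m + 1)}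
    (hw : vT (eM K (m + 1)) (fM K (m + 1)) (hM K (m + 1)) w = (m : K) • w) :
    ∃ q, iotaM K m q = w := by
  have h : ((m : K) + 1) ≠ 0 := Nat.cast_add_one_ne_zero m
  have h2 : (2 : K) ≠ 0 := two_ne_zero
  refine ⟨-(((m : K) + 1)⁻¹ • dM K m w), ?_⟩
  rw [vT_eq] at hw
  simp only [← Nat.cast_smul_eq_nsmul K] at hw
  push_cast at hw
  have h3 : (2 : K) • iotaM K m (dM K m w) = (2 : K) • (-(((m : K) + 1) • w)) := by
    have : (2 : K) • iotaM K m (dM K m w) = -(((m : K) + 2) • w) - (m : K) • w := by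
      rw [← hw]; module
    rw [this]; module
  have h4 : iotaM K m (dM K m w) = -(((m : K) + 1) • w) := smul_right_injective _ h2 h3
  rw [map_neg, map_smul, h4, smul_neg, neg_neg, smul_smul, inv_mul_cancel₀ h, one_smul]

/-- The kernel of `d` is the image of `T - m`. -/
theorem exists_vT_sub [CharZero K] {m : ℕ} {w : MM K (m + 1) × MM K (m + 1)}
    (hw : dM K m w = 0) :
    ∃ x, vT (eM K (m + 1)) (fM K (m + 1)) (hM K (m + 1)) x - (m : K) • x = w := by
  have h : ((m : K) + 1) ≠ 0 := Nat.cast_add_one_ne_zero m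
  have h2 : (2 : K) ≠ 0 := two_ne_zero
  have h3 : (2 : K) * ((m : K) + 1) ≠ 0 := mul_ne_zero h2 h
  refine ⟨-((2 * ((m : K) + 1))⁻¹ • w), ?_⟩
  rw [vT_eq, map_neg (dM K m), map_smul, hw, smul_zero, neg_zero, map_zero, smul_zero, sub_zero]
  simp only [← Nat.cast_smul_eq_nsmul K]
  push_cast
  have : -(((m : K) + 2) • -((2 * ((m : K) + 1))⁻¹ • w)) - (m : K) • -((2 * ((m : K) + 1))⁻¹ • w)
      = ((2 * ((m : K) + 1)) * (2 * ((m : K) + 1))⁻¹) • w := by
    module
  rw [this, mul_inv_cancel₀ h3, one_smul]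

instance (m : ℕ) : Module.Finite K (MM K m) :=
  Module.Finite.equiv (degreeLTEquiv K m).symm

theorem finrank_MM (m : ℕ) : Module.finrank K (MM K m) = m := by
  rw [(degreeLTEquiv K m).finrank_eq, Module.finrank_fin_fun]

instance : Subsingleton (MM K 0) := by
  apply (degreeLTEquiv K 0).injective.subsingleton

end Mod

end Vale.Agent.P176.Mm
end
end

section

section

/-!
# P176: universal property of the induced modules

`pext T φ : P(W) → Y` is the linear map `t^a w ↦ T^a (φ w)`.
`C0 V = Ind_f Ind_e Ind_h V` and its universal property.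
-/

namespace Vale.Agent.P176

open Finsupp

variable {K : Type*} [Field K]
variable {V W Y : Type*} [AddCommGroup V] [Module K V] [AddCommGroup W] [Module K W]
  [AddCommGroup Y] [Module K Y]

/-- The linear map `t^a w ↦ T^a (φ w)` on `P(W)`. -/
noncomputable def pext (T : Y →ₗ[K] Y) (φ : W →ₗ[K] Y) : (ℕ →₀ W) →ₗ[K] Y :=
  (evP T).comp (mapP φ)

@[simp] lemma pext_single (T : Y →ₗ[K] Y) (φ : W →ₗ[K] Y) (a : ℕ) (w : W) :
    pext T φ (single a w) = (T ^ a) (φ w) := by
  simp only [pext, LinearMap.coe_comp, Function.comp_apply, coef_single, evP_single]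

lemma pext_single_zero (T : Y →ₗ[K] Y) (φ : W →ₗ[K] Y) (w : W) :
    pext T φ (single 0 w) = φ w := by
  simp only [pext_single, pow_zero, Module.End.one_apply]

lemma pext_sh (T : Y →ₗ[K] Y) (φ : W →ₗ[K] Y) (p : ℕ →₀ W) :
    pext T φ (sh (K := K) p) = T (pext T φ p) := by
  simp only [pext, LinearMap.comp_apply]
  rw [mapP_sh, evP_sh]

lemma pext_hP (c : K) {T h' : Y →ₗ[K] Y} (hT : ∀ y, h' (T y) = T (h' y) + c • T y)
    {h : W →ₗ[K] W} {φ : W →ₗ[K] Y} (hφ : ∀ w, φ (h w) = h' (φ w)) (p : ℕ →₀ W) :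
    pext T φ (hP c h p) = h' (pext T φ p) := by
  simp only [pext, LinearMap.comp_apply]
  rw [mapP_hP c hφ, evP_hP c hT]

lemma pext_eP {e' f' h' : Y →ₗ[K] Y} (H : IsSl e' f' h') {e h : W →ₗ[K] W} {φ : W →ₗ[K] Y}
    (he : ∀ w, φ (e w) = e' (φ w)) (hφ : ∀ w, φ (h w) = h' (φ w)) (p : ℕ →₀ W) :
    pext f' φ (eP e h p) = e' (pext f' φ p) := by
  simp only [pext, LinearMap.comp_apply]
  rw [mapP_eP he hφ, evP_eP H]

/-- Two linear maps on `P(W)` commuting with `t ↦ T` which agree on `W` are equal. -/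
lemma poly_hom_ext {T : Y →ₗ[K] Y} {u u' : (ℕ →₀ W) →ₗ[K] Y}
    (hu : ∀ p, u (sh (K := K) p) = T (u p)) (hu' : ∀ p, u' (sh (K := K) p) = T (u' p))
    (h0 : ∀ w, u (single 0 w) = u' (single 0 w)) : u = u' := by
  refine Finsupp.lhom_ext fun a w => ?_
  induction a with
  | zero => exact h0 w
  | succ a ih =>
    have h1 := hu (single a w)
    have h2 := hu' (single a w)
    rw [sh_single] at h1 h2
    rw [h1, h2, ih]

lemma pext_mem {F : ℤ → Submodule K W} {G : ℤ → Submodule K Y} {T : Y →ₗ[K] Y}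
    (hT : Raises G T) {φ : W →ₗ[K] Y} {j : ℤ} (hφ : ∀ i, ∀ w ∈ F i, φ w ∈ G (i + j)) {i : ℤ}
    {p : ℕ →₀ W} (hp : p ∈ filP F i) : pext T φ p ∈ G (i + j) := by
  refine filP_induction (F := F) (i := i) (pext T φ) _ (fun a w hw => ?_) hp
  rw [pext_single]
  have := pow_mem hT a (hφ _ _ hw)
  convert this using 2; ring

lemma filP_eq_bot {F : ℤ → Submodule K W} {i₀ : ℤ} (h0 : ∀ i < i₀, F i = ⊥) :
    ∀ i < i₀, filP F i = ⊥ := by
  intro i hi
  rw [eq_bot_iff]
  intro p hp
  rw [Submodule.mem_bot]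
  ext a
  have h1 := hp a
  rw [h0 _ (by omega)] at h1
  exact (Submodule.mem_bot K).1 h1

lemma filP_finite {F : ℤ → Submodule K W} {i₀ : ℤ} (h0 : ∀ i < i₀, F i = ⊥)
    (h : ∀ i, Module.Finite K (F i)) (i : ℤ) : Module.Finite K (filP F i) := by
  have hN : ∀ a : ℕ, (i - i₀ + 1).toNat ≤ a → F (i - a) = ⊥ := fun a ha => h0 _ (by omega)
  let N := (i - i₀ + 1).toNat
  let g : filP F i →ₗ[K] ((a : Fin N) → F (i - (a : ℕ))) :=
    { toFun := fun p a => ⟨(p : ℕ →₀ W) a, p.2 a⟩
      map_add' := fun p q => rfl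
      map_smul' := fun c p => rfl }
  refine Module.Finite.of_injective g ?_
  intro p q hpq
  ext a
  by_cases ha : a < N
  · have := congrFun hpq ⟨a, ha⟩
    exact congrArg Subtype.val this
  · have h1 := p.2 a
    have h2 := q.2 a
    rw [hN a (by omega)] at h1 h2
    rw [(Submodule.mem_bot K).1 h1, (Submodule.mem_bot K).1 h2]

/-- The trivial filtration concentrated in level `0`. -/
def fil0 (K V : Type*) [Field K] [AddCommGroup V] [Module K V] (i : ℤ) : Submodule K V :=
  if 0 ≤ i then ⊤ else ⊥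

lemma fil0_of_nonneg {i : ℤ} (hi : 0 ≤ i) : fil0 K V i = ⊤ := if_pos hi

lemma fil0_of_neg {i : ℤ} (hi : i < 0) : fil0 K V i = ⊥ := if_neg (by omega)

lemma fil0_mono : Monotone (fil0 K V) := by
  intro i j hij
  by_cases hi : 0 ≤ i
  · rw [fil0_of_nonneg hi, fil0_of_nonneg (by omega)]
  · rw [fil0_of_neg (by omega)]; exact bot_le

/-- `C0 V = Ind_f Ind_e Ind_h V`: the monomials are `f^a e^b h^c v`. -/
abbrev C0 (V : Type*) [AddCommGroup V] : Type _ := ℕ →₀ ℕ →₀ ℕ →₀ V

namespace C0

/-- `h` on `C0 V`. -/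
noncomputable def opH (K V : Type*) [Field K] [AddCommGroup V] [Module K V] :
    C0 V →ₗ[K] C0 V := hP (-2) (hP 2 sh)

/-- `e` on `C0 V`. -/
noncomputable def opE (K V : Type*) [Field K] [AddCommGroup V] [Module K V] :
    C0 V →ₗ[K] C0 V := eP sh (hP 2 sh)

/-- `f` on `C0 V`. -/
noncomputable def opF (K V : Type*) [Field K] [AddCommGroup V] [Module K V] :
    C0 V →ₗ[K] C0 V := sh

/-- The filtration of `C0 V`, `V` in level `0`. -/
noncomputable def fil (K V : Type*) [Field K] [AddCommGroup V] [Module K V] : ℤ → Submodule K (C0 V) :=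
  filP (filP (filP (fil0 K V)))

/-- The generators. -/
noncomputable def incl (K V : Type*) [Field K] [AddCommGroup V] [Module K V] : V →ₗ[K] C0 V :=
  (Finsupp.lsingle 0).comp ((Finsupp.lsingle 0).comp (Finsupp.lsingle 0))

lemma incl_apply (v : V) : incl K V v = single 0 (single 0 (single 0 v)) := rfl

lemma isSl : IsSl (W := C0 V) (opE K V) (opF K V) (opH K V) := isSl_indF (isB_indE _)

lemma fil_mono : Monotone (fil K V) := filP_mono (filP_mono (filP_mono fil0_mono))

lemma raises_F : Raises (W := C0 V) (fil K V) (opF K V) := sh_raises _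

lemma raises_H : Raises (W := C0 V) (fil K V) (opH K V) :=
  hP_raises (filP_mono (filP_mono fil0_mono)) _
    (hP_raises (filP_mono fil0_mono) _ (sh_raises _))

lemma raises_E : Raises (W := C0 V) (fil K V) (opE K V) :=
  eP_raises (filP_mono (filP_mono fil0_mono)) (sh_raises _)
    (hP_raises (filP_mono fil0_mono) _ (sh_raises _))

lemma incl_mem (v : V) : incl K V v ∈ fil K V 0 := by
  rw [incl_apply]
  refine single_mem_filP (single_mem_filP (single_mem_filP ?_))
  rw [fil0_of_nonneg (by simp)]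
  trivial

lemma fil_finite [Module.Finite K V] (i : ℤ) : Module.Finite K (fil K V i) := by
  have h0 : ∀ i < (0 : ℤ), fil0 K V i = ⊥ := fun i hi => fil0_of_neg hi
  have hf : ∀ i, Module.Finite K (fil0 K V i) := fun i => by
    by_cases hi : 0 ≤ i
    · rw [fil0_of_nonneg hi]; infer_instance
    · rw [fil0_of_neg (by omega)]; infer_instance
  exact filP_finite (filP_eq_bot (filP_eq_bot h0)) (filP_finite (filP_eq_bot h0)
    (filP_finite h0 hf)) i

lemma fil_eq_bot {i : ℤ} (hi : i < 0) : fil K V i = ⊥ :=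
  filP_eq_bot (filP_eq_bot (filP_eq_bot fun i hi => fil0_of_neg hi)) i hi

/-- The universal map `C0 V → Y` attached to a linear map `V → Y`. -/
noncomputable def lift (e f h : Y →ₗ[K] Y) (φ : V →ₗ[K] Y) : C0 V →ₗ[K] Y :=
  pext f (pext e (pext h φ))

lemma lift_incl (e f h : Y →ₗ[K] Y) (φ : V →ₗ[K] Y) (v : V) :
    lift e f h φ (incl K V v) = φ v := by
  simp only [lift, incl_apply, pext_single, pow_zero, Module.End.one_apply]

lemma lift_F (e f h : Y →ₗ[K] Y) (φ : V →ₗ[K] Y) (x : C0 V) :
    lift e f h φ (opF K V x) = f (lift e f h φ x) := pext_sh _ _ _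

lemma lift_aux {e f h : Y →ₗ[K] Y} (H : IsSl e f h) (φ : V →ₗ[K] Y) (p : ℕ →₀ ℕ →₀ V) :
    pext e (pext h φ) (hP (2 : K) (sh (K := K)) p) = h (pext e (pext h φ) p) :=
  pext_hP 2 (fun y => H.he y) (fun _ => pext_sh _ _ _) p

lemma lift_H {e f h : Y →ₗ[K] Y} (H : IsSl e f h) (φ : V →ₗ[K] Y) (x : C0 V) :
    lift e f h φ (opH K V x) = h (lift e f h φ x) :=
  pext_hP (-2) (fun y => by rw [H.hf y]; module) (fun _ => lift_aux H φ _) x

lemma lift_E {e f h : Y →ₗ[K] Y} (H : IsSl e f h) (φ : V →ₗ[K] Y) (x : C0 V) :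
    lift e f h φ (opE K V x) = e (lift e f h φ x) :=
  pext_eP H (fun _ => pext_sh _ _ _) (fun _ => lift_aux H φ _) x

lemma lift_mem {G : ℤ → Submodule K Y} {e f h : Y →ₗ[K] Y} (he : Raises G e)
    (hf : Raises G f) (hh : Raises G h) (hG : Monotone G) {φ : V →ₗ[K] Y} {j : ℤ}
    (hφ : ∀ v, φ v ∈ G j) {i : ℤ} {x : C0 V} (hx : x ∈ fil K V i) :
    lift e f h φ x ∈ G (i + j) := by
  refine pext_mem hf (fun i w hw => pext_mem he (fun i w hw => pext_mem hh
    (fun i w hw => ?_) hw) hw) hx
  by_cases hi : 0 ≤ i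
  · exact hG (by omega) (hφ w)
  · rw [fil0_of_neg (by omega)] at hw
    rw [(Submodule.mem_bot K).1 hw, map_zero]
    exact Submodule.zero_mem _

/-- Uniqueness part of the universal property. -/
lemma hom_ext {e f h : Y →ₗ[K] Y} {u u' : C0 V →ₗ[K] Y}
    (hE : ∀ x, u (opE K V x) = e (u x)) (hE' : ∀ x, u' (opE K V x) = e (u' x))
    (hF : ∀ x, u (opF K V x) = f (u x)) (hF' : ∀ x, u' (opF K V x) = f (u' x))
    (hH : ∀ x, u (opH K V x) = h (u x)) (hH' : ∀ x, u' (opH K V x) = h (u' x))
    (h0 : ∀ v, u (incl K V v) = u' (incl K V v)) : u = u' := by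
  refine poly_hom_ext hF hF' fun w => ?_
  have h1 : u.comp (Finsupp.lsingle 0) = u'.comp (Finsupp.lsingle 0) := by
    refine poly_hom_ext (T := e) (fun p => ?_) (fun p => ?_) fun w => ?_
    · have := hE (single 0 p)
      simpa only [LinearMap.coe_comp, Function.comp_apply, lsingle_apply, opE, eP_single_zero] using this
    · have := hE' (single 0 p)
      simpa only [LinearMap.coe_comp, Function.comp_apply, lsingle_apply, opE, eP_single_zero] using this
    · have h2 : (u.comp (Finsupp.lsingle 0)).comp (Finsupp.lsingle 0) =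
          (u'.comp (Finsupp.lsingle 0)).comp (Finsupp.lsingle 0) := by
        refine poly_hom_ext (T := h) (fun p => ?_) (fun p => ?_) fun v => ?_
        · have := hH (single 0 (single 0 p))
          simpa only [LinearMap.coe_comp, Function.comp_apply, lsingle_apply, opH, hP_single, Nat.cast_zero, mul_zero,     zero_smul, add_zero] using this
        · have := hH' (single 0 (single 0 p))
          simpa only [LinearMap.coe_comp, Function.comp_apply, lsingle_apply, opH, hP_single, Nat.cast_zero, mul_zero,     zero_smul, add_zero] using this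
        · exact h0 v
      exact LinearMap.congr_fun h2 w
  exact LinearMap.congr_fun h1 w

end C0

end Vale.Agent.P176
end
end

section

section

/-!
Homological part: projective dimension along short exact sequences of modules.
-/

namespace Vale.Agent.P176.HMod

open CategoryTheory CategoryTheory.Abelian

universe u

section Mod

variable {A : Type u} [Ring A]

/-- The projective dimension of the module `M` is less than `n`. -/
def PdLT (A : Type u) [Ring A] (M : Type u) [AddCommGroup M] [Module A M] (n : ℕ) : Prop :=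
  HasProjectiveDimensionLT (ModuleCat.of A M) n

/-- `Ext^n(M, N) = 0`. -/
def ExtZero (A : Type u) [Ring A] (M N : Type u) [AddCommGroup M] [Module A M] [AddCommGroup N]
    [Module A N] (n : ℕ) : Prop :=
  letI := HasExt.standard (ModuleCat.{u} A)
  ∀ x : Ext (ModuleCat.of A M) (ModuleCat.of A N) n, x = 0

variable {M N M₁ M₂ M₃ M₄ : Type u} [AddCommGroup M] [AddCommGroup N]
  [AddCommGroup M₁] [AddCommGroup M₂] [AddCommGroup M₃] [AddCommGroup M₄]
  [Module A M] [Module A N] [Module A M₁] [Module A M₂] [Module A M₃] [Module A M₄]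

/-- Short exact sequence of modules. -/
structure SES (f : M₁ →ₗ[A] M₂) (g : M₂ →ₗ[A] M₃) : Prop where
  inj : Function.Injective f
  exact : Function.Exact f g
  surj : Function.Surjective g

/-- The short complex of module categories of a short exact sequence. -/
abbrev SES.cx {f : M₁ →ₗ[A] M₂} {g : M₂ →ₗ[A] M₃} (h : SES f g) :
    ShortComplex (ModuleCat.{u} A) :=
  ShortComplex.mk (ModuleCat.ofHom f) (ModuleCat.ofHom g) (by
    ext x
    exact (h.exact (f x)).2 ⟨x, rfl⟩)

theorem SES.shortExact {f : M₁ →ₗ[A] M₂} {g : M₂ →ₗ[A] M₃} (h : SES f g) :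
    h.cx.ShortExact :=
  ModuleCat.shortComplex_shortExact _ h.exact h.inj h.surj

theorem PdLT.mono {m n : ℕ} (h : PdLT A M m) (hmn : m ≤ n) : PdLT A M n := by
  have : HasProjectiveDimensionLT (ModuleCat.of A M) m := h
  exact hasProjectiveDimensionLT_of_ge (ModuleCat.of A M) m n hmn

theorem PdLT.of_equiv {n : ℕ} (e : M ≃ₗ[A] N) (h : PdLT A M n) : PdLT A N n := by
  have : HasProjectiveDimensionLT (ModuleCat.of A M) n := h
  exact hasProjectiveDimensionLT_of_iso e.toModuleIso n

theorem PdLT.of_projective [Module.Projective A M] : PdLT A M 1 := by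
  have : Projective (ModuleCat.of A M) := inferInstance
  exact projective_iff_hasProjectiveDimensionLT_one.1 this

theorem PdLT.of_subsingleton [Subsingleton M] : PdLT A M 0 := by
  have : Limits.IsZero (ModuleCat.of A M) := ModuleCat.isZero_of_subsingleton _
  exact this.hasProjectiveDimensionLT_zero

theorem ExtZero.of_pdLT {n i : ℕ} (h : PdLT A M n) (hi : n ≤ i) : ExtZero A M N i := by
  let := HasExt.standard (ModuleCat.{u} A)
  have : HasProjectiveDimensionLT (ModuleCat.of A M) n := h
  intro x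
  exact x.eq_zero_of_hasProjectiveDimensionLT n hi

theorem extZero_zero_iff : ExtZero A M N 0 ↔ ∀ f : M →ₗ[A] N, f = 0 := by
  let := HasExt.standard (ModuleCat.{u} A)
  constructor
  · intro h f
    have h1 : Ext.mk₀ (ModuleCat.ofHom f) = 0 := h _
    rw [Ext.mk₀_eq_zero_iff] at h1
    have := congrArg ModuleCat.Hom.hom h1
    simpa using this
  · intro h x
    obtain ⟨f, rfl⟩ := Ext.addEquiv₀.symm.surjective x
    have : f = 0 := by
      ext1
      exact h _
    rw [this, map_zero]

theorem SES.pdLT₂ {f : M₁ →ₗ[A] M₂} {g : M₂ →ₗ[A] M₃} (h : SES f g) {n : ℕ}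
    (h₁ : PdLT A M₁ n) (h₃ : PdLT A M₃ n) : PdLT A M₂ n :=
  h.shortExact.hasProjectiveDimensionLT_X₂ n h₁ h₃

theorem SES.pdLT₃ {f : M₁ →ₗ[A] M₂} {g : M₂ →ₗ[A] M₃} (h : SES f g) {n : ℕ}
    (h₁ : PdLT A M₁ n) (h₂ : PdLT A M₂ (n + 1)) : PdLT A M₃ (n + 1) :=
  h.shortExact.hasProjectiveDimensionLT_X₃ n h₁ h₂

theorem SES.pdLT₁ {f : M₁ →ₗ[A] M₂} {g : M₂ →ₗ[A] M₃} (h : SES f g) {n : ℕ}
    (h₂ : PdLT A M₂ n) (h₃ : PdLT A M₃ (n + 1)) : PdLT A M₁ n :=
  h.shortExact.hasProjectiveDimensionLT_X₁ n h₂ h₃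

theorem SES.extZero₃ {f : M₁ →ₗ[A] M₂} {g : M₂ →ₗ[A] M₃} (h : SES f g) {n : ℕ}
    (h₁ : ExtZero A M₁ N n) (h₂ : ExtZero A M₂ N (n + 1)) : ExtZero A M₃ N (n + 1) := by
  let := HasExt.standard (ModuleCat.{u} A)
  intro x
  obtain ⟨y, rfl⟩ := Ext.contravariant_sequence_exact₃ h.shortExact _ x (h₂ _) (add_comm 1 n)
  have : y = 0 := h₁ y
  rw [this, Ext.comp_zero]

theorem SES.extZero₃_zero {f : M₁ →ₗ[A] M₂} {g : M₂ →ₗ[A] M₃} (h : SES f g)
    (h₂ : ExtZero A M₂ N 0) : ExtZero A M₃ N 0 := by
  rw [extZero_zero_iff] at h₂ ⊢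
  intro f
  ext x
  obtain ⟨y, rfl⟩ := h.surj x
  have := LinearMap.congr_fun (h₂ (f ∘ₗ g)) y
  simpa only [LinearMap.zero_apply, LinearMap.coe_comp, Function.comp_apply] using this

theorem SES.not_extZero₃ {f : M₁ →ₗ[A] M₂} {g : M₂ →ₗ[A] M₃} (h : SES f g) {n : ℕ}
    (h₁ : ¬ ExtZero A M₁ N n) (h₂ : ExtZero A M₂ N n) : ¬ ExtZero A M₃ N (n + 1) := by
  let := HasExt.standard (ModuleCat.{u} A)
  intro h₃
  apply h₁
  intro x
  obtain ⟨y, rfl⟩ := Ext.contravariant_sequence_exact₁ h.shortExact _ x (add_comm 1 n) (h₃ _)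
  have : y = 0 := h₂ y
  rw [this, Ext.comp_zero]

/-- Four-term exact sequences split into two short exact ones. -/
theorem ses_of_four {f : M₁ →ₗ[A] M₂} {g : M₂ →ₗ[A] M₃} {k : M₃ →ₗ[A] M₄}
    (hf : Function.Injective f) (hfg : Function.Exact f g) (hgk : Function.Exact g k)
    (hk : Function.Surjective k) :
    SES f g.rangeRestrict ∧ SES (LinearMap.range g).subtype k := by
  refine ⟨⟨hf, ?_, g.surjective_rangeRestrict⟩, ⟨Submodule.injective_subtype _, ?_, hk⟩⟩
  · intro x
    rw [← hfg x]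
    constructor
    · intro h; simpa only [LinearMap.codRestrict_apply, ZeroMemClass.coe_zero] using congrArg Subtype.val h
    · intro h; exact Subtype.ext (by simpa only [LinearMap.codRestrict_apply, ZeroMemClass.coe_zero] using h)
  · intro x
    rw [hgk x]
    simp only [Set.mem_range, Submodule.coe_subtype, Subtype.range_coe_subtype, LinearMap.mem_range, Set.mem_ofPred_eq]

/-- The growth step. -/
theorem growth {F G₁ G₀ H F' : Type u} [AddCommGroup F] [AddCommGroup G₁] [AddCommGroup G₀]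
    [AddCommGroup H] [AddCommGroup F'] [Module A F] [Module A G₁] [Module A G₀] [Module A H]
    [Module A F'] {f : F →ₗ[A] G₁} {g : G₁ →ₗ[A] G₀} {k : G₀ →ₗ[A] H}
    (hf : Function.Injective f) (hfg : Function.Exact f g) (hgk : Function.Exact g k)
    (hk : Function.Surjective k) {a : F →ₗ[A] H} {b : H →ₗ[A] F'} (hab : SES a b)
    (hG₁ : PdLT A G₁ 4) (hG₀ : PdLT A G₀ 4) {p : ℕ} (hp : 4 ≤ p)
    (hF : PdLT A F (p + 1)) (hF' : ¬ PdLT A F p) :
    PdLT A F' (p + 3) ∧ ¬ PdLT A F' (p + 2) := by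
  obtain ⟨h1, h2⟩ := ses_of_four hf hfg hgk hk
  have hI : PdLT A (LinearMap.range g) (p + 2) := h1.pdLT₃ hF (hG₁.mono (by omega))
  have hI' : ¬ PdLT A (LinearMap.range g) (p + 1) := fun h =>
    hF' (h1.pdLT₁ (hG₁.mono hp) h)
  have hH : PdLT A H (p + 3) := h2.pdLT₃ hI (hG₀.mono (by omega))
  have hH' : ¬ PdLT A H (p + 2) := fun h =>
    hI' (h2.pdLT₁ (hG₀.mono (by omega)) h)
  exact ⟨hab.pdLT₃ (hF.mono (by omega)) hH, fun h => hH' (hab.pdLT₂ (hF.mono (by omega)) h)⟩

/-- Bookkeeping for the modules of the chain: `r` is the length of the resolution, `j` the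
shift, and `S` is the test module at the top level. -/
structure Good (A : Type u) [Ring A] (S M : Type u) [AddCommGroup S] [Module A S]
    [AddCommGroup M] [Module A M] (r j : ℕ) : Prop where
  pd : PdLT A M (r + 1)
  van : j + r ≤ 3 → ∀ n, ExtZero A M S n
  nonvan : j + r = 4 → ¬ ExtZero A M S r

theorem Good.of_projective {j : ℕ} [Module.Projective A M]
    (h : j ≤ 3 → ∀ f : M →ₗ[A] N, f = 0) (h' : j = 4 → ∃ f : M →ₗ[A] N, f ≠ 0) :
    Good A N M 0 j := by
  refine ⟨PdLT.of_projective, ?_, ?_⟩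
  · intro hj n
    rcases Nat.eq_zero_or_pos n with rfl | hn
    · exact extZero_zero_iff.2 (h (by omega))
    · exact ExtZero.of_pdLT PdLT.of_projective hn
  · intro hj
    rw [extZero_zero_iff]
    push Not
    exact h' (by omega)

theorem Good.step {f : M₁ →ₗ[A] M₂} {g : M₂ →ₗ[A] M₃} (h : SES f g) {r j : ℕ}
    (h₁ : Good A N M₁ r (j + 1)) (h₂ : Good A N M₂ r j) :
    Good A N M₃ (r + 1) j := by
  refine ⟨h.pdLT₃ h₁.pd (h₂.pd.mono (by omega)), ?_, ?_⟩
  · intro hjr n
    rcases n with _ | n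
    · exact h.extZero₃_zero (h₂.van (by omega) 0)
    · exact h.extZero₃ (h₁.van (by omega) n) (h₂.van (by omega) (n + 1))
  · intro hjr
    exact h.not_extZero₃ (h₁.nonvan (by omega)) (h₂.van (by omega) r)

/-- The base of the growth: projective dimension exactly four. -/
theorem base_four {f : M₁ →ₗ[A] M₂} {g : M₂ →ₗ[A] M₃} (h : SES f g)
    (h₁ : Good A N M₁ 3 1) (h₂ : Good A N M₂ 3 0) : PdLT A M₃ 5 ∧ ¬ PdLT A M₃ 4 := by
  refine ⟨h.pdLT₃ h₁.pd (h₂.pd.mono (by omega)), fun h4 => ?_⟩
  exact h.not_extZero₃ (h₁.nonvan rfl) (h₂.van (by omega) 3) (ExtZero.of_pdLT h4 le_rfl)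

end Mod

end Vale.Agent.P176.HMod
end
end

section

section

/-!
# P176: homomorphisms between windows, the test module, finite-dimensionality of the algebra
-/

namespace Vale.Agent.P176

universe u

section General

variable {K : Type u} [Field K] {ι : Type}

/-- Full faithfulness of the window functor on retracts of sums of copies of `P`. -/
theorem Win.exists_map_of_retract (P : FMod K ι) {Q : FMod K ι} {n : ℕ}
    (α : Fin n → P.X →ₗ[K] Q.X) (β : Fin n → Q.X →ₗ[K] P.X)
    (hα : ∀ k, α k ∈ FHom P Q) (hβ : ∀ k, β k ∈ FHom Q P)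
    (h : ∀ x, ∑ k, α k (β k x) = x) {X : FMod K ι} (φ : Win P Q →ₗ[WAlg P] Win P X) :
    ∃ g, ∃ hg : g ∈ FHom Q X, φ = Win.map P g hg := by
  have hg : ∑ k, (φ (Win.mk (α k) (hα k))).toLin ∘ₗ β k ∈ FHom Q X :=
    (FHom Q X).sum_mem fun k _ => FHom.comp (Win.toLin_mem _) (hβ k)
  refine ⟨_, hg, ?_⟩
  have hsum : ∀ {Y : FMod K ι} (ψ : Fin n → Win P Y), (∑ k, ψ k).toLin = ∑ k, (ψ k).toLin := by
    intro Y ψ
    let T : Win P Y →ₗ[K] (P.X →ₗ[K] Y.X) :=
      { toFun := Win.toLin, map_add' := fun _ _ => rfl, map_smul' := fun _ _ => rfl }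
    exact map_sum T ψ Finset.univ
  apply LinearMap.ext
  intro u
  have hmem : ∀ k, β k ∘ₗ u.toLin ∈ FHom P P := fun k => FHom.comp (hβ k) u.toLin_mem
  have hu : u = ∑ k, (MulOpposite.op (⟨β k ∘ₗ u.toLin, hmem k⟩ : FEnd P) : WAlg P) •
      Win.mk (α k) (hα k) := by
    apply Win.ext'
    rw [hsum]
    ext x
    rw [LinearMap.sum_apply]
    exact (h _).symm
  have h2 : φ u = ∑ k, (MulOpposite.op (⟨β k ∘ₗ u.toLin, hmem k⟩ : FEnd P) : WAlg P) •
      φ (Win.mk (α k) (hα k)) := by
    conv_lhs => rw [hu]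
    rw [map_sum]
    exact Finset.sum_congr rfl fun k _ => map_smul _ _ _
  rw [h2]
  apply Win.ext'
  rw [hsum]
  ext x
  rw [LinearMap.sum_apply]
  simp only [toLin_smul, LinearMap.comp_apply, toLin_map, LinearMap.sum_apply]
  rfl

theorem Win.map_eq_zero_of_retract (P : FMod K ι) {Q : FMod K ι} {n : ℕ}
    (α : Fin n → P.X →ₗ[K] Q.X) (β : Fin n → Q.X →ₗ[K] P.X)
    (hα : ∀ k, α k ∈ FHom P Q) 
    (h : ∀ x, ∑ k, α k (β k x) = x) {X : FMod K ι} {g : Q.X →ₗ[K] X.X} (hg : g ∈ FHom Q X)
    (h0 : Win.map P g hg = 0) : g = 0 := by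
  ext x
  rw [← h x, map_sum]
  refine Finset.sum_eq_zero fun k _ => ?_
  have h1 : Win.map P g hg (Win.mk (α k) (hα k)) = 0 := by rw [h0]; rfl
  have h2 := congrArg (fun ψ => ψ.toLin (β k x)) h1
  exact h2

/-- `Win P P` and the algebra are isomorphic vector spaces. -/
def Win.selfK (P : FMod K ι) : Win P P ≃ₗ[K] WAlg P where
  toFun φ := MulOpposite.op ⟨φ.toLin, φ.toLin_mem⟩
  invFun a := Win.mk (a.unop : Module.End K P.X) a.unop.2
  left_inv _ := rfl
  right_inv _ := rfl
  map_add' _ _ := rfl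
  map_smul' _ _ := rfl

theorem WAlg.finite {U : FMod K ι} {one : U.X} (h0 : one ∈ U.Fil 0) (hU : IsGen U one)
    (hfin : ∀ j : ℤ, Module.Finite K (U.Fil j)) : Module.Finite K (WAlg (PU U)) := by
  have : Module.Finite K (Win (PU U) (PU U)) := by
    refine Win.finite h0 hU _ fun j => ?_
    let T : ((PU U).Fil (j : ℤ)) →ₗ[K] (∀ i : Fin 5, U.Fil ((j : ℤ) - (i : ℤ))) :=
      { toFun := fun x i => ⟨x.1 i, x.2 i (Set.mem_univ _)⟩
        map_add' := fun _ _ => rfl
        map_smul' := fun _ _ => rfl }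
    refine Module.Finite.of_injective T ?_
    intro x y hxy
    apply Subtype.ext
    exact funext fun i => congrArg Subtype.val (congrFun hxy i)
  exact Module.Finite.equiv (Win.selfK (PU U))

/-- finite generation of windows -/
theorem Win.finite_walg {U : FMod K ι} {one : U.X} (h0 : one ∈ U.Fil 0) (hU : IsGen U one)
    (X : FMod K ι) (hfin : ∀ j : Fin 5, Module.Finite K (X.Fil (j : ℤ))) :
    Module.Finite (WAlg (PU U)) (Win (PU U) X) := by
  have := Win.finite h0 hU X hfin
  exact Module.Finite.of_restrictScalars_finite K (WAlg (PU U)) (Win (PU U) X)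

end General

section Test

/-- The test object: one-dimensional, zero operators, concentrated in levels `≥ 4`. -/
@[reducible] noncomputable def T4 (K : Type u) [Field K] : FMod K (Fin 6) :=
  mkS (0 : Module.End K K) 0 0 0 0 0 (fun i => if 4 ≤ i then ⊤ else ⊥)

theorem isSObj_T4 (K : Type u) [Field K] : IsSObj (T4 K) := by
  refine isSObj_mkS ?_ ?_
  · constructor
    · constructor <;> simp
    all_goals simp
  · refine ⟨?_, ?_, ?_, ?_, ?_, ?_, ?_⟩
    · intro i j hij
      dsimp only
      split_ifs with h1 h2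
      · exact le_rfl
      · omega
      · exact bot_le
      · exact le_rfl
    all_goals
      intro i x _
      simp

end Test

section Good

open Vale.Agent.P176.HMod

variable {K : Type u} [Field K]

/-- Projectivity and `Hom` computations for the start of the resolution. -/
theorem good_zero {U : FMod K (Fin 6)} {one : U.X} (h0 : one ∈ U.Fil 0) (hU : IsGen U one)
    (hT : IsUniv U one (T4 K)) (Q : FMod K (Fin 6)) {j : ℕ} (hj : j ≤ 4) {n : ℕ}
    (a : Fin n → U.X →ₗ[K] Q.X) (b : Fin n → Q.X →ₗ[K] U.X)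
    (ha : ∀ k, a k ∈ FHom (U.shift j) Q) (hb : ∀ k, b k ∈ FHom Q (U.shift j))
    (hsum : ∀ x, ∑ k, a k (b k x) = x) (k₀ : Fin n) (hk₀ : b k₀ (a k₀ one) = one) :
    Good (WAlg (PU U)) (Win (PU U) (T4 K)) (Win (PU U) Q) 0 j := by
  set P := PU U with hP
  let j' : Fin 5 := ⟨j, by omega⟩
  have hs : PU.inj U j' ∈ FHom (U.shift j) P := PU.inj_mem U j'
  have hp : PU.proj U j' ∈ FHom P (U.shift j) := PU.proj_mem U j'
  let α : Fin n → P.X →ₗ[K] Q.X := fun k => a k ∘ₗ PU.proj U j'
  let β : Fin n → Q.X →ₗ[K] P.X := fun k => PU.inj U j' ∘ₗ b k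
  have hα : ∀ k, α k ∈ FHom P Q := fun k => FHom.comp (Y := U.shift j) (ha k) hp
  have hβ : ∀ k, β k ∈ FHom Q P := fun k => FHom.comp (Y := U.shift j) hs (hb k)
  have hαβ : ∀ x, ∑ k, α k (β k x) = x := by
    intro x
    conv_rhs => rw [← hsum x]
    refine Finset.sum_congr rfl fun k _ => ?_
    exact congrArg (a k) (PU.proj_inj_same U j' (b k x))
  have hproj : Module.Projective (WAlg P) (Win P Q) :=
    Win.projective_of_retract P α β hα hβ hαβ
  refine Good.of_projective ?_ ?_
  · intro hj3 φ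
    obtain ⟨g, hg, rfl⟩ := Win.exists_map_of_retract P α β hα hβ hαβ φ
    have hg0 : g = 0 := by
      ext x
      rw [← hsum x, map_sum]
      refine Finset.sum_eq_zero fun k _ => ?_
      have h1 : g ∘ₗ a k ∈ FHom (U.shift j) (T4 K) := FHom.comp hg (ha k)
      have h2 : (g ∘ₗ a k) one = 0 := by
        have h3 := FHom.fil h1 (i := (j : ℤ)) (x := one) (by simpa using h0)
        have h4 : ¬ ((4 : ℤ) ≤ (j : ℤ)) := by omega
        simpa only [T4, LinearMap.coe_comp, Function.comp_apply, h4, ↓reduceIte, Submodule.mem_bot] using h3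
      have h3 : g ∘ₗ a k = 0 := by
        refine hU (T4 K) _ _ h1.1 (fun s x => ?_) (by simpa only [LinearMap.coe_comp, Function.comp_apply, LinearMap.zero_apply] using h2)
        simp only [LinearMap.zero_apply, map_zero]
      exact LinearMap.congr_fun h3 (b k x)
    subst hg0
    apply LinearMap.ext
    intro u
    apply Win.ext'
    ext x
    rfl
  · rintro rfl
    obtain ⟨t, ht, ht1⟩ := hT 4 (1 : K) (by simp)
    have hg : t ∘ₗ b k₀ ∈ FHom Q (T4 K) := FHom.comp ht (hb k₀)
    refine ⟨Win.map P _ hg, fun h => ?_⟩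
    have h1 := Win.map_eq_zero_of_retract P α β hα hαβ hg h
    have h2 := LinearMap.congr_fun h1 (a k₀ one)
    simp only [LinearMap.comp_apply, hk₀, ht1, LinearMap.zero_apply] at h2
    exact one_ne_zero h2

end Good

end Vale.Agent.P176
end
end

section

section

/-!
# P176: free objects and the start of the resolutions
-/

namespace Vale.Agent.P176

universe u

/-- `Q` is the free filtered `S`-module on the vector space `V` (placed in degree `0`). -/
structure IsFree {K : Type u} [Field K] {V : Type u} [AddCommGroup V] [Module K V]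
    (Q : FMod K (Fin 6)) (inc : V →ₗ[K] Q.X) : Prop where
  obj : IsSObj Q
  mem : ∀ v, inc v ∈ Q.Fil 0
  ext : ∀ (Y : FMod K (Fin 6)) (φ ψ : Q.X →ₗ[K] Y.X), IsOpHom Q Y φ → IsOpHom Q Y ψ →
    (∀ v, φ (inc v) = ψ (inc v)) → φ = ψ
  lift : ∀ (Y : FMod K (Fin 6)), IsSObj Y → ∀ (j : ℤ) (φ : V →ₗ[K] Y.X), (∀ v, φ v ∈ Y.Fil j) →
    ∃ Φ ∈ FHom (Q.shift j) Y, ∀ v, Φ (inc v) = φ v

section

variable {K : Type u} [Field K]

theorem IsFree.isGen {U : FMod K (Fin 6)} {inU : K →ₗ[K] U.X} (hU : IsFree U inU) :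
    IsGen U (inU 1) := by
  intro Y φ ψ hφ hψ h
  refine hU.ext Y φ ψ hφ hψ fun c => ?_
  have hc : inU c = c • inU 1 := by rw [← map_smul]; simp
  rw [hc, map_smul, map_smul, h]

theorem IsFree.isUniv {U : FMod K (Fin 6)} {inU : K →ₗ[K] U.X} (hU : IsFree U inU)
    {X : FMod K (Fin 6)} (hX : IsSObj X) : IsUniv U (inU 1) X := by
  intro j x hx
  obtain ⟨Φ, hΦ, h⟩ := hU.lift X hX j (LinearMap.toSpanSingleton K X.X x) (fun v => by
    simpa only [LinearMap.toSpanSingleton_apply] using (X.Fil j).smul_mem v hx)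
  exact ⟨Φ, hΦ, by rw [h]; simp only [LinearMap.toSpanSingleton_apply, one_smul]⟩

end

section

open Vale.Agent.P176.HMod

variable {K : Type u} [Field K]

/-- The windows of the free objects: projective, with the right `Hom` into the test module. -/
theorem good_zero_of_free {U : FMod K (Fin 6)} {inU : K →ₗ[K] U.X} (hU : IsFree U inU)
    {V : Type u} [AddCommGroup V] [Module K V] [Module.Finite K V] [Nontrivial V]
    {Q : FMod K (Fin 6)} {inQ : V →ₗ[K] Q.X} (hQ : IsFree Q inQ) {j : ℕ} (hj : j ≤ 4) :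
    Good (WAlg (PU U)) (Win (PU U) (T4 K)) (Win (PU U) (Q.shift j)) 0 j := by
  let bas := Module.finBasis K V
  have hpos : 0 < Module.finrank K V := Module.finrank_pos
  choose a ha ha1 using fun k => hU.lift (Q.shift j) (hQ.obj.shift j) j
    (LinearMap.toSpanSingleton K (Q.shift j).X (inQ (bas k))) (fun c => by
      refine (Submodule.smul_mem _ c ?_)
      have h1 := hQ.mem (bas k)
      change inQ (bas k) ∈ Q.Fil ((j : ℤ) - j)
      simpa using h1)
  choose b hb hb1 using fun k => hQ.lift (U.shift j) (hU.obj.shift j) j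
    (inU ∘ₗ bas.coord k) (fun c => by
      have h1 := hU.mem (bas.coord k c)
      change inU (bas.coord k c) ∈ U.Fil ((j : ℤ) - j)
      simpa using h1)
  have hsum : (∑ k, a k ∘ₗ b k : Q.X →ₗ[K] Q.X) = LinearMap.id := by
    refine hQ.ext Q _ _ ?_ (FHom.id Q).1 fun v => ?_
    · have h1 : (∑ k, a k ∘ₗ b k) ∈ FHom (Q.shift j) (Q.shift j) :=
        (FHom (Q.shift j) (Q.shift j)).sum_mem fun k _ => FHom.comp (ha k) (hb k)
      exact h1.1
    · rw [LinearMap.sum_apply]
      have h1 : ∀ k, (a k ∘ₗ b k) (inQ v) = bas.coord k v • inQ (bas k) := by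
        intro k
        rw [LinearMap.comp_apply, hb1]
        exact ha1 k _
      rw [Finset.sum_congr rfl fun k _ => h1 k]
      have h2 : ∑ k, bas.coord k v • inQ (bas k) = inQ (∑ k, bas.coord k v • bas k) := by
        rw [map_sum]
        exact Finset.sum_congr rfl fun k _ => (map_smul _ _ _).symm
      rw [h2]
      exact congrArg inQ (bas.sum_repr v)
  refine good_zero (one := inU 1) (hU.mem 1) hU.isGen (hU.isUniv (isSObj_T4 K)) (Q.shift j) hj
    a b ha hb (fun x => ?_) ⟨0, hpos⟩ ?_
  · have := LinearMap.congr_fun hsum x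
    rw [LinearMap.sum_apply] at this
    exact this
  · have h1 : a ⟨0, hpos⟩ (inU 1) = inQ (bas ⟨0, hpos⟩) := by
      rw [ha1]; simp only [LinearMap.toSpanSingleton_apply, one_smul]
    rw [h1, hb1]
    simp only [LinearMap.coe_comp, Function.comp_apply, Module.Basis.coord_apply, Module.Basis.repr_self, Finsupp.single_eq_same]

end

end Vale.Agent.P176
end
end

section

section

/-!
# P176: `X3 (C0 V)` is the free filtered `S`-module on `V`
-/

namespace Vale.Agent.P176

open Finsupp

namespace UnivS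

/-- Shortcut for instance search. -/
noncomputable local instance instC0 {V : Type*} [AddCommGroup V] : AddCommGroup (C0 V) :=
  Finsupp.instAddCommGroup

/-- Shortcut for instance search. -/
noncomputable local instance instC0Mod {K V : Type*} [Field K] [AddCommGroup V] [Module K V] :
    Module K (C0 V) :=
  Finsupp.module _ _

section

variable {K : Type*} [Field K]
variable {V W Y : Type*} [AddCommGroup V] [Module K V] [AddCommGroup W] [Module K W]
  [AddCommGroup Y] [Module K Y]

lemma prod_finite {A : Submodule K W} {B : Submodule K Y} (hA : Module.Finite K A)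
    (hB : Module.Finite K B) : Module.Finite K (A.prod B) := by
  let g : A.prod B →ₗ[K] A × B :=
    { toFun := fun p => (⟨p.1.1, p.2.1⟩, ⟨p.1.2, p.2.2⟩)
      map_add' := fun p q => rfl
      map_smul' := fun r p => rfl }
  refine Module.Finite.of_injective g ?_
  intro p q hpq
  have h1 := congrArg (fun z => (z.1 : W)) hpq
  have h2 := congrArg (fun z => (z.2 : Y)) hpq
  exact Subtype.ext (Prod.ext h1 h2)

lemma x3Fil_finite {F : ℤ → Submodule K W} {i₀ : ℤ} (h0 : ∀ i < i₀, F i = ⊥)
    (h : ∀ i, Module.Finite K (F i)) (i : ℤ) : Module.Finite K (x3Fil F i) := by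
  have h1 : Module.Finite K (polyFil F i) := filP_finite h0 h i
  exact prod_finite h1 (prod_finite (h _) (h _))

/-- `C0 V` with the spelled-out type. -/
lemma isSl2_C0 : IsSl2 (R := Module.End K (C0 V)) (C0.opE K V) (C0.opF K V) (C0.opH K V) :=
  isSl_iff.1 C0.isSl

lemma isFilSl2_C0 :
    IsFilSl2 (W := C0 V) (C0.fil K V) (C0.opE K V) (C0.opF K V) (C0.opH K V) :=
  ⟨C0.fil_mono, C0.raises_E, C0.raises_F, C0.raises_H⟩

end

universe u

variable (K V : Type u) [Field K] [AddCommGroup V] [Module K V]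

/-- The object `X3 (C0 V)`. -/
noncomputable abbrev obj : FMod K (Fin 6) :=
  x3Obj (W := C0 V) (C0.opE K V) (C0.opF K V) (C0.opH K V) (C0.fil K V)

/-- The generators of `X3 (C0 V)`. -/
noncomputable def inc : V →ₗ[K] X3 (C0 V) :=
  (LinearMap.inl K (ℕ →₀ C0 V) (C0 V × C0 V)).comp
    ((Finsupp.lsingle (M := C0 V) 0).comp (C0.incl K V))

lemma inc_apply (v : V) : inc K V v = (single 0 (C0.incl K V v), 0) := rfl

/-- `X3 (C0 V)` is free on `V`. -/
theorem isFree : IsFree (obj K V) (inc K V) where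
  obj := isSObj_x3Obj (W := C0 V) isSl2_C0 isFilSl2_C0
  mem := by
    intro v
    refine ⟨single_mem_polyFil ?_, Submodule.zero_mem _⟩
    simpa only [CharP.cast_eq_zero, sub_self] using C0.incl_mem (K := K) v
  ext := by
    intro Y Φ Ψ hΦ hΨ h
    refine x3Obj_hom_ext (W := C0 V) hΦ hΨ fun w => ?_
    have key : ∀ Φ : (obj K V).X →ₗ[K] Y.X, IsOpHom (obj K V) Y Φ →
        HomSl2 (Φ.comp ((LinearMap.inl K (ℕ →₀ C0 V) (C0 V × C0 V)).comp
          (Finsupp.lsingle (M := C0 V) 0)))
          (C0.opE K V) (C0.opF K V) (C0.opH K V) (Y.op 0) (Y.op 1) (Y.op 2) := by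
      intro Φ hΦ
      refine ⟨fun x => ?_, fun x => ?_, fun x => ?_⟩
      · have := hΦ 0 (single 0 x, 0)
        have h1 : x3e (C0.opE K V) (single 0 x, 0) = (single 0 (C0.opE K V x), 0) := by
          rw [x3e_apply, polyMap_single, map_zero]
        change Φ (x3e (C0.opE K V) (single 0 x, 0)) = _ at this
        rw [h1] at this
        exact this
      · have := hΦ 1 (single 0 x, 0)
        have h1 : x3f (C0.opF K V) (single 0 x, 0) = (single 0 (C0.opF K V x), 0) := by
          rw [x3f_apply, polyMap_single, map_zero]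
        change Φ (x3f (C0.opF K V) (single 0 x, 0)) = _ at this
        rw [h1] at this
        exact this
      · have := hΦ 2 (single 0 x, 0)
        have h1 : x3h (C0.opH K V) (single 0 x, 0) = (single 0 (C0.opH K V x), 0) := by
          rw [x3h_apply, polyMap_single, map_zero]
        change Φ (x3h (C0.opH K V) (single 0 x, 0)) = _ at this
        rw [h1] at this
        exact this
    have k1 := key Φ hΦ
    have k2 := key Ψ hΨ
    exact LinearMap.congr_fun (C0.hom_ext k1.e k2.e k1.f k2.f k1.h k2.h h) w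
  lift := by
    intro Y hY j φ hφ
    have hrel := isSl_iff.2 hY.rel.toIsSl2
    refine ⟨x3lift (Y.op 3) (Y.op 4) (Y.op 5) (C0.lift (Y.op 0) (Y.op 1) (Y.op 2) φ),
      x3lift_mem_FHom (W := C0 V) hY ⟨C0.lift_E hrel φ, C0.lift_F _ _ _ φ, C0.lift_H hrel φ⟩
        (fun i w hw => C0.lift_mem hY.fil.e hY.fil.f hY.fil.h hY.fil.mono hφ hw), fun v => ?_⟩
    rw [inc_apply]
    exact (x3lift_single_zero _ _ _ _ _).trans (C0.lift_incl _ _ _ _ _)

/-- The levels of `X3 (C0 V)` are finite-dimensional. -/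
theorem fil_finite [Module.Finite K V] (i : ℤ) : Module.Finite K ((obj K V).Fil i) :=
  x3Fil_finite (W := C0 V) (i₀ := 0) (fun _ hi => C0.fil_eq_bot hi) C0.fil_finite i

end UnivS

end Vale.Agent.P176
end
end

section

section

/-!
# P176: the chain `C₀, C₁, C₂, C₃` of filtered `sl₂`-modules

For a vector space `W`:
* `C₂(W)` (`W` with operators `e, h`): `ℕ →₀ W` with operators `eP e h`, `sh`, `hP (-2) h`,
  filtration `filP F`;
* `C₁(W)` (`W` with operator `h`): `C₂` of (`ℕ →₀ W`, `sh`, `hP 2 h`), filtration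
  `filP (filP F)`;
* `C₀(W)` : `C₁` of (`ℕ →₀ W`, `sh`), see `Univ.lean`.
-/

namespace Vale.Agent.P176

open Finsupp

variable {K : Type*} [Field K]
variable {W W' W'' : Type*} [AddCommGroup W] [Module K W] [AddCommGroup W'] [Module K W']
  [AddCommGroup W''] [Module K W'']

/-- Conversion of the two notions of levelwise exactness. -/
theorem FilShort.levExact {F₁ : ℤ → Submodule K W} {F₂ : ℤ → Submodule K W'}
    {F₃ : ℤ → Submodule K W''} {f : W →ₗ[K] W'} {g : W' →ₗ[K] W''}
    (H : FilShort F₁ F₂ F₃ f g) : LevExact F₁ F₂ F₃ f g :=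
  ⟨H.inj, H.comp, H.map₁, H.map₂, H.exact, H.surj⟩

/-- The operator `e` of `C₁(W)`. -/
noncomputable abbrev c1e (h : W →ₗ[K] W) : (ℕ →₀ ℕ →₀ W) →ₗ[K] (ℕ →₀ ℕ →₀ W) :=
  eP sh (hP 2 h)

/-- The operator `h` of `C₁(W)`. -/
noncomputable abbrev c1h (h : W →ₗ[K] W) : (ℕ →₀ ℕ →₀ W) →ₗ[K] (ℕ →₀ ℕ →₀ W) :=
  hP (-2) (hP 2 h)

/-! ### Relations and filtrations -/

theorem isB_twist (c : K) {e h : W →ₗ[K] W} (H : IsB e h) :
    IsB e (h + c • LinearMap.id) := by
  refine ⟨fun w => ?_⟩
  simp only [LinearMap.add_apply, H.he, LinearMap.smul_apply, LinearMap.id_apply, map_add, map_smul]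
  abel

theorem raises_twist (c : K) {F : ℤ → Submodule K W} (hF : Monotone F) {h : W →ₗ[K] W}
    (H : Raises F h) : Raises F (h + c • LinearMap.id) := by
  intro i w hw
  simp only [LinearMap.add_apply, LinearMap.smul_apply, LinearMap.id_apply]
  exact Submodule.add_mem _ (H i w hw) (Submodule.smul_mem _ _ (hF (by omega) hw))

theorem isSl_c2 {e h : W →ₗ[K] W} (H : IsB e h) :
    IsSl (eP e h) (sh : (ℕ →₀ W) →ₗ[K] (ℕ →₀ W)) (hP (-2) h) :=
  isSl_indF H

theorem isSl_c1 (h : W →ₗ[K] W) :
    IsSl (c1e h) (sh : (ℕ →₀ ℕ →₀ W) →ₗ[K] (ℕ →₀ ℕ →₀ W)) (c1h h) :=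
  isSl_c2 (isB_indE h)

/-! ### The sequence `0 → C₂(W^{tw})(-1) → C₂(W) → W → 0` -/

section S2

variable {e f h : W →ₗ[K] W} {F : ℤ → Submodule K W}

theorem levExact_s2 (hf : Raises F f) :
    LevExact (shiftFil (filP F) 1) (filP F) F (kap f) (evP f) :=
  (filShort_kap hf).levExact

theorem homSl2_kap_s2 (H : IsSl e f h) :
    HomSl2 (kap f) (eP e (h + (-2 : K) • LinearMap.id)) sh
      (hP (-2) (h + (-2 : K) • LinearMap.id)) (eP e h) sh (hP (-2) h) where
  e := kap_eP H
  f := kap_sh f
  h := kap_hP (-2) fun w => by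
    rw [H.hf w]
    module

theorem homSl2_ev_s2 (H : IsSl e f h) :
    HomSl2 (evP f) (eP e h) sh (hP (-2) h) e f h where
  e := evP_eP H
  f := evP_sh f
  h := evP_hP (-2) fun w => by
    rw [H.hf w]
    module

end S2

/-! ### The sequence `0 → C₁(W^{tw})(-1) → C₁(W) → C₂(W) → 0` -/

section S1

variable {e h : W →ₗ[K] W} {F : ℤ → Submodule K W}

theorem levExact_s1 (he : Raises F e) :
    LevExact (shiftFil (filP (filP F)) 1) (filP (filP F)) (filP F)
      (mapP (kap e)) (mapP (evP e)) := by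
  have h1 := (filShort_kap he).mapP.levExact
  have h2 : filP (fun i => filP F (i - 1)) = shiftFil (filP (filP F)) 1 :=
    polyFil_shiftFil (filP F) 1
  rwa [h2] at h1

theorem homSl2_kap_s1 (H : IsB e h) :
    HomSl2 (mapP (kap e)) (c1e (h + (2 : K) • LinearMap.id)) sh
      (c1h (h + (2 : K) • LinearMap.id)) (c1e h) sh (c1h h) where
  e := mapP_eP (kap_sh e) (kap_hP 2 H.he)
  f := mapP_sh _
  h := mapP_hP _ (kap_hP 2 H.he)

theorem homSl2_ev_s1 (H : IsB e h) :
    HomSl2 (mapP (evP e)) (c1e h) sh (c1h h) (eP e h) sh (hP (-2) h) where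
  e := mapP_eP (evP_sh e) (evP_hP 2 H.he)
  f := mapP_sh _
  h := mapP_hP _ (evP_hP 2 H.he)

end S1

/-! ### The sequence `0 → C₀(W)(-1) → C₀(W) → C₁(W) → 0` -/

section S0

variable {h : W →ₗ[K] W}

/-- The filtration of `C₀(W)` for a general filtration `F` of `W`. -/
noncomputable def c0Fil (F : ℤ → Submodule K W) : ℤ → Submodule K (C0 W) :=
  filP (filP (filP F))

/-- The map `κ` of `C₀`. -/
noncomputable def c0kap (h : W →ₗ[K] W) : C0 W →ₗ[K] C0 W := mapP (mapP (kap h))

/-- The map `C₀(W) → C₁(W)`. -/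
noncomputable def c0ev (h : W →ₗ[K] W) : C0 W →ₗ[K] (ℕ →₀ ℕ →₀ W) := mapP (mapP (evP h))

theorem levExact_s0 {F : ℤ → Submodule K W} (hh : Raises F h) :
    LevExact (W' := C0 W) (W := C0 W) (W'' := ℕ →₀ ℕ →₀ W) (shiftFil (c0Fil F) 1) (c0Fil F)
      (filP (filP F)) (c0kap h) (c0ev h) := by
  have h1 := (filShort_kap hh).mapP.mapP.levExact
  have h2 : filP (fun i => filP F (i - 1)) = shiftFil (filP (filP F)) 1 :=
    polyFil_shiftFil (filP F) 1
  have h3 : filP (shiftFil (filP (filP F)) 1) = shiftFil (filP (filP (filP F))) 1 :=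
    polyFil_shiftFil (filP (filP F)) 1
  rwa [h2, h3] at h1

variable (h)

theorem homSl2_kap_s0 :
    HomSl2 (W := C0 W) (W' := C0 W) (c0kap h) (C0.opE K W) (C0.opF K W) (C0.opH K W)
      (C0.opE K W) (C0.opF K W) (C0.opH K W) where
  e := mapP_eP (mapP_sh _) (mapP_hP _ (kap_sh h))
  f := mapP_sh _
  h := mapP_hP _ (mapP_hP _ (kap_sh h))

theorem homSl2_ev_s0 :
    HomSl2 (W := C0 W) (c0ev h) (C0.opE K W) (C0.opF K W) (C0.opH K W)
      (c1e h) sh (c1h h) where
  e := mapP_eP (mapP_sh _) (mapP_hP _ (evP_sh h))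
  f := mapP_sh _
  h := mapP_hP _ (mapP_hP _ (evP_sh h))

end S0

end Vale.Agent.P176
end
end

section

section

/-!
# P176: the ladder

Short exact sequences of windows of the objects `X3(C_r(W))(-j)` and the resulting bounds on
projective dimensions and extension groups.
-/

namespace Vale.Agent.P176

open Vale.Agent.P176.HMod

universe u

variable {K : Type u} [Field K]
variable {U : FMod K (Fin 6)} {one : U.X}

/-- Short exact sequence of windows from a levelwise exact sequence of objects. -/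
theorem ses_win (h0 : one ∈ U.Fil 0) (hU : IsGen U one)
    (hUniv : ∀ X : FMod K (Fin 6), IsSObj X → IsUniv U one X)
    {X Y Z : FMod K (Fin 6)} (hX : IsSObj X) (hY : IsSObj Y)
    {f : X.X →ₗ[K] Y.X} (hf : f ∈ FHom X Y) {g : Y.X →ₗ[K] Z.X} (hg : g ∈ FHom Y Z)
    (inj : Function.Injective f) (comp : ∀ x, g (f x) = 0)
    (exact : ∀ i : ℤ, ∀ y ∈ Y.Fil i, g y = 0 → ∃ x ∈ X.Fil i, f x = y)
    (surj : ∀ i : ℤ, ∀ z ∈ Z.Fil i, ∃ y ∈ Y.Fil i, g y = z) :
    SES (Win.map (PU U) f hf) (Win.map (PU U) g hg) where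
  inj := Win.map_injective h0 hU f hf fun _ x _ hx => inj (by rw [hx, map_zero])
  exact := Win.map_exact h0 hU (hUniv X hX) f hf g hg (fun _ x _ => comp x)
    fun j y hy => exact _ y hy
  surj := Win.map_surjective h0 hU (hUniv Y hY) g hg fun j z hz => surj _ z hz

/-- One step of the ladder for `X3` objects. -/
theorem good_x3_step (h0 : one ∈ U.Fil 0) (hU : IsGen U one)
    (hUniv : ∀ X : FMod K (Fin 6), IsSObj X → IsUniv U one X)
    {W₁ W₂ W₃ : Type u} [AddCommGroup W₁] [Module K W₁] [AddCommGroup W₂] [Module K W₂]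
    [AddCommGroup W₃] [Module K W₃]
    {E₁ F₁ H₁ : Module.End K W₁} {E₂ F₂ H₂ : Module.End K W₂} {E₃ F₃ H₃ : Module.End K W₃}
    {Fil₁ : ℤ → Submodule K W₁} {Fil₂ : ℤ → Submodule K W₂} {Fil₃ : ℤ → Submodule K W₃}
    {a : W₁ →ₗ[K] W₂} {b : W₂ →ₗ[K] W₃}
    (L : LevExact (shiftFil Fil₁ 1) Fil₂ Fil₃ a b)
    (ha : HomSl2 a E₁ F₁ H₁ E₂ F₂ H₂) (hb : HomSl2 b E₂ F₂ H₂ E₃ F₃ H₃)
    (h₁ : IsSl2 E₁ F₁ H₁) (hF₁ : IsFilSl2 Fil₁ E₁ F₁ H₁)
    (h₂ : IsSl2 E₂ F₂ H₂) (hF₂ : IsFilSl2 Fil₂ E₂ F₂ H₂) {S : FMod K (Fin 6)} {r j : ℕ}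
    (G₁ : Good (WAlg (PU U)) (Win (PU U) S)
      (Win (PU U) ((x3Obj E₁ F₁ H₁ Fil₁).shift ((j + 1 : ℕ) : ℤ))) r (j + 1))
    (G₂ : Good (WAlg (PU U)) (Win (PU U) S)
      (Win (PU U) ((x3Obj E₂ F₂ H₂ Fil₂).shift (j : ℤ))) r j) :
    Good (WAlg (PU U)) (Win (PU U) S)
      (Win (PU U) ((x3Obj E₃ F₃ H₃ Fil₃).shift (j : ℤ))) (r + 1) j := by
  have L3 := L.x3
  rw [x3Fil_shiftFil] at L3
  have hsh : ∀ i : ℤ, i - ((j + 1 : ℕ) : ℤ) = i - (j : ℤ) - 1 := fun i => by
    push_cast; ring
  have hX : IsSObj ((x3Obj E₁ F₁ H₁ Fil₁).shift ((j + 1 : ℕ) : ℤ)) :=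
    (isSObj_x3Obj h₁ hF₁).shift _
  have hY : IsSObj ((x3Obj E₂ F₂ H₂ Fil₂).shift (j : ℤ)) := (isSObj_x3Obj h₂ hF₂).shift _
  have hf : x3map a ∈ FHom ((x3Obj E₁ F₁ H₁ Fil₁).shift ((j + 1 : ℕ) : ℤ))
      ((x3Obj E₂ F₂ H₂ Fil₂).shift (j : ℤ)) := by
    have h := homS_x3map ha
    refine ⟨fun s x => ?_, fun i x hx => ?_⟩
    · fin_cases s
      · exact h.e x
      · exact h.f x
      · exact h.h x
      · exact h.l x
      · exact h.v1 x
      · exact h.v2 x
    · have h2 : x ∈ x3Fil Fil₁ (i - ((j + 1 : ℕ) : ℤ)) := hx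
      rw [hsh] at h2
      exact L3.filA (i - j) x h2
  have hg : x3map b ∈ FHom ((x3Obj E₂ F₂ H₂ Fil₂).shift (j : ℤ))
      ((x3Obj E₃ F₃ H₃ Fil₃).shift (j : ℤ)) := by
    have h := homS_x3map hb
    refine ⟨fun s x => ?_, fun i x hx => ?_⟩
    · fin_cases s
      · exact h.e x
      · exact h.f x
      · exact h.h x
      · exact h.l x
      · exact h.v1 x
      · exact h.v2 x
    · exact L3.filB (i - j) x hx
  refine Good.step (ses_win h0 hU hUniv hX hY hf hg L3.inj L3.comp ?_ ?_) G₁ G₂
  · intro i y hy hy0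
    obtain ⟨x, hx, hxy⟩ := L3.exact (i - j) y hy hy0
    refine ⟨x, ?_, hxy⟩
    change x ∈ x3Fil Fil₁ (i - ((j + 1 : ℕ) : ℤ))
    rw [hsh]
    exact hx
  · intro i z hz
    exact L3.surj (i - j) z hz

section Ladder

variable (h0 : one ∈ U.Fil 0) (hU : IsGen U one)
  (hUniv : ∀ X : FMod K (Fin 6), IsSObj X → IsUniv U one X)
  {W : Type u} [AddCommGroup W] [Module K W] {S : FMod K (Fin 6)}
  (start : ∀ j : ℕ, j ≤ 4 → Good (WAlg (PU U)) (Win (PU U) S)
    (Win (PU U) ((x3Obj (W := C0 W) (C0.opE K W) (C0.opF K W) (C0.opH K W) (C0.fil K W)).shift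
      (j : ℤ))) 0 j)

include h0 hU hUniv start

theorem good_one (h : Module.End K W) (hh : Raises (fil0 K W) h) {j : ℕ} (hj : j ≤ 3) :
    Good (WAlg (PU U)) (Win (PU U) S)
      (Win (PU U) ((x3Obj (W := ℕ →₀ ℕ →₀ W) (c1e h) sh (c1h h) (filP (filP (fil0 K W)))).shift
        (j : ℤ))) 1 j := by
  have hF : IsFilSl2 (W := C0 W) (C0.fil K W) (C0.opE K W) (C0.opF K W) (C0.opH K W) :=
    ⟨C0.fil_mono, C0.raises_E, C0.raises_F, C0.raises_H⟩
  have hS := (isSl_iff (W := C0 W) (e := C0.opE K W) (f := C0.opF K W) (h := C0.opH K W)).1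
    C0.isSl
  exact good_x3_step h0 hU hUniv (levExact_s0 hh) (homSl2_kap_s0 h) (homSl2_ev_s0 h)
    hS hF hS hF (start (j + 1) (by omega)) (start j (by omega))

theorem good_two {e h : Module.End K W} (H : IsB e h) (he : Raises (fil0 K W) e)
    (hh : Raises (fil0 K W) h) {j : ℕ} (hj : j ≤ 2) :
    Good (WAlg (PU U)) (Win (PU U) S)
      (Win (PU U) ((x3Obj (W := ℕ →₀ W) (eP e h) sh (hP (-2) h) (filP (fil0 K W))).shift
        (j : ℤ))) 2 j := by
  have hF : ∀ h' : Module.End K W, Raises (fil0 K W) h' →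
      IsFilSl2 (W := ℕ →₀ ℕ →₀ W) (filP (filP (fil0 K W))) (c1e h') sh (c1h h') := fun h' hh' =>
    ⟨filP_mono (filP_mono fil0_mono),
      eP_raises (filP_mono fil0_mono) (sh_raises _) (hP_raises fil0_mono _ hh'),
      sh_raises _, hP_raises (filP_mono fil0_mono) _ (hP_raises fil0_mono _ hh')⟩
  have hh2 := raises_twist (2 : K) fil0_mono hh
  exact good_x3_step h0 hU hUniv (levExact_s1 he) (homSl2_kap_s1 H) (homSl2_ev_s1 H)
    (isSl_iff.1 (isSl_c1 _)) (hF _ hh2) (isSl_iff.1 (isSl_c1 _)) (hF _ hh)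
    (good_one h0 hU hUniv start _ hh2 (by omega)) (good_one h0 hU hUniv start _ hh (by omega))

/-- The ladder: `G_3^{(j)}(W)` for a filtered `sl₂`-module `W` (filtration `fil0`). -/
theorem good_three {e f h : Module.End K W} (H : IsSl2 e f h) (hF : IsFilSl2 (fil0 K W) e f h)
    {j : ℕ} (hj : j ≤ 1) :
    Good (WAlg (PU U)) (Win (PU U) S)
      (Win (PU U) ((x3Obj e f h (fil0 K W)).shift (j : ℤ))) 3 j := by
  have H' : IsSl e f h := isSl_iff.2 H
  have hF2 : ∀ h' : Module.End K W, Raises (fil0 K W) h' →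
      IsFilSl2 (W := ℕ →₀ W) (filP (fil0 K W)) (eP e h') sh (hP (-2) h') := fun h' hh' =>
    ⟨filP_mono fil0_mono, eP_raises fil0_mono hF.e hh', sh_raises _, hP_raises fil0_mono _ hh'⟩
  have hh2 := raises_twist (-2 : K) fil0_mono hF.h
  exact good_x3_step h0 hU hUniv (levExact_s2 hF.f) (homSl2_kap_s2 H') (homSl2_ev_s2 H')
    (isSl_iff.1 (isSl_c2 (isB_twist _ H'.toIsB))) (hF2 _ hh2)
    (isSl_iff.1 (isSl_c2 H'.toIsB)) (hF2 _ hF.h)
    (good_two h0 hU hUniv start (isB_twist _ H'.toIsB) hF.e hh2 (by omega))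
    (good_two h0 hU hUniv start H'.toIsB hF.e hF.h (by omega))

end Ladder

end Vale.Agent.P176
end
end

section

section

/-!
# P176: the modules `X3(W)` and `X3(W)(-1)` for finite-dimensional `sl₂`-modules `W`
-/

namespace Vale.Agent.P176

open Vale.Agent.P176.HMod

universe u

/-- Every operator raises the trivial filtration by one. -/
theorem UnivS.fil0_raises {K W : Type*} [Field K] [AddCommGroup W] [Module K W]
    (T : W →ₗ[K] W) : FilDeg (fil0 K W) (fil0 K W) 1 T := by
  intro i w hw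
  by_cases hi : 0 ≤ i
  · rw [fil0_of_nonneg (by omega)]; trivial
  · rw [fil0_of_neg (by omega)] at hw
    rw [(Submodule.mem_bot K).1 hw, map_zero]
    exact Submodule.zero_mem _

/-- The trivial filtration is compatible with all operators. -/
theorem UnivS.isFilSl2_fil0 {K W : Type*} [Field K] [AddCommGroup W] [Module K W]
    (e f h : Module.End K W) : IsFilSl2 (fil0 K W) e f h :=
  ⟨fil0_mono, UnivS.fil0_raises e, UnivS.fil0_raises f, UnivS.fil0_raises h⟩

variable {K : Type u} [Field K]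

/-- `Good 0 j` for `X3 (C0 W)`. -/
theorem good_start {W : Type u} [AddCommGroup W] [Module K W] [Module.Finite K W] [Nontrivial W]
    (j : ℕ) (hj : j ≤ 4) :
    Good (WAlg (PU (UnivS.obj K K))) (Win (PU (UnivS.obj K K)) (T4 K))
      (Win (PU (UnivS.obj K K)) ((x3Obj (W := C0 W) (C0.opE K W) (C0.opF K W) (C0.opH K W)
        (C0.fil K W)).shift (j : ℤ))) 0 j :=
  good_zero_of_free (UnivS.isFree K K) (UnivS.isFree K W) hj

/-- `Good 3 j` for the objects `X3 W`, `W` a finite-dimensional nonzero `sl₂`-module. -/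
theorem good_final {W : Type u} [AddCommGroup W] [Module K W] [Module.Finite K W] [Nontrivial W]
    {e f h : Module.End K W} (H : IsSl2 e f h) {j : ℕ} (hj : j ≤ 1) :
    Good (WAlg (PU (UnivS.obj K K))) (Win (PU (UnivS.obj K K)) (T4 K))
      (Win (PU (UnivS.obj K K)) ((x3Obj e f h (fil0 K W)).shift (j : ℤ))) 3 j :=
  good_three ((UnivS.isFree K K).mem 1) (UnivS.isFree K K).isGen
    (fun _ hX => (UnivS.isFree K K).isUniv hX) good_start H (UnivS.isFilSl2_fil0 e f h) hj

end Vale.Agent.P176
end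
end

section

section

/-! From modules of growing projective dimension to the infinite finitistic dimension. -/

namespace Vale.Agent.P176

open CategoryTheory HMod

universe u

/-- If there are finitely generated modules of arbitrarily large finite projective dimension then
the little finitistic dimension is infinite. -/
theorem findim_eq_top {A : Type u} [Ring A]
    (h : ∀ p : ℕ, ∃ (M : Type u) (_ : AddCommGroup M) (_ : Module A M) (q : ℕ),
      Module.Finite A M ∧ p ≤ q ∧ PdLT A M (q + 1) ∧ ¬ PdLT A M q) : findim A = ⊤ := by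
  by_contra hne
  have hlt : ∃ p : ℕ, findim A ≤ p := by
    generalize findim A = d at hne
    induction d with
    | bot => exact ⟨0, bot_le⟩
    | coe d =>
      induction d with
      | top => exact absurd rfl hne
      | coe d => exact ⟨d, le_rfl⟩
  obtain ⟨p, hp⟩ := hlt
  obtain ⟨M, _, _, q, hfin, hpq, h1, h2⟩ := h (p + 1)
  have h3 : projectiveDimension (ModuleCat.of A M) ≠ ⊤ := by
    rw [projectiveDimension_ne_top_iff]
    exact ⟨q, h1⟩
  have h4 : (q : WithBot ℕ∞) ≤ projectiveDimension (ModuleCat.of A M) := by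
    rw [projectiveDimension_ge_iff]
    exact h2
  have h5 : projectiveDimension (ModuleCat.of A M) ≤ findim A := by
    unfold findim
    refine le_iSup_of_le (ModuleCat.of A M) (le_iSup_of_le ?_ (le_iSup_of_le h3 le_rfl))
    exact hfin
  have h6 : (q : WithBot ℕ∞) ≤ (p : WithBot ℕ∞) := (h4.trans h5).trans hp
  have h7 : q ≤ p := by exact_mod_cast h6
  omega

end Vale.Agent.P176
end
end

section

section

/-!
# P176: assembly of the counterexample from the level-wise exact sequences
-/

namespace Vale.Agent.P176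

open Vale.Agent.P176.HMod

universe u

section

variable {K : Type u} [Field K]

theorem FMod.shift_zero {ι : Type} (Q : FMod K ι) : Q.shift 0 = Q := by
  have h : (fun i : ℤ => Q.Fil (i - 0)) = Q.Fil := by
    funext i
    rw [sub_zero]
  unfold FMod.shift
  rw [h]

variable {U : FMod K (Fin 6)} {inU : K →ₗ[K] U.X}

/-- Short exact sequences of windows. -/
theorem ses_win_free (hU : IsFree U inU) {X Y Z : FMod K (Fin 6)} (hX : IsSObj X) (hY : IsSObj Y)
    {f : X.X →ₗ[K] Y.X} {g : Y.X →ₗ[K] Z.X} (hf : f ∈ FHom X Y) (hg : g ∈ FHom Y Z)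
    (hinj : ∀ j : Fin 5, ∀ x ∈ X.Fil (j : ℤ), f x = 0 → x = 0)
    (hgf : ∀ j : Fin 5, ∀ x ∈ X.Fil (j : ℤ), g (f x) = 0)
    (hex : ∀ j : Fin 5, ∀ y ∈ Y.Fil (j : ℤ), g y = 0 → ∃ x ∈ X.Fil (j : ℤ), f x = y)
    (hsurj : ∀ j : Fin 5, ∀ z ∈ Z.Fil (j : ℤ), ∃ y ∈ Y.Fil (j : ℤ), g y = z) :
    SES (Win.map (PU U) f hf) (Win.map (PU U) g hg) :=
  ⟨Win.map_injective (hU.mem 1) hU.isGen f hf hinj,
    Win.map_exact (hU.mem 1) hU.isGen (hU.isUniv hX) f hf g hg hgf hex,
    Win.map_surjective (hU.mem 1) hU.isGen (hU.isUniv hY) g hg hsurj⟩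

/-- The data of the tower of modules: four-term sequences `0 → F m → G m (-1) → G m → H m → 0` and
three-term sequences `0 → F m → H m → F (m+1) → 0`, exact on the levels `0, ..., 4`. -/
structure Tower (K : Type u) [Field K] where
  /-- the modules `M_m` with `l = m - 1` -/
  F : ℕ → FMod K (Fin 6)
  /-- the modules `X3 (M_{m+1})` -/
  G : ℕ → FMod K (Fin 6)
  /-- the modules `X_H` -/
  H : ℕ → FMod K (Fin 6)
  a : ∀ m, (F m).X →ₗ[K] (G m).X
  b : ∀ m, (G m).X →ₗ[K] (G m).X
  c : ∀ m, (G m).X →ₗ[K] (H m).X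
  d : ∀ m, (F m).X →ₗ[K] (H m).X
  e : ∀ m, (H m).X →ₗ[K] (F (m + 1)).X
  objF : ∀ m, IsSObj (F m)
  objG : ∀ m, IsSObj (G m)
  objH : ∀ m, IsSObj (H m)
  ha : ∀ m, a m ∈ FHom (F m) ((G m).shift 1)
  hb : ∀ m, b m ∈ FHom ((G m).shift 1) (G m)
  hc : ∀ m, c m ∈ FHom (G m) (H m)
  hd : ∀ m, d m ∈ FHom (F m) (H m)
  he : ∀ m, e m ∈ FHom (H m) (F (m + 1))
  a_inj : ∀ m, ∀ j : Fin 5, ∀ x ∈ (F m).Fil (j : ℤ), a m x = 0 → x = 0
  ba : ∀ m, ∀ j : Fin 5, ∀ x ∈ (F m).Fil (j : ℤ), b m (a m x) = 0
  ab_ex : ∀ m, ∀ j : Fin 5, ∀ y ∈ (G m).Fil ((j : ℤ) - 1), b m y = 0 →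
    ∃ x ∈ (F m).Fil (j : ℤ), a m x = y
  cb : ∀ m, ∀ j : Fin 5, ∀ x ∈ (G m).Fil ((j : ℤ) - 1), c m (b m x) = 0
  bc_ex : ∀ m, ∀ j : Fin 5, ∀ y ∈ (G m).Fil (j : ℤ), c m y = 0 →
    ∃ x ∈ (G m).Fil ((j : ℤ) - 1), b m x = y
  c_surj : ∀ m, ∀ j : Fin 5, ∀ z ∈ (H m).Fil (j : ℤ), ∃ y ∈ (G m).Fil (j : ℤ), c m y = z
  d_inj : ∀ m, ∀ j : Fin 5, ∀ x ∈ (F m).Fil (j : ℤ), d m x = 0 → x = 0
  ed : ∀ m, ∀ j : Fin 5, ∀ x ∈ (F m).Fil (j : ℤ), e m (d m x) = 0
  de_ex : ∀ m, ∀ j : Fin 5, ∀ y ∈ (H m).Fil (j : ℤ), e m y = 0 →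
    ∃ x ∈ (F m).Fil (j : ℤ), d m x = y
  e_surj : ∀ m, ∀ j : Fin 5, ∀ z ∈ (F (m + 1)).Fil (j : ℤ), ∃ y ∈ (H m).Fil (j : ℤ), e m y = z
  zero : Subsingleton (F 0).X
  fin : ∀ m, ∀ j : Fin 5, Module.Finite K ((F m).Fil (j : ℤ))

variable (T : Tower K)

/-- window of `a` -/
def Tower.wa (U : FMod K (Fin 6)) (m : ℕ) :
    Win (PU U) (T.F m) →ₗ[WAlg (PU U)] Win (PU U) ((T.G m).shift 1) :=
  Win.map (PU U) (Y := (T.G m).shift 1) (T.a m) (T.ha m)

/-- window of `b` -/
def Tower.wb (U : FMod K (Fin 6)) (m : ℕ) :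
    Win (PU U) ((T.G m).shift 1) →ₗ[WAlg (PU U)] Win (PU U) (T.G m) :=
  Win.map (PU U) (X := (T.G m).shift 1) (T.b m) (T.hb m)

/-- window of `c` -/
def Tower.wc (U : FMod K (Fin 6)) (m : ℕ) :
    Win (PU U) (T.G m) →ₗ[WAlg (PU U)] Win (PU U) (T.H m) :=
  Win.map (PU U) (T.c m) (T.hc m)

/-- window of `d` -/
def Tower.wd (U : FMod K (Fin 6)) (m : ℕ) :
    Win (PU U) (T.F m) →ₗ[WAlg (PU U)] Win (PU U) (T.H m) :=
  Win.map (PU U) (T.d m) (T.hd m)

/-- window of `e` -/
def Tower.we (U : FMod K (Fin 6)) (m : ℕ) :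
    Win (PU U) (T.H m) →ₗ[WAlg (PU U)] Win (PU U) (T.F (m + 1)) :=
  Win.map (PU U) (T.e m) (T.he m)

theorem Tower.wa_inj (hU : IsFree U inU) (m : ℕ) : Function.Injective (T.wa U m) :=
  Win.map_injective (Y := (T.G m).shift 1) (hU.mem 1) hU.isGen _ (T.ha m) (T.a_inj m)

theorem Tower.wab_exact (hU : IsFree U inU) (m : ℕ) : Function.Exact (T.wa U m) (T.wb U m) :=
  Win.map_exact (Y := (T.G m).shift 1) (hU.mem 1) hU.isGen (hU.isUniv (T.objF m)) _ (T.ha m) _
    (T.hb m) (T.ba m) (T.ab_ex m)

theorem Tower.wbc_exact (hU : IsFree U inU) (m : ℕ) : Function.Exact (T.wb U m) (T.wc U m) :=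
  Win.map_exact (X := (T.G m).shift 1) (hU.mem 1) hU.isGen (hU.isUniv ((T.objG m).shift 1)) _
    (T.hb m) _ (T.hc m) (T.cb m) (T.bc_ex m)

theorem Tower.wc_surj (hU : IsFree U inU) (m : ℕ) : Function.Surjective (T.wc U m) :=
  Win.map_surjective (hU.mem 1) hU.isGen (hU.isUniv (T.objG m)) _ (T.hc m) (T.c_surj m)

theorem Tower.wde_ses (hU : IsFree U inU) (m : ℕ) : SES (T.wd U m) (T.we U m) :=
  ses_win_free hU (T.objF m) (T.objH m) (T.hd m) (T.he m) (T.d_inj m) (T.ed m) (T.de_ex m)
    (T.e_surj m)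

theorem Tower.subsingleton (U : FMod K (Fin 6)) : Subsingleton (Win (PU U) (T.F 0)) := by
  have := T.zero
  refine ⟨fun x y => ?_⟩
  apply Win.ext'
  ext z
  exact Subsingleton.elim _ _

theorem Tower.ses_base (hU : IsFree U inU) : SES (T.wb U 0) (T.we U 0 ∘ₗ T.wc U 0) := by
  have hsub := T.subsingleton U
  have hinj : Function.Injective (T.wb U 0) := by
    rw [injective_iff_map_eq_zero]
    intro x hx
    obtain ⟨y, rfl⟩ := (T.wab_exact hU 0 x).1 hx
    rw [Subsingleton.elim y 0, map_zero]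
  have hinj2 : Function.Injective (T.we U 0) := by
    rw [injective_iff_map_eq_zero]
    intro x hx
    obtain ⟨y, rfl⟩ := ((T.wde_ses hU 0).exact x).1 hx
    rw [Subsingleton.elim y 0, map_zero]
  refine ⟨hinj, fun x => ?_, (T.wde_ses hU 0).surj.comp (T.wc_surj hU 0)⟩
  rw [← T.wbc_exact hU 0 x, LinearMap.comp_apply]
  constructor
  · intro h
    exact hinj2 (by rw [h, map_zero])
  · intro h
    rw [h, map_zero]

theorem Tower.pd (hU : IsFree U inU)
    (hG0 : ∀ m, Good (WAlg (PU U)) (Win (PU U) (T4 K)) (Win (PU U) ((T.G m).shift (0 : ℕ))) 3 0)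
    (hG1 : ∀ m, Good (WAlg (PU U)) (Win (PU U) (T4 K)) (Win (PU U) ((T.G m).shift (1 : ℕ))) 3 1)
    (m : ℕ) : PdLT (WAlg (PU U)) (Win (PU U) (T.F (m + 1))) (2 * m + 5) ∧
      ¬ PdLT (WAlg (PU U)) (Win (PU U) (T.F (m + 1))) (2 * m + 4) := by
  have hG0' : ∀ m, Good (WAlg (PU U)) (Win (PU U) (T4 K)) (Win (PU U) (T.G m)) 3 0 := by
    intro m
    have h := hG0 m
    rw [Nat.cast_zero, FMod.shift_zero] at h
    exact h
  have hG1' : ∀ m, Good (WAlg (PU U)) (Win (PU U) (T4 K)) (Win (PU U) ((T.G m).shift 1)) 3 1 := by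
    intro m
    have h := hG1 m
    rw [Nat.cast_one] at h
    exact h
  induction m with
  | zero => exact base_four (T.ses_base hU) (hG1' 0) (hG0' 0)
  | succ m ih =>
    exact growth (T.wa_inj hU (m + 1)) (T.wab_exact hU (m + 1)) (T.wbc_exact hU (m + 1))
      (T.wc_surj hU (m + 1)) (T.wde_ses hU (m + 1))
      (hG1' (m + 1)).pd (hG0' (m + 1)).pd (p := 2 * m + 4) (by omega) ih.1 ih.2

theorem Tower.findim_eq_top (hU : IsFree U inU)
    (hG0 : ∀ m, Good (WAlg (PU U)) (Win (PU U) (T4 K)) (Win (PU U) ((T.G m).shift (0 : ℕ))) 3 0)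
    (hG1 : ∀ m, Good (WAlg (PU U)) (Win (PU U) (T4 K)) (Win (PU U) ((T.G m).shift (1 : ℕ))) 3 1) :
    findim (WAlg (PU U)) = ⊤ := by
  refine Vale.Agent.P176.findim_eq_top fun p => ?_
  refine ⟨Win (PU U) (T.F (p + 1)), inferInstance, inferInstance, 2 * p + 4, ?_, by omega,
    (T.pd hU hG0 hG1 p).1, (T.pd hU hG0 hG1 p).2⟩
  exact Win.finite_walg (hU.mem 1) hU.isGen _ (T.fin (p + 1))

end

end Vale.Agent.P176
end
end

section

section

/-!
# P176: the tower of modules
-/

namespace Vale.Agent.P176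

open Vale.Agent.P176.Mm

universe u

variable (K : Type u) [Field K] [CharZero K]

theorem isStd_fil0 (V : Type u) [AddCommGroup V] [Module K V] : IsStd (fil0 K V) :=
  ⟨fun _ hi => fil0_of_nonneg hi, fun _ hi => fil0_of_neg hi⟩

theorem fourData (m : ℕ) : FourData (eM K (m + 1)) (fM K (m + 1)) (hM K (m + 1)) (eM K m)
    (fM K m) (hM K m) (iotaM K m) (dM K m) (m : K) where
  slW := isSl2_M (m + 1)
  slM := isSl2_M m
  homι := ⟨fun q => iotaM_eM q, fun q => iotaM_fM q, fun q => iotaM_hM q⟩
  homd := ⟨fun w => dM_vE w, fun w => dM_vF w, fun w => dM_vH w⟩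
  inj := iotaM_injective m
  surj := dM_surjective m
  Tι := fun q => vT_iotaM q
  dT := fun w => dM_vT w
  ker := fun w hw => exists_iotaM hw
  im := fun w hw => exists_vT_sub hw

/-- The tower. -/
noncomputable def mTower : Tower K where
  F m := flatObj (eM K m) (fM K m) (hM K m) ((m : K) - 1) (fil0 K (MM K m))
  G m := x3Obj (eM K (m + 1)) (fM K (m + 1)) (hM K (m + 1)) (fil0 K (MM K (m + 1)))
  H m := hObj (eM K (m + 1)) (fM K (m + 1)) (hM K (m + 1)) (eM K m) (fM K m) (hM K m) (dM K m)
    (m : K) (fil0 K (MM K (m + 1))) (fil0 K (MM K m))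
  a m := ftA (iotaM K m)
  b m := ftK (eM K (m + 1)) (fM K (m + 1)) (hM K (m + 1)) (m : K)
  c m := ftB (dM K m) (m : K)
  d m := htA K (MM K (m + 1)) (MM K m)
  e m := htB K (MM K (m + 1)) (MM K m)
  objF m := isSObj_flatObj (isSl2_M m) _ ((isStd_fil0 K _).isFilSl2 _ _ _)
  objG m := isSObj_x3Obj (isSl2_M (m + 1)) ((isStd_fil0 K _).isFilSl2 _ _ _)
  objH m := isSObj_hObj (fourData K m) (isStd_fil0 K _) (isStd_fil0 K _)
  ha m := ftA_mem (fourData K m) (isStd_fil0 K _) (isStd_fil0 K _)
  hb m := ftK_mem (fourData K m) (isStd_fil0 K _)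
  hc m := ftB_mem (fourData K m) (isStd_fil0 K _) (isStd_fil0 K _)
  hd m := htA_mem (fourData K m) (isStd_fil0 K _)
  he m := by
    have h := htB_mem (FW := fil0 K (MM K (m + 1))) (FM := fil0 K (MM K m)) (fourData K m)
    have h2 : (((m + 1 : ℕ) : K) - 1) = (m : K) := by push_cast; ring
    rw [h2]
    exact h
  a_inj m j x _ h0 := ftA_inj (fourData K m) (by rw [h0, map_zero])
  ba m j x _ := ft_comp1 (fourData K m) x
  ab_ex m j := ft_exact1 (fourData K m) (isStd_fil0 K _) (isStd_fil0 K _) _ (by omega)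
  cb m j x _ := ft_comp2 (fourData K m) x
  bc_ex m j := ft_exact2 (fourData K m) (isStd_fil0 K _) _ (by omega)
  c_surj m j := ft_surj (fourData K m) (isStd_fil0 K _) _ (by omega)
  d_inj m j x _ h0 := htA_inj (K := K) (W := MM K (m + 1)) (by rw [h0, map_zero])
  ed m j x _ := rfl
  de_ex m j := ht_exact (isStd_fil0 K _) _ (by omega)
  e_surj m j := ht_surj (j : ℤ)
  zero := inferInstanceAs (Subsingleton (MM K 0))
  fin m j := by
    have h : fil0 K (MM K m) (j : ℤ) = ⊤ := fil0_of_nonneg (by omega)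
    change Module.Finite K (fil0 K (MM K m) (j : ℤ))
    rw [h]
    infer_instance

end Vale.Agent.P176
end
end

section

section

/-!
# P176: a finite-dimensional algebra of infinite little finitistic dimension
-/

namespace Vale.Agent.P176

open Vale.Agent.P176.HMod Vale.Agent.P176.Mm

universe u

variable (K : Type u) [Field K] [CharZero K]

theorem good_M (m j : ℕ) (hj : j ≤ 1) :
    Good (WAlg (PU (UnivS.obj K K))) (Win (PU (UnivS.obj K K)) (T4 K))
      (Win (PU (UnivS.obj K K)) (((mTower K).G m).shift (j : ℤ))) 3 j := by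
  have hnt : Nontrivial (MM K (m + 1)) := by
    apply Module.nontrivial_of_finrank_pos (R := K)
    rw [finrank_MM]
    omega
  exact good_final (isSl2_M (m + 1)) hj

/-- Over every field of characteristic zero there is a finite-dimensional algebra whose little
finitistic dimension is infinite. -/
theorem exists_findim_eq_top :
    ∃ (A : Type u) (_ : Ring A) (_ : Algebra K A), Module.Finite K A ∧ findim A = ⊤ := by
  have hU := UnivS.isFree K K
  exact ⟨WAlg (PU (UnivS.obj K K)), inferInstance, inferInstance,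
    WAlg.finite (hU.mem 1) hU.isGen (UnivS.fil_finite K K),
    (mTower K).findim_eq_top hU (fun m => good_M K m 0 (by omega))
      (fun m => good_M K m 1 (by omega))⟩

end Vale.Agent.P176
end
end
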